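import Vale.Agent.P247E.QSolv

/-!
# P247W: Hodge theory for one-forms without assumptions on the Betti numbers
-/

set_option linter.all false

open scoped ContDiff Topology ENNReal ComplexConjugate
open Set MeasureTheory Filter

noncomputable section

namespace Vale.Agent.P247W

open Vale.Agent.P204.GX Vale.Agent.P204.T4 Vale.Agent.P247E Vale.Agent.P247E.Solv
open Vale.Agent.P247.H647 (Sp hat)

/-- the Green operator of an operator with closed range -/
theorem exists_green {H₁ H₂ : Type} [NormedAddCommGroup H₁] [InnerProductSpace ℝ H₁]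
    [CompleteSpace H₁] [NormedAddCommGroup H₂] [InnerProductSpace ℝ H₂] [CompleteSpace H₂]
    (D : H₁ →L[ℝ] H₂) (cl : IsClosed (Set.range D)) : ∃ G : H₂ →L[ℝ] H₁, (∀ g, G g ∈ D.kerᗮ) ∧
      (∀ g, g - D (G g) ∈ D.rangeᗮ) ∧ (∀ w, D (G (D w)) = D w) ∧ ∀ w ∈ D.kerᗮ, G (D w) = w := by
  have : CompleteSpace D.ker := D.isClosed_ker.completeSpace_coe
  let D' := D.comp D.kerᗮ.subtypeL
  have hr : ∀ w, ∃ v, D' v = D w := fun w => by
    obtain ⟨k, hk, v, hv, rfl⟩ := D.ker.exists_add_mem_mem_orthogonal w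
    refine ⟨(⟨v, hv⟩ : D.kerᗮ), ?_⟩
    rw [map_add, show D k = 0 from hk, zero_add]; rfl
  have er : Set.range D' = Set.range D :=
    Subset.antisymm (range_subset_iff.2 fun v => ⟨v.1, rfl⟩) (range_subset_iff.2 hr)
  have inj : Function.Injective D' := (injective_iff_map_eq_zero _).2 fun v hv =>
    Subtype.ext (inner_self_eq_zero (𝕜 := ℝ) |>.1 (v.2 v hv))
  have cl' : IsClosed (Set.range D') := er ▸ cl
  have : CompleteSpace D'.range := cl'.completeSpace_coe
  have l : ∀ v, (D'.equivRange inj cl').symm (D'.range.orthogonalProjectionOnto (D' v)) = v :=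
    fun v => by
      rw [ContinuousLinearEquiv.symm_apply_eq]
      exact Submodule.orthogonalProjectionOnto_mem_subspace_eq_self (⟨D' v, v, rfl⟩ : D'.range)
  refine ⟨D.kerᗮ.subtypeL.comp ((D'.equivRange inj cl').symm.toContinuousLinearMap.comp
    D'.range.orthogonalProjectionOnto), fun g => Subtype.property _, fun g => ?_, fun w => ?_,
    fun w hw => congrArg Subtype.val (l ⟨w, hw⟩)⟩
  · rintro _ ⟨w, rfl⟩
    obtain ⟨v, hv⟩ := hr w
    have h := congrArg Subtype.val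
      ((D'.equivRange inj cl').apply_symm_apply (D'.range.orthogonalProjectionOnto g))
    exact (congrArg (fun z => inner ℝ (D w) (g - z)) h).trans
      (D'.range.sub_starProjection_mem_orthogonal g _ ⟨v, hv⟩)
  · obtain ⟨v, hv⟩ := hr w
    rw [← hv]
    exact congrArg D' (l v)

variable {X : Type} [MetricSpace X] [CompactSpace X] [MeasurableSpace X] [BorelSpace X]

section op

variable {M : CM X} {V W : Type} [NormedAddCommGroup V] [InnerProductSpace ℝ V]
  [FiniteDimensional ℝ V] [NormedAddCommGroup W] [InnerProductSpace ℝ W] [FiniteDimensional ℝ W]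
  {E : Bun M V} {F : Bun M W}

/-- `G` is a Green operator of `P` -/
structure Green (P : Op E F) (G : LL2 M W →L[ℝ] E.H1) : Prop where
  perp : ∀ g, G g ∈ P.clm.kerᗮ
  left : ∀ w ∈ P.clm.kerᗮ, G (P.clm w) = w
  left' : ∀ w, P.clm (G (P.clm w)) = P.clm w
  right : ∀ g : LL2 M W, (∀ t ∈ P.adj.kerS, ∫ x, inner ℝ ((g : X → W) x) (t x) ∂M.mu = 0) →
    P.clm (G g) = g
  rest : ∀ g, ∃ t ∈ P.adj.kerS, ((g - P.clm (G g) : LL2 M W) : X → W) =ᵐ[M.mu] t

theorem exists_Green {P : Op E F} (h : P.Cliff) (hd : Module.finrank ℝ V = Module.finrank ℝ W) :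
    ∃ G, Green P G := by
  have := FiniteDimensional.complete ℝ V
  have := FiniteDimensional.complete ℝ W
  have h' := (CLA X M V W E F hd P _ P.isAdj_adj h).gar
  obtain ⟨-, cl, -, r, -⟩ := fred X M V W E F P _ P.isAdj_adj h.gar h'
  obtain ⟨G, g1, g2, g3, g4⟩ := exists_green P.clm cl
  refine ⟨G, g1, g4, g3, fun g hg => ?_, fun g => (Fred.mem BAS REG h' _).1 ?_⟩
  · obtain ⟨w, rfl⟩ := (r g).2 hg
    exact g3 w
  · rw [← Fred.orth BAS adj ws P.isAdj_adj h']
    exact g2 g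

/-- the orthogonal decomposition of smooth sections -/
theorem sm_dec {P : Op E F} {P' : Op F E} (hA : P.IsAdj P') (h : P.Gar) (h' : P'.Gar) {g : X → W}
    (hg : g ∈ F.Sm) : ∃ s ∈ E.Sm, ∃ t ∈ P'.kerS, g = P.app s + t := by
  have := FiniteDimensional.complete ℝ V
  have := FiniteDimensional.complete ℝ W
  have cl := (fred X M V W E F P _ hA h h').2.1
  have : CompleteSpace P.clm.range := cl.completeSpace_coe
  obtain ⟨_, ⟨w, rfl⟩, v, hv, e⟩ := P.clm.range.exists_add_mem_mem_orthogonal (F.J (F.jw hg))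
  rw [Fred.orth BAS adj ws hA h'] at hv
  obtain ⟨t, ht, et⟩ := (Fred.mem BAS REG h' _).1 hv
  obtain ⟨s, hs, -, es⟩ := P.reg_sm h w (F.Sm.sub_mem hg ht.1) (by
    filter_upwards [(F.rep_jw hg).J_ae, et, Lp.coeFn_add (P.clm w) v] with x a1 a2 a3
    rw [Pi.sub_apply, ← a1, ← a2, e]
    exact eq_sub_of_add_eq a3.symm)
  exact ⟨s, hs, t, ht, by rw [es, sub_add_cancel]⟩

end op

variable {Q : QM X} {H : Op Q.t1 Q.t0}

theorem closed_dX {η : X → V4} (s : Q.Sm1 η) (a : Q.A) : Closed (Q.cf a (Q.dX η)) := by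
  rw [Q.cf_dX s]; exact closed_d1 (s a)

/-- an exact anti-self-dual form vanishes -/
theorem dX_zero {η : X → V4} (s : Q.Sm1 η) (h : ∀ x k, hat (ent (Q.dX η x)) k = 0) :
    Q.dX η = 0 := by
  have m := Q.dX_mem_Om s
  have k : ∀ x, -P204.T4.Q (Q.dX η x) (Q.dX η x) = ∑ i, Q.dX η x i ^ 2 := fun x => by
    have k0 : Q.dX η x 0 + Q.dX η x 5 = 0 := (Hx.hc_succ _ 0).trans (h x 0)
    have k1 : Q.dX η x 1 - Q.dX η x 4 = 0 := (Hx.hc_succ _ 1).trans (h x 1)
    have k2 : Q.dX η x 2 + Q.dX η x 3 = 0 := (Hx.hc_succ _ 2).trans (h x 2)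
    generalize Q.dX η x = A at *
    rw [Fin.sum_univ_six, P204.T4.Q]
    linear_combination -(A 0 + A 5) * k0 - (A 1 - A 4) * k1 - (A 2 + A 3) * k2
  exact om_zero m (((integral_eq_zero_iff_of_nonneg (fun x => (k x).ge.trans' (by positivity))
    (intQ m m).neg).1 (by rw [integral_neg, stokes s m (closed_dX s), neg_zero])).mono
    fun x hx => funext fun i => pow_eq_zero_iff two_ne_zero |>.1
      ((Finset.sum_eq_zero_iff_of_nonneg fun _ _ => sq_nonneg _).1 ((k x).symm.trans hx) i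
        (Finset.mem_univ i)))

/-- harmonic one-forms -/
structure Harm (Q : QM X) (η : X → V4) : Prop where
  sm : Q.Sm1 η
  cl : Q.dX η = 0
  co : ∀ f : X → ℝ, Q.Sm0 f → ∫ x, ∑ c, df Q.toCM f x c * η x c ∂Q.mu = 0

theorem mem_ker (hH : Q.IsHod H) {φ : X → Sp} : φ ∈ H.kerS ↔ Harm Q fun x => vec (φ x) := by
  have v0 : vec 0 = 0 := map_zero vecL
  refine ⟨fun h => ⟨(Q.mem_t1 φ).1 h.1, dX_zero ((Q.mem_t1 φ).1 h.1) fun x k => ?_, fun f hf => ?_⟩,
    fun h => ?_⟩
  · rw [← hH.curl φ h.1, h.2, v0]; rfl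
  · simpa only [h.2, v0, Pi.zero_apply, mul_zero, integral_zero, zero_eq_neg] using
      hH.div φ h.1 f hf
  have s := (Q.mem_t1 φ).2 h.sm
  have m := H.app_mem s
  refine ⟨s, congrFun (Bun.zero_of_int m ?_)⟩
  have := hH.div φ s _ (sm_0 m)
  rw [h.co _ (sm_0 m), neg_zero] at this
  simpa only [Hx.inner_vec, Fin.sum_univ_succ (n := 3), hH.curl φ s, h.cl, ← Hx.hc_succ,
    Pi.zero_apply, map_zero, mul_zero, Finset.sum_const_zero, add_zero] using this

theorem Harm.spn (hH : Q.IsHod H) {η : X → V4} (h : Harm Q η) : (fun x => spn (η x)) ∈ H.kerS :=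
  (mem_ker hH).2 (by simpa only [vec_spn] using h)

/-- harmonic exact forms vanish -/
theorem Harm.of_df {f : X → ℝ} (hf : Q.Sm0 f) (h : Harm Q (df Q.toCM f)) : df Q.toCM f = 0 :=
  df_zero hf (h.co f hf)

theorem int_dot {M : CM X} {u v : X → V4} (hu : BM u) (hv : BM v) :
    Integrable (fun x => ∑ c, u x c * v x c) M.mu := memLp_one_iff_integrable.1
  (((hu.prod hv).cont (F := fun p => ∑ c, p.1 c * p.2 c) (by fun_prop)).memLp 1)

theorem Harm.add {η ξ : X → V4} (h : Harm Q η) (k : Harm Q ξ) : Harm Q (η + ξ) :=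
  ⟨fun a => by rw [Q.cf1_add]; exact (h.sm a).add (k.sm a),
    by rw [Q.dX_add h.sm k.sm, h.cl, k.cl, add_zero], fun f hf => by
      simp only [Pi.add_apply, mul_add, Finset.sum_add_distrib]
      rw [integral_add (int_dot (bm_Sm1 (sm1_df hf)) (bm_Sm1 h.sm))
        (int_dot (bm_Sm1 (sm1_df hf)) (bm_Sm1 k.sm)), h.co f hf, k.co f hf, add_zero]⟩

theorem Harm.smul {η : X → V4} (h : Harm Q η) (c : ℝ) : Harm Q (c • η) :=
  ⟨fun a => by rw [Q.cf1_smul]; exact (h.sm a).const_smul c, by rw [Q.dX_smul c h.sm, h.cl, smul_zero],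
    fun f hf => by
      simp only [Pi.smul_apply, smul_eq_mul, mul_left_comm _ c, ← Finset.mul_sum,
        integral_const_mul, h.co f hf, mul_zero]⟩

variable [ConnectedSpace X]

theorem const_of_df {M : CM X} {f : X → ℝ} (hf : M.Sm0 f) (h : df M f = 0) : ∃ c, ∀ x, f x = c := by
  have c0 : IsLocallyConstant f := (IsLocallyConstant.iff_eventually_eq _).2 fun x => by
    obtain ⟨a, y, -, rfl⟩ := M.cov x
    filter_upwards [(M.isOpen_range a).mem_nhds (mem_range_self y)]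
    rintro _ ⟨z, rfl⟩
    refine is_const_of_fderiv_eq_zero ((hf a).differentiable (by simp)) (fun y =>
      ContinuousLinearMap.ext fun v => ?_) z y
    have := fun i => congrFun (congrFun (cf1_df hf a) y) i
    simp only [h, M.cf1_zero, Pi.zero_apply, pd] at this
    rw [clm_vec]
    simp [P247.H74.e, ← this]
  exact ⟨_, fun x => c0.apply_eq_of_preconnectedSpace x (Classical.arbitrary X)⟩

theorem IsHod.cliff (hH : Q.IsHod H) : H.Cliff := (hodx X Q (.triv _)).2 H hH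

theorem IsHod.cliff' (hH : Q.IsHod H) : H.adj.Cliff :=
  CLA X _ _ _ _ _ rfl _ _ H.isAdj_adj (IsHod.cliff hH)

/-- the Hodge decomposition of closed one-forms -/
theorem hodge {η : X → V4} (s : Q.Sm1 η) (h : Q.dX η = 0) :
    ∃ f : X → ℝ, Q.Sm0 f ∧ Harm Q (η + df Q.toCM f) := by
  have hH := Hx.isHod Q
  obtain ⟨t, ht, k, hk, e⟩ := sm_dec (Hx.H Q).isAdj_adj.symm (IsHod.cliff' hH).gar
    (IsHod.cliff hH).gar ((Q.mem_t1 fun x => spn (η x)).2 (by simpa only [vec_spn] using s))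
  have hk' := (mem_ker hH).1 hk
  have f0 := sm_0 ht
  have s1 := sm1_df f0
  let ξ : X → V4 := η + df Q.toCM (fun x => vec (t x) 0) + (-1 : ℝ) • fun x => vec (k x)
  have s2 : Q.Sm1 (η + df Q.toCM fun x => vec (t x) 0) := fun a => by
    rw [Q.cf1_add]; exact (s a).add (s1 a)
  have s3 : Q.Sm1 ξ := fun a => by rw [Q.cf1_add]; exact (s2 a).add ((hk'.smul _).sm a)
  have c3 : Q.dX ξ = 0 := by
    rw [Q.dX_add s2 (hk'.smul _).sm, Q.dX_add s s1, h, dX_df f0, (hk'.smul _).cl]; simp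
  have m : (fun x => spn (ξ x)) ∈ Q.t1.Sm := (Q.mem_t1 _).2 (by simpa only [vec_spn] using s3)
  have e1 : ∀ x c, vec ((Hx.H Q).adj.app t x) c = ξ x c - df Q.toCM (fun x => vec (t x) 0) x c :=
    fun x c => by
      have := congrArg (fun z => vecL z c) (congrFun e x)
      simp only [Pi.add_apply, map_add, vecL_apply, vec_spn] at this
      simp only [ξ, this, Pi.add_apply, Pi.smul_apply, smul_eq_mul]
      ring
  have k1 := key hH m ht
  have b1 := bm_Sm1 s3
  have b2 := bm_Sm1 s1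
  simp only [Hx.inner_vec, vec_spn, e1, c3, mul_sub, Finset.sum_sub_distrib, Pi.zero_apply,
    Q_zero_left, integral_zero, add_zero] at k1
  rw [integral_sub (int_dot b1 b1) (int_dot b1 b2)] at k1
  simp only [mul_comm (ξ _ _) (df _ _ _ _), sub_eq_neg_self] at k1
  have z := Bun.zero_of_int m (by simpa only [Hx.inner_vec, vec_spn] using k1)
  refine ⟨_, f0, ?_⟩
  convert hk' using 1
  funext x
  have := congrArg vecL (congrFun z x)
  simp only [vecL_apply, vec_spn, Pi.zero_apply, map_zero, ξ, Pi.add_apply, Pi.smul_apply,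
    neg_smul, one_smul] at this
  exact eq_of_add_neg_eq_zero this

/-- the cokernel of the Hodge operator -/
theorem mem_coker (hH : Q.IsHod H) {t : X → Sp} : t ∈ H.adj.kerS ↔ t ∈ Q.t0.Sm ∧
    (∃ c, ∀ x, vec (t x) 0 = c) ∧ ∀ a, Closed (Q.cf a (sd fun x k => vec (t x) k.succ)) := by
  refine ⟨fun h => ?_, fun ⟨m, ⟨c, hc⟩, cl⟩ => ?_⟩
  · have k : ∀ η, Q.Sm1 η → -∫ x, ∑ c, df Q.toCM (fun x => vec (t x) 0) x c * η x c ∂Q.mu +
        ∫ x, P204.T4.Q (Q.dX η x) (sd (fun x k => vec (t x) k.succ) x) ∂Q.mu = 0 := fun η hη => by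
      simpa only [vec_spn, h.2, inner_zero_right, integral_zero] using (key hH (φ := fun x =>
        spn (η x)) ((Q.mem_t1 _).2 (by simpa only [vec_spn] using hη)) h.1).symm
    have f0 := sm_0 h.1
    have d0 := df_zero f0 (by simpa [dX_df f0] using k _ (sm1_df f0))
    have m := sd_mem (sm_s h.1)
    exact ⟨h.1, const_of_df f0 d0, fun a => weak4 ((m a).of_le (by norm_num)) fun η h1 h2 => by
      simpa [d0, Q.dX_ext1 a h1 h2, Q.integral_ext] using k _ (Q.sm1_ext1 a h1 h2)⟩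
  · refine ⟨m, congrFun (Bun.zero_of_int (H.adj.app_mem m) ?_)⟩
    rw [key hH (H.adj.app_mem m) m, stokes ((Q.mem_t1 _).1 (H.adj.app_mem m)) (sd_mem (sm_s m)) cl]
    simp [hc, df]

/-- the index of the untwisted Dirac operator -/
theorem ind_triv (hH : Q.IsHod H) : (Q.dirac (LBc.triv Q.toCM)).ind = -H.ind := by
  have dc := Q.dirac_cliff (LBc.triv Q.toCM)
  have da := (Q.dirac (LBc.triv Q.toCM)).isAdj_adj
  have dc' := CLA X _ _ _ _ _ rfl _ _ da dc
  rw [← H.neg_ind, (ZER X _ _ _ _ _).2 rfl _ H.neg dc' (by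
      funext a i y; exact (congrArg Neg.neg (Hx.Mi_eq Q hH a i y)).trans (neg_neg _)),
    (fred X _ _ _ _ _ _ _ da.symm dc'.gar dc.gar).2.2.2.2.2.2,
    (fred X _ _ _ _ _ _ _ da dc.gar dc'.gar).2.2.2.2.2.2, neg_sub]

theorem ind_hod (hH : Q.IsHod H) : H.ind = (Module.finrank ℝ (Submodule.span ℝ H.kerS) : ℤ) -
    Module.finrank ℝ (Submodule.span ℝ H.adj.kerS) :=
  (fred X _ _ _ _ _ H _ H.isAdj_adj (IsHod.cliff hH).gar (IsHod.cliff' hH).gar).2.2.2.2.2.2

end Vale.Agent.P247W
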