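import Vale.Agent.P247W.Bs

/-!
# P247W, block BP: the rows `SOL` and `APB`
-/

set_option linter.all false

open scoped ContDiff Topology ENNReal ComplexConjugate
open Set MeasureTheory Filter

noncomputable section

namespace Vale.Agent.P247W.Bp

open Vale.Agent.P204.GX Vale.Agent.P204.T4 Vale.Agent.P247E Vale.Agent.P247A
open Vale.Agent.P247E.R
open Vale.Agent.P247.H647 (Sp En sig pau len len_sq len_nonneg abs_le_len)

namespace Apb

theorem ct_eq {m : ℝ} (hm : 0 < m) {c : Fin 3 → ℝ} {y : Sp} (h : lam c y = 0) : ct m c y = c := by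
  rcases le_or_gt (mm c y) 0 with k | k
  · rw [ct, max_eq_left (div_nonpos_of_nonpos_of_nonneg k hm.le), min_eq_right zero_le_one,
      zero_smul, add_zero]
  have k2 := (lt_min_iff.1 k).2
  have e1 : ‖(c 0 + c 1 * Complex.I : ℂ)‖ ^ 2 = (len c - c 2) * (len c + c 2) := by
    have := len_sq c
    rw [Fin.sum_univ_three] at this
    rw [Complex.sq_norm, Complex.normSq_add_mul_I]
    linarith
  have e0 : 0 ≤ len c - c 2 := sub_nonneg.2 ((le_abs_self _).trans (abs_le_len c 2))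
  have e2 : ‖(c 0 + c 1 * Complex.I : ℂ)‖ * ‖y 0‖ = (len c - c 2) * ‖y 1‖ := by
    rw [← norm_mul, eq_neg_of_add_eq_zero_left h, norm_neg, norm_mul, Complex.norm_real,
      Real.norm_of_nonneg e0]
  have e3 : ‖(c 0 + c 1 * Complex.I : ℂ)‖ = 0 := by
    by_contra hn
    have p := (norm_nonneg _).lt_of_ne' hn
    have := mul_pos p k2
    generalize ‖(c 0 + c 1 * Complex.I : ℂ)‖ = a at *
    have e4 : a * ((len c + c 2) * ‖y 0‖ - a * ‖y 1‖) =
        (len c + c 2) * (a * ‖y 0‖) - a ^ 2 * ‖y 1‖ := by ring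
    rw [e4, e2, e1] at this
    linarith
  rw [e3, zero_mul, sub_zero] at k2
  rw [e3, zero_pow two_ne_zero] at e1
  have e5 : len c - c 2 = 0 := (mul_eq_zero.1 e1.symm).resolve_right fun hh => by
    rw [hh, zero_mul] at k2; exact lt_irrefl _ k2
  have e6 := norm_eq_zero.1 e3
  have e7 : c 0 = 0 := by simpa using congrArg Complex.re e6
  have e8 : c 1 = 0 := by simpa using congrArg Complex.im e6
  have e9 : len c • u0 - c = 0 := by
    funext i
    fin_cases i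
    · simpa [u0] using e7
    · simpa [u0] using e8
    · simpa [u0] using e5
  rw [ct, e9, smul_zero, add_zero]

variable {X : Type} [MetricSpace X] [CompactSpace X] [ConnectedSpace X] [MeasurableSpace X]
  [BorelSpace X] {Q : QM X}

theorem Fh_zero (x : X) (k : Fin 3) : (L0 Q).Fh x k = 0 := by
  rw [LBc.Fh, LBc.triv_F]
  fin_cases k <;> simp [P247.H647.hat, ent]

/-- the bound for the parameter -/
theorem len_le {L : LBc Q.toCM} {H : Op Q.t1 Q.t0} {B : ℝ} {Z : (Fin 3 → ℝ) → X → En}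
    (hZ : ZFam Q B Z) {R : ℝ} {w : L.bp.H1} {φ : Q.t1.H1} {c : Fin 3 → ℝ} (hR : 0 < R)
    (hw : WSol Q L H Z R w φ c) : len c ≤ B ^ 3 / (2 * Q.mu.real univ) * ‖L.bp.J w‖ ^ 2 := by
  have hV : 0 < Q.mu.real univ :=
    ENNReal.toReal_pos (isOpen_univ.measure_pos Q.mu univ_nonempty).ne' (measure_ne_top _ _)
  have hB := hZ.pos
  have n0 := nul_mean BQ1 BQ2 hw.mean c
  have i1 := (int_sq (L.bp.J w)).const_mul (B * len c / 2)
  have k1 : ∫ x, ((B⁻¹ * len c) ^ 2 - B * len c / 2 * ‖ps w x‖ ^ 2) ∂Q.mu ≤ 0 := by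
    rw [← n0.2]
    refine integral_mono_ae ((integrable_const _).sub i1) n0.1 ?_
    filter_upwards [hw.curv] with x hx
    obtain ⟨a1, a2⟩ := len_nu hZ c x
    have a3 : ∑ k, Q.nu c x k * Q.Fa L H φ x k = len (Q.nu c x) ^ 2 -
        1 / 2 * (gq R (‖ps w x‖ ^ 2) * ∑ k, Q.nu c x k * spin (ps w x) k) := by
      rw [len_sq, Finset.mul_sum, Finset.mul_sum, ← Finset.sum_sub_distrib]
      exact Finset.sum_congr rfl fun k _ => by rw [hx, qT, spin]; ring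
    have a4 : gq R (‖ps w x‖ ^ 2) * ∑ k, Q.nu c x k * spin (ps w x) k ≤
        1 * (B * len c * ‖ps w x‖ ^ 2) := by
      refine (mul_le_mul_of_nonneg_left (dot_le _ _) (gq_pos hR _).le).trans ?_
      rw [len_spin]
      exact mul_le_mul (gq_le_one hR _) (mul_le_mul_of_nonneg_right a2 (sq_nonneg _))
        (mul_nonneg (len_nonneg _) (sq_nonneg _)) zero_le_one
    have a5 := pow_le_pow_left₀ (mul_nonneg (inv_pos.2 hB).le (len_nonneg _)) a1 2
    rw [a3]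
    linarith
  rw [integral_sub (integrable_const _) i1, integral_const, integral_const_mul, ← norm_sq_L2,
    smul_eq_mul] at k1
  generalize Q.mu.real univ = V at *
  rcases (len_nonneg c).eq_or_lt with h | h
  · rw [← h]; positivity
  · rw [div_mul_eq_mul_div, le_div_iff₀ (by positivity)]
    have : len c * (len c * (2 * V)) ≤ len c * (B ^ 3 * ‖L.bp.J w‖ ^ 2) := by
      have e1 : len c * (len c * (2 * V)) = 2 * B ^ 2 * (V * (B⁻¹ * len c) ^ 2) := by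
        field_simp
      have e2 : len c * (B ^ 3 * ‖L.bp.J w‖ ^ 2) =
        2 * B ^ 2 * (B * len c / 2 * ‖L.bp.J w‖ ^ 2) := by ring
      rw [e1, e2]
      exact mul_le_mul_of_nonneg_left (by linarith) (by positivity)
    exact le_of_mul_le_mul_left this h

variable {b n : ℕ} (D : Dat Q b n) {R : ℝ} (hR : 0 < R) {m : ℝ} {v : (L0 Q).bp.H1} {h : Rv b}

theorem parts (hm : 0 < m) (h0 : D.F.tot (D.Φ hR m) (v, h) = 0) :
    Dh (L0 Q) D.C h v + K1 Q.t1 (L0 Q).bp (D.G (D.gf hR ((L0 Q).bp.J v))) v +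
      mR Q.toCM (D.Z (D.cf hR ((L0 Q).bp.J v))) ((L0 Q).bp.J v) = 0 ∧
    lam (D.cf hR ((L0 Q).bp.J v)) (D.sf ((L0 Q).bp.J v) h) = 0 ∧
    D.e (D.gf hR ((L0 Q).bp.J v)) = 0 := by
  have h2 : lam (D.cf hR ((L0 Q).bp.J v)) (D.sf ((L0 Q).bp.J v) h) = 0 :=
    congrFun (congrArg (fun q => q.2.1) h0) 0
  refine ⟨?_, h2, congrArg (fun q => q.2.2) h0⟩
  have h1 : Dh (L0 Q) D.C h v + (K1 Q.t1 (L0 Q).bp (D.G (D.gf hR ((L0 Q).bp.J v))) v +
      mR Q.toCM (D.Z (ct m (D.cf hR ((L0 Q).bp.J v)) (D.sf ((L0 Q).bp.J v) h)))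
        ((L0 Q).bp.J v)) = 0 := congrArg Prod.fst h0
  rwa [ct_eq hm h2, ← add_assoc] at h1

theorem wsol (hm : 0 < m) (h0 : D.F.tot (D.Φ hR m) (v, h) = 0) :
    WSol Q (L0 Q) D.H D.Z R v (Ex.ph D.C h + D.G (D.gf hR ((L0 Q).bp.J v)))
      (D.cf hR ((L0 Q).bp.J v)) := by
  obtain ⟨p1, -, p3⟩ := parts D hR hm h0
  have gae : (D.gf hR ((L0 Q).bp.J v) : X → Sp) =ᵐ[Q.mu] _ := sub_ae hR _ _
  have o1 : ∀ j, inner ℝ (tau Q j) (D.gf hR ((L0 Q).bp.J v)) = 0 := fun j => by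
    rw [← sg_single]; exact D.hc _ _
  rw [Ex.Dh_ph, add_assoc ((Q.dirac (L0 Q)).clm v), ← ContinuousLinearMap.add_apply,
    ← map_add] at p1
  generalize D.gf hR ((L0 Q).bp.J v) = g at *
  have hH : D.H.clm (Ex.ph D.C h + D.G g) = g := by
    rw [map_add, (D.hq.clm_eq_zero D.hH).2 ⟨h, D.ph_eq h⟩, zero_add]
    refine D.he g ?_ (fun j => (inner_tau j g).symm.trans (o1 j)) p3
    rw [← integral_zero X ℝ (μ := Q.mu)]
    refine integral_congr_ae ?_
    filter_upwards [gae] with x hx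
    rw [hx, vec_E3_zero]
  generalize Ex.ph D.C h + D.G g = φ at *
  generalize D.cf hR ((L0 Q).bp.J v) = c at *
  have hFa : ∀ᵐ x ∂Q.mu, ∀ k, Q.Fa (L0 Q) D.H φ x k =
      Q.nu c x k - (1 / 2) * qT R (((L0 Q).bp.J v : X → Sp) x) k := by
    filter_upwards [gae] with x hx k
    rw [QM.Fa, hH, hx, vec_E3_succ, Fh_zero, zero_add]
    rfl
  refine ⟨?_, ?_, hFa, fun j => ?_⟩
  · have a0 := Lp.coeFn_zero Sp 2 Q.mu
    rw [← p1] at a0
    filter_upwards [a0, Lp.coeFn_add ((Q.dirac (L0 Q)).clm v + K1 Q.t1 (L0 Q).bp φ v)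
      (mR Q.toCM (D.Z c) ((L0 Q).bp.J v)), Apd.dirac_ae v φ,
      (D.hZ.hom c (L0 Q)).bm.mulOp_ae ((L0 Q).bp.J v)] with x a1 a2 a3 a4
    rw [a2, Pi.add_apply, a3, mR, a4] at a1
    exact a1
  · filter_upwards [gae] with x hx
    rw [hH, hx, vec_E3_zero]
  · rw [← o1 j, inner_tau]
    refine integral_congr_ae ?_
    filter_upwards [hFa, gae] with x a1 a2
    simp only [a1, a2, vec_E3_succ]
    rfl

end Apb

theorem sol : SOL_statement := fun _ _ _ _ _ _ _ _ _ D _ hR _ _ _ hm h0 =>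
  ⟨Apb.wsol D hR hm h0, (Apb.parts D hR hm h0).2.1⟩

theorem apb : APB_statement := by
  intro X _ _ _ _ _ Q b n D
  have hB := D.hZ.pos
  refine ⟨D.B ^ 3 / (2 * Q.mu.real univ), fun r₀ => ?_⟩
  obtain ⟨M, R₀, hM⟩ := Apd.apr_int D.hH (L0 Q) D.B (D.B * r₀)
  refine ⟨‖cl‖ * (‖J4 Q.t1‖ * (‖D.G‖ * (‖sg Q‖ * (‖D.cL‖ * M) + M))) * M + D.B * M + M, R₀,
    fun R hR m v h hm r1 h0 => ⟨?_, fun hc => ?_⟩⟩
  · exact (Apb.len_le D.hZ.toZFam hR (Apb.wsol D hR hm h0)).trans (mul_le_mul_of_nonneg_left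
      (pow_le_pow_left₀ (norm_nonneg _) (J_le_NN (L0 Q) D.C (v, h)) 2) (by positivity))
  have hw := Apb.wsol D hR hm h0
  obtain ⟨b1, b2, b3⟩ := hM R v _ hR r1 ⟨hw.dirac.mono fun x hx => by
      rw [eq_neg_of_add_eq_zero_left hx, norm_neg]
      exact (D.Z _ x).le_of_opNorm_le (D.hZ.bd _ x) _, hw.curv.mono fun x hx => by
      simp only [hx, sub_add_cancel]
      exact (len_nu D.hZ.toZFam _ x).2.trans (mul_le_mul_of_nonneg_left hc hB.le)⟩
  have b4 : ‖(1 / 2 : ℝ) • nq Q hR ((L0 Q).bp.J v)‖ ≤ M := by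
    rw [norm_smul, Real.norm_of_nonneg (by norm_num)]
    linarith [norm_nonneg (nq Q hR ((L0 Q).bp.J v))]
  have b5 : ‖D.gf hR ((L0 Q).bp.J v)‖ ≤ ‖sg Q‖ * (‖D.cL‖ * M) + M :=
    (norm_sub_le _ _).trans (add_le_add ((sg Q).le_opNorm_of_le (D.cL.le_opNorm_of_le b4)) b4)
  have b6 := (J4 Q.t1).le_opNorm_of_le (D.G.le_opNorm_of_le b5)
  have b7 := (norm_K1_le _ _ _ v).trans (mul_le_mul (mul_le_mul_of_nonneg_left b6 cl.opNorm_nonneg)
    b3 (norm_nonneg _) (mul_nonneg cl.opNorm_nonneg ((norm_nonneg _).trans b6)))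
  have b8 : ‖mR Q.toCM (D.Z (D.cf hR ((L0 Q).bp.J v))) ((L0 Q).bp.J v)‖ ≤ D.B * M := by
    refine le_trans (Lp.norm_le_mul_norm_of_ae_le_mul ?_) (mul_le_mul_of_nonneg_left b1 hB.le)
    filter_upwards [(D.hZ.hom _ (L0 Q)).bm.mulOp_ae ((L0 Q).bp.J v)] with x hx
    rw [mR, hx]
    exact (D.Z _ x).le_of_opNorm_le (D.hZ.bd _ x) _
  have b9 := ((congrArg norm (eq_neg_of_add_eq_zero_left ((add_assoc _ _ _).symm.trans
    (Apb.parts D hR hm h0).1))).trans (norm_neg _)).trans_le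
      ((norm_add_le _ _).trans (add_le_add b7 b8))
  refine le_trans (Real.sqrt_le_iff.2 ⟨by positivity, ?_⟩) (add_le_add b9 b1)
  nlinarith [mul_nonneg (norm_nonneg (Dh (L0 Q) D.C h v)) (norm_nonneg ((L0 Q).bp.J v))]

end Vale.Agent.P247W.Bp
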