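import Vale.Agent.P247W.Bs

/-!
# P247W, block BP: the base point
-/

set_option linter.all false

open scoped ContDiff Topology ENNReal ComplexConjugate
open Set MeasureTheory Filter

noncomputable section

namespace Vale.Agent.P247W.Bp.Bse

open Vale.Agent.P204.GX Vale.Agent.P204.T4 Vale.Agent.P247E Vale.Agent.P247A
open Vale.Agent.P247E.R
open Vale.Agent.P247.H647 (Sp En sig pau len P3 symb len_sq len_nonneg P3_fin inner_sp)

variable {X : Type} [MetricSpace X] [CompactSpace X] [ConnectedSpace X] [MeasurableSpace X]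
  [BorelSpace X] {Q : QM X} {b n : ℕ} (D : Dat Q b n) {R : ℝ} (hR : 0 < R) {t : ℝ}

theorem rsm (s : ℝ) (u : Sp) : s • u = (s : ℂ) • u := by ext i; simp

theorem J_t (t : ℝ) : ((L0 Q).bp.J (t • D.v1) : X → Sp) =ᵐ[Q.mu] fun x => t • D.E.fp x := by
  rw [map_smul]
  filter_upwards [Lp.coeFn_smul t ((L0 Q).bp.J D.v1), D.rep_v1.J_ae] with x h1 h2
  rw [h1, Pi.smul_apply, h2]

theorem cL_sg (u : Fin 3 → ℝ) : D.cL (sg Q u) = u := by
  have h := D.hc (sg Q u) (D.cL (sg Q u) - u)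
  rw [← map_sub, inner_self_eq_zero] at h
  have h1 := sg_ae (Q := Q) (D.cL (sg Q u) - u)
  rw [h] at h1
  obtain ⟨x, hx⟩ := (h1.symm.trans (Lp.coeFn_zero _ _ _)).exists
  have h2 := norm_E3_sq (Q.nu (D.cL (sg Q u) - u) x)
  rw [show E3 (Q.nu (D.cL (sg Q u) - u) x) = 0 from hx, norm_zero, ← len_sq] at h2
  have h3 : len (Q.nu (D.cL (sg Q u) - u) x) = 0 := by
    simpa using h2.symm
  have h4 := (len_nu D.hZ.toZFam (D.cL (sg Q u) - u) x).1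
  rw [h3] at h4
  have h5 : len (D.cL (sg Q u) - u) ≤ 0 :=
    nonpos_of_mul_nonpos_right h4 (inv_pos.2 D.hZ.pos) |> fun h => h
  refine sub_eq_zero.1 (funext fun k => ?_)
  exact abs_nonpos_iff.1 ((P247.H647.abs_le_len _ k).trans h5)

theorem half_nq (h2 : 2 * D.B * t ^ 2 ≤ R ^ 2) :
    (1 / 2 : ℝ) • nq Q hR ((L0 Q).bp.J (t • D.v1)) = sg Q (t ^ 2 • u0) := by
  refine Lp.ext ?_
  filter_upwards [Lp.coeFn_smul (1 / 2 : ℝ) (nq Q hR ((L0 Q).bp.J (t • D.v1))),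
    nq_ae hR ((L0 Q).bp.J (t • D.v1)), J_t D t, sg_ae (Q := Q) (t ^ 2 • u0)] with x h1 h3 h4 h5
  rw [h1, Pi.smul_apply, h3, h4, h5, ← map_smul]
  congr 1
  funext k
  have hl0 : 0 < len (Q.nu u0 x) := (inv_pos.2 D.hZ.pos).trans_le (D.E.lam_ge x)
  have hν : (inner ℂ (D.E.fp x) (pau k (D.E.fp x))).re = 2 * Q.nu u0 x k := by
    rw [P247.H647.inner_eig hl0.ne' (D.E.fp_eig x), D.E.fp_norm]
    field_simp
  have e1 : ‖t • D.E.fp x‖ ^ 2 ≤ R ^ 2 := by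
    rw [norm_smul, mul_pow, D.E.fp_norm, Real.norm_eq_abs, sq_abs]
    nlinarith [D.E.lam_le x, sq_nonneg t]
  have e2 : gq R (‖t • D.E.fp x‖ ^ 2) = 1 := by
    rw [gq, max_eq_right e1, div_self (by positivity)]
  rw [Pi.smul_apply, qT, e2, nu_smul, rsm, map_smul, inner_smul_left, inner_smul_right,
    Complex.conj_ofReal, Complex.re_ofReal_mul, Complex.re_ofReal_mul, hν, smul_eq_mul]
  ring

theorem cf_eq (h2 : 2 * D.B * t ^ 2 ≤ R ^ 2) : D.cf hR ((L0 Q).bp.J (t • D.v1)) = t ^ 2 • u0 := by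
  rw [Dat.cf, half_nq D hR h2, cL_sg]

theorem gf_eq (h2 : 2 * D.B * t ^ 2 ≤ R ^ 2) : D.gf hR ((L0 Q).bp.J (t • D.v1)) = 0 := by
  rw [Dat.gf, cf_eq D hR h2, half_nq D hR h2, sub_self]

theorem sf_eq (t : ℝ) : D.sf ((L0 Q).bp.J (t • D.v1)) 0 = t • ∫ x, D.E.fp x ∂Q.mu := by
  have h : rd (0 : Rv b) = 0 := funext fun i => by simp [rd]
  rw [Dat.sf, h, neg_zero, gL_zero, integral_congr_ae (J_t D t), integral_smul]
  have : ‖(0 : Rv b) - fun i => (((0 : Fin b → ℤ) i : ℤ) : ℝ)‖ = 0 := by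
    rw [norm_eq_zero]; funext i; simp
  rw [this]
  simp

theorem int_ne : (∫ x, D.E.fp x ∂Q.mu) 0 ≠ 0 := by
  obtain ⟨s, h1, h2⟩ := D.pos
  have a1 := congrArg (fun v : Sp => v 1) h1
  simp only [P3_fin] at a1
  have a2 : s 1 = 0 := by
    simp [u0] at a1
    linear_combination (-1 / 2 : ℂ) * a1
  have i1 : Integrable D.E.fp Q.mu := memLp_one_iff_integrable.1 (D.E.fp_sm.bm.memLp 1)
  have c1 : Continuous fun x => (inner ℂ s (D.E.fp x)).re :=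
    Complex.continuous_re.comp (continuous_const.inner D.E.fp_sm.continuous)
  have p1 : 0 < ∫ x, (inner ℂ s (D.E.fp x)).re ∂Q.mu :=
    c1.integral_pos_of_hasCompactSupport_nonneg_nonzero (HasCompactSupport.of_compactSpace _)
      (fun x => (h2 x).le) (h2 (Classical.arbitrary X)).ne'
  intro h0
  have e1 : ∫ x, (inner ℂ s (D.E.fp x)).re ∂Q.mu = (inner ℂ s (∫ x, D.E.fp x ∂Q.mu)).re := by
    rw [← integral_inner i1]
    exact integral_re (i1.const_inner (𝕜 := ℂ) s)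
  rw [e1, inner_sp, h0, a2] at p1
  simp at p1

theorem len_t (t : ℝ) : len (t ^ 2 • u0) = t ^ 2 := by
  rw [len_smul' (sq_nonneg t), len_u0, mul_one]

theorem mm_pos (h1 : 1 < t) : 0 < mm (t ^ 2 • u0) (D.sf ((L0 Q).bp.J (t • D.v1)) 0) := by
  rw [sf_eq, mm, len_t]
  refine lt_min (by nlinarith) ?_
  have h0 : 0 < t := by linarith
  have h2 : 0 < ‖(t • ∫ x, D.E.fp x ∂Q.mu) 0‖ := by
    rw [norm_pos_iff, PiLp.smul_apply]
    exact smul_ne_zero h0.ne' (int_ne D)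
  have h3 : (t ^ 2 • u0) 0 = 0 := by simp [u0]
  have h4 : (t ^ 2 • u0) 1 = 0 := by simp [u0]
  have h5 : (t ^ 2 • u0) 2 = t ^ 2 := by simp [u0]
  rw [h3, h4, h5]
  simp only [Complex.ofReal_zero, zero_mul, add_zero, norm_zero, sub_zero]
  positivity

theorem dir_eq : (Q.dirac (L0 Q)).clm D.v1 + mR Q.toCM (D.Z u0) ((L0 Q).bp.J D.v1) = 0 := by
  refine Lp.ext ?_
  filter_upwards [Lp.coeFn_add ((Q.dirac (L0 Q)).clm D.v1) (mR Q.toCM (D.Z u0) ((L0 Q).bp.J D.v1)),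
    D.rep_v1.clm_ae (Hx.triv_sm.2 D.E.fp_sm) (Q.dirac (L0 Q)), D.rep_v1.J_ae,
    (D.hZ.hom u0 (L0 Q)).bm.mulOp_ae ((L0 Q).bp.J D.v1),
    Lp.coeFn_zero Sp 2 Q.mu] with x h1 h2 h3 h4 h5
  rw [h1, Pi.add_apply, h2, mR, h4, h3, h5, Q.dirac_app, reL_apply, Pi.zero_apply, ← D.E.dir_fp x]
  simp only [Hx.triv_cv]

theorem tot_eq (h1 : 1 < t) (h2 : 2 * D.B * t ^ 2 ≤ R ^ 2) (m : ℝ) :
    D.F.tot (D.Φ hR m) (t • D.v1, 0) = 0 := by
  have e1 : ∀ y, ct m (t ^ 2 • u0) y = t ^ 2 • u0 := fun y => by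
    rw [ct, len_t, sub_self, smul_zero, add_zero]
  have e2 : ∀ y, lam (t ^ 2 • u0) y = 0 := fun y => by
    rw [lam, len_t]
    simp [u0]
  rw [Fam.tot, Dat.Φ]
  simp only [cf_eq D hR h2, gf_eq D hR h2, e1, e2, map_zero, ContinuousLinearMap.zero_apply,
    zero_add, D.hZ.ray (t ^ 2) (by nlinarith)]
  refine Prod.ext ?_ rfl
  show Dh (L0 Q) D.C 0 (t • D.v1) + _ = 0
  rw [Dh_zero, map_smul, map_smul, map_smul, ← smul_add, dir_eq, smul_zero]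

end Vale.Agent.P247W.Bp.Bse

namespace Vale.Agent.P247W.Bp

theorem bse : BSE_statement := fun _ _ _ _ _ _ _ _ _ D _ hR _ h1 h2 =>
  ⟨Bse.cf_eq D hR h2, Bse.gf_eq D hR h2, Bse.mm_pos D h1, Bse.dir_eq D, Bse.tot_eq D hR h1 h2⟩

end Vale.Agent.P247W.Bp
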