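import Vale.Agent.P247W.Bs

/-!
# P247W, block BP: `DIF`
-/

set_option linter.all false

open scoped ContDiff Topology ENNReal ComplexConjugate
open Set MeasureTheory Filter Asymptotics

noncomputable section

namespace Vale.Agent.P247W.Bp

open Vale.Agent.P204.GX Vale.Agent.P204.T4 Vale.Agent.P247E Vale.Agent.P247A
open Vale.Agent.P247E.R
open Vale.Agent.P247.H647 (Sp En sig pau len P3 symb)

namespace Dif

theorem mul_zero' {E : Type} [NormedAddCommGroup E] [NormedSpace ℝ E] {f g : E → ℂ}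
    {f' : E →L[ℝ] ℂ} {x : E} (hf : HasFDerivAt f f' x) (h0 : f x = 0) (hg : ContinuousAt g x) :
    HasFDerivAt (fun y => f y * g y) (g x • f') x := by
  have h1 := (hf.mul_const (g x)).isLittleO
  have h2 := ((isLittleO_one_iff ℝ).2 (tendsto_sub_nhds_zero_iff.2 hg.tendsto)).smul_isBigO
    hf.isBigO_sub
  refine .of_isLittleO ((h1.add (h2.congr_right fun y => one_smul _ _)).congr_left fun y => ?_)
  simp only [h0, smul_eq_mul, ContinuousLinearMap.smul_apply]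
  ring

theorem len_der {τ : ℝ} (hτ : 0 < τ) : HasFDerivAt (fun c : Fin 3 → ℝ => len c - c 2)
    (0 : (Fin 3 → ℝ) →L[ℝ] ℝ) (τ • u0) := by
  have h1 : HasFDerivAt (fun c : Fin 3 → ℝ => ∑ k, c k ^ 2) _ (τ • u0) :=
    HasFDerivAt.fun_sum fun k _ => (hasFDerivAt_apply (𝕜 := ℝ) k (τ • u0)).pow 2
  have e : ∑ k, (τ • u0) k ^ 2 = τ ^ 2 := by simp [u0, Fin.sum_univ_three]
  have h2 := (h1.sqrt (by rw [e]; positivity)).sub (hasFDerivAt_apply (𝕜 := ℝ) 2 (τ • u0))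
  refine h2.congr_fderiv (ContinuousLinearMap.ext fun c => ?_)
  rw [e, Real.sqrt_sq hτ.le]
  simp [u0, Fin.sum_univ_three]
  field_simp
  ring

/-- the complex part of the parameter -/
def cc : (Fin 3 → ℝ) →L[ℝ] ℂ := Complex.ofRealCLM.comp (ContinuousLinearMap.proj 0) +
  Complex.I • Complex.ofRealCLM.comp (ContinuousLinearMap.proj 1)

theorem cc_apply (c : Fin 3 → ℝ) : cc c = c 0 + c 1 * Complex.I := by simp [cc, mul_comm]

theorem lam_der {E : Type} [NormedAddCommGroup E] [NormedSpace ℝ E] {c : E → Fin 3 → ℝ}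
    {c' : E →L[ℝ] Fin 3 → ℝ} {y : E → Sp} {x : E} {τ : ℝ} (hτ : 0 < τ) (hc : HasFDerivAt c c' x)
    (h0 : c x = τ • u0) (hy : ContinuousAt y x) :
    HasFDerivAt (fun p => lam (c p) (y p)) (y x 0 • cc.comp c') x := by
  have k : ∀ i, ContinuousAt (fun p => y p i) x := fun i =>
    ((EuclideanSpace.proj i : Sp →L[ℂ] ℂ).continuous.continuousAt).comp hy
  have h1 := mul_zero' (cc.hasFDerivAt.comp x hc) (by simp [h0, cc_apply, u0]) (k 0)
  have h2 := mul_zero' (Complex.ofRealCLM.hasFDerivAt.comp x ((h0 ▸ len_der hτ).comp x hc))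
    (by simp only [Function.comp, h0, len_smul' hτ.le, len_u0]; simp [u0]) (k 1)
  refine ((h1.add h2).congr_fderiv (by simp)).congr_of_eventuallyEq (.of_forall fun p => ?_)
  simp [lam, cc_apply]

theorem mm_cont : Continuous fun p : (Fin 3 → ℝ) × Sp => mm p.1 p.2 := by
  unfold mm len
  fun_prop

variable {X : Type} [MetricSpace X] [CompactSpace X] [ConnectedSpace X] [MeasurableSpace X]
  [BorelSpace X] {Q : QM X} {b n : ℕ} (D : Dat Q b n)

theorem int_cont : Continuous fun f : LL2 Q.toCM Sp => ∫ x, (f : X → Sp) x ∂Q.mu := by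
  have k : ∀ c : Sp, Continuous fun f : LL2 Q.toCM Sp => inner ℝ c (∫ x, (f : X → Sp) x ∂Q.mu) :=
    fun c => by
      refine (continuous_const.inner continuous_id : Continuous fun f : LL2 Q.toCM Sp =>
        inner ℝ (Lp.const 2 Q.mu c) f).congr fun f => ?_
      rw [L2.inner_def, ← integral_inner ((Lp.memLp f).integrable one_le_two)]
      exact integral_congr_ae ((Lp.coeFn_const 2 Q.mu c).mono fun x hx => by simp [hx])
  let B := stdOrthonormalBasis ℝ Sp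
  exact (continuous_finset_sum _ fun i _ => (k (B i)).smul continuous_const).congr fun f =>
    B.sum_repr' _

theorem sf_cont (v : (L0 Q).bp.H1) :
    ContinuousAt (fun q : (L0 Q).bp.H1 × Rv b => D.sf ((L0 Q).bp.J q.1) q.2) (v, 0) := by
  have c : Continuous fun q : (L0 Q).bp.H1 × Rv b => max 0 (1 - 4 * ‖q.2‖) •
      ∫ x, ((L0 Q).bp.J q.1 : X → Sp) x ∂Q.mu := 
    (continuous_const.max (continuous_const.sub (continuous_const.mul continuous_snd.norm))).smul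
    (int_cont.comp ((L0 Q).bp.J.continuous.comp continuous_fst))
  refine c.continuousAt.congr ?_
  filter_upwards [(continuous_snd.norm.continuousAt (x := ((v, 0) : (L0 Q).bp.H1 × Rv b))).eventually
    (gt_mem_nhds (show ‖(0 : Rv b)‖ < 1 / 2 by simp))] with q hq
  have e : rd q.2 = 0 := funext fun i => round_eq_zero_iff.2 (by
    have := abs_lt.1 ((norm_le_pi_norm q.2 i).trans_lt hq)
    exact ⟨this.1.le, this.2⟩)
  simp only [Dat.sf, e, neg_zero, gL_zero]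
  congr 4
  exact congrArg _ (funext fun i => by simp)

theorem J_v (t : ℝ) : ∀ᵐ x ∂Q.mu, ps (t • D.v1) x = (t : ℂ) • D.E.fp x := by
  filter_upwards [D.rep_v1.J_ae, Lp.coeFn_smul t ((L0 Q).bp.J D.v1)] with x h1 h2
  rw [ps, map_smul, h2, Pi.smul_apply, h1]
  exact (algebraMap_smul ℂ t _).symm

theorem spin_fp (x : X) (k : Fin 3) :
    (inner ℂ (D.E.fp x) (pau k (D.E.fp x))).re = 2 * Q.nu u0 x k := by
  have h : 0 < len (Q.nu u0 x) := (inv_pos.2 D.hZ.pos).trans_le (D.E.lam_ge x)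
  rw [P247.H647.inner_eig h.ne' (D.E.fp_eig x), D.E.fp_norm]
  field_simp

theorem lsol {t τ : ℝ} (ht : t ≠ 0) {ξ : (L0 Q).bp.H1} {η : Rv b} {g₀ : LL2 Q.toCM Sp}
    (h0 : (Q.dirac (L0 Q)).clm D.v1 + mR Q.toCM (D.Z u0) ((L0 Q).bp.J D.v1) = 0)
    (hg : (g₀ : X → Sp) =ᵐ[Q.mu] fun x => E3 fun k =>
      2 * (inner ℂ (ps (t • D.v1) x) (pau k (ps ξ x))).re)
    (hc : D.cL ((1 / 2 : ℝ) • g₀) = τ • u0) {g : LL2 Q.toCM Sp}
    (eg : g = sg Q (D.cL ((1 / 2 : ℝ) • g₀)) - (1 / 2 : ℝ) • g₀) (he : D.e g = 0)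
    (hd : (Q.dirac (L0 Q)).clm ξ + K1 Q.t1 (L0 Q).bp (Ex.ph D.C η + D.G g) (t • D.v1) +
      mR Q.toCM (D.Z u0) ((L0 Q).bp.J ξ) = 0) :
    D.LSol t (ξ - (τ / (2 * t)) • D.v1) (Ex.ph D.C η + D.G g) := by
  have g1 : (g : X → Sp) =ᵐ[Q.mu] fun x => E3 fun k => τ * Q.nu u0 x k -
      t * (inner ℂ (D.E.fp x) (pau k (ps ξ x))).re := by
    rw [eg, hc]
    filter_upwards [Lp.coeFn_sub (sg Q (τ • u0)) ((1 / 2 : ℝ) • g₀), sg_ae (Q := Q) (τ • u0),
      Lp.coeFn_smul (1 / 2 : ℝ) g₀, hg, J_v D t] with x a1 a2 a3 a4 a5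
    rw [a1, Pi.sub_apply, a2, a3, Pi.smul_apply, a4, a5, ← map_smul, ← map_sub]
    congr 1
    funext k
    rw [Pi.sub_apply, Pi.smul_apply, nu_smul, inner_smul_left, Complex.conj_ofReal,
      Complex.re_ofReal_mul, smul_eq_mul]
    ring
  have g2 : D.H.clm (Ex.ph D.C η + D.G g) = g := by
    rw [map_add, D.ph_eq, (D.hq.clm_eq_zero D.hH).2 ⟨η, rfl⟩, zero_add]
    refine D.he g ?_ (fun j => ?_) he
    · exact integral_eq_zero_of_ae (g1.mono fun x hx => by simp only [hx, vec_E3_zero]; rfl)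
    · rw [← inner_tau, ← sg_single, eg]; exact D.hc _ _
  have g3 : ∀ᵐ x ∂Q.mu, ps (ξ - (τ / (2 * t)) • D.v1) x =
      ps ξ x - ((τ / (2 * t) : ℝ) : ℂ) • D.E.fp x := by
    filter_upwards [J_v D (τ / (2 * t)), Lp.coeFn_sub ((L0 Q).bp.J ξ)
      ((L0 Q).bp.J ((τ / (2 * t)) • D.v1))] with x a1 a2
    rw [ps, map_sub, a2, Pi.sub_apply, ← a1]
  refine ⟨?_, ?_, ?_⟩
  · generalize τ / (2 * t) = κ
    generalize Ex.ph D.C η + D.G g = a at hd
    have k : Dh (L0 Q) D.C 0 (ξ - κ • D.v1) + K1 Q.t1 (L0 Q).bp a (t • D.v1) +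
        mR Q.toCM (D.Z u0) ((L0 Q).bp.J (ξ - κ • D.v1)) = 0 := by
      rw [Dh_zero, map_sub, map_sub, map_sub, map_smul, map_smul (L0 Q).bp.J, map_smul (mR _ _)]
      linear_combination (norm := module) hd - κ • h0
    filter_upwards [Lp.coeFn_zero Sp 2 Q.mu, Lp.coeFn_add (Dh (L0 Q) D.C 0 (ξ - κ • D.v1) +
      K1 Q.t1 (L0 Q).bp a (t • D.v1)) (mR Q.toCM (D.Z u0) ((L0 Q).bp.J (ξ - κ • D.v1))),
      Lp.coeFn_add (Dh (L0 Q) D.C 0 (ξ - κ • D.v1)) (K1 Q.t1 (L0 Q).bp a (t • D.v1)),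
      Dh_ae (L0 Q) D.C 0 (ξ - κ • D.v1), K1_ae Q.t1 (L0 Q).bp a (t • D.v1), J_v D t,
      (D.hZ.hom u0 (L0 Q)).bm.mulOp_ae ((L0 Q).bp.J (ξ - κ • D.v1))] with x a0 a1 a2 a3 a4 a5 a6
    rw [k, a0, Pi.add_apply, a2, Pi.add_apply, a3, a4, mR, a6, Gau.form_zero] at a1
    rw [← a5]
    exact a1.symm
  · rw [g2]
    exact g1.mono fun x hx => by rw [hx, vec_E3_zero]
  · rw [g2]
    filter_upwards [g1, g3] with x a1 a2 k
    rw [a1, vec_E3_succ, a2, map_sub, map_smul, inner_sub_right, inner_smul_right, Complex.sub_re,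
      Complex.re_ofReal_mul, spin_fp]
    field_simp
    ring

end Dif

open Dif

theorem Dif.der {X : Type} [MetricSpace X] [CompactSpace X] [ConnectedSpace X]
    [MeasurableSpace X] [BorelSpace X] {Q : QM X} {b n : ℕ} (D : Dat Q b n) {R : ℝ} (hR : 0 < R)
    {m τ : ℝ} {v : (L0 Q).bp.H1} {Tn : (L0 Q).bp.H1 →L[ℝ] LL2 Q.toCM Sp} (t2 : 1 < τ) (m0 : 0 < m)
    (m1 : m < mm (τ • u0) (D.sf ((L0 Q).bp.J v) 0)) (b1 : D.cf hR ((L0 Q).bp.J v) = τ • u0)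
    (n1 : HasFDerivAt (fun w => nq Q hR ((L0 Q).bp.J w)) Tn v) :
    ∃ T : (L0 Q).bp.H1 × Rv b →L[ℝ] LL2 Q.toCM Sp × Cv 1 × Rv n,
      HasFDerivAt (D.F.tot (D.Φ hR m)) T (v, 0) ∧ ∀ ξ η, T (ξ, η) =
        ((Q.dirac (L0 Q)).clm ξ + (K1 Q.t1 (L0 Q).bp (Ex.ph D.C 0 + D.G (D.gf hR
          ((L0 Q).bp.J v))) ξ + K1 Q.t1 (L0 Q).bp (Ex.ph D.C η + D.G (sg Q (D.cL
            ((1 / 2 : ℝ) • Tn ξ)) - (1 / 2 : ℝ) • Tn ξ)) v) + mR Q.toCM (D.Z u0) ((L0 Q).bp.J ξ),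
        fun _ => D.sf ((L0 Q).bp.J v) 0 0 * cc (D.cL ((1 / 2 : ℝ) • Tn ξ)),
        D.e (sg Q (D.cL ((1 / 2 : ℝ) • Tn ξ)) - (1 / 2 : ℝ) • Tn ξ)) := by
  set q₀ : (L0 Q).bp.H1 × Rv b := (v, 0) with hq
  have d0 : HasFDerivAt (fun q : (L0 Q).bp.H1 × Rv b => (1 / 2 : ℝ) • nq Q hR ((L0 Q).bp.J q.1))
      _ q₀ := (HasFDerivAt.comp (g := fun w => nq Q hR ((L0 Q).bp.J w)) q₀ n1
        hasFDerivAt_fst).const_smul (1 / 2 : ℝ)
  have d1 : HasFDerivAt (fun q : (L0 Q).bp.H1 × Rv b => D.cf hR ((L0 Q).bp.J q.1)) _ q₀ :=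
    D.cL.hasFDerivAt.comp q₀ d0
  have d2 : HasFDerivAt (fun q : (L0 Q).bp.H1 × Rv b => D.gf hR ((L0 Q).bp.J q.1)) _ q₀ :=
    ((sg Q).hasFDerivAt.comp q₀ d1).sub d0
  have d3 : HasFDerivAt (fun q : (L0 Q).bp.H1 × Rv b => Ex.ph D.C q.2 +
      D.G (D.gf hR ((L0 Q).bp.J q.1))) _ q₀ :=
    ((Ex.ph D.C).hasFDerivAt.comp q₀ hasFDerivAt_snd).add (D.G.hasFDerivAt.comp q₀ d2)
  have d4 := (K1 Q.t1 (L0 Q).bp).hasFDerivAt_of_bilinear d3
    (hasFDerivAt_fst (𝕜 := ℝ) (p := q₀))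
  have d5 := (((Q.dirac (L0 Q)).clm.hasFDerivAt.comp q₀ hasFDerivAt_fst).add d4).add
    (((mR Q.toCM (D.Z u0)).comp (L0 Q).bp.J).hasFDerivAt.comp q₀ hasFDerivAt_fst)
  have c1 := sf_cont D v
  have d6 := lam_der (one_pos.trans t2) d1 b1 c1
  have d7 := d5.prodMk ((hasFDerivAt_pi.2 fun _ : Fin 1 => d6).prodMk (D.e.hasFDerivAt.comp q₀ d2))
  refine ⟨_, d7.congr_of_eventuallyEq ?_, fun ξ η => rfl⟩
  have c2 := (mm_cont.continuousAt.comp (d1.continuousAt.prodMk c1)).eventually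
    (lt_mem_nhds (show m < _ by simpa only [Function.comp, hq, b1] using m1))
  have c3 := ((by unfold len; fun_prop : Continuous len).continuousAt.comp
    d1.continuousAt).eventually (lt_mem_nhds (show 1 < _ by
      simpa only [Function.comp, hq, b1, len_smul' (one_pos.trans t2).le, len_u0, mul_one] using t2))
  filter_upwards [c2, c3] with q e1 e2
  simp only [Function.comp] at e1 e2
  have e3 : D.Z (ct m (D.cf hR ((L0 Q).bp.J q.1)) (D.sf ((L0 Q).bp.J q.1) q.2)) = D.Z u0 := by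
    rw [ct, min_eq_left (le_max_of_le_right ((one_le_div m0).2 e1.le)), one_smul, add_sub_cancel]
    exact D.hZ.ray _ e2.le
  refine Prod.ext ?_ rfl
  show Dh (L0 Q) D.C q.2 q.1 + (_ + _) = _
  rw [e3, Ex.Dh_ph]
  simp only [Function.comp, Pi.add_apply, map_add, ContinuousLinearMap.add_apply,
    ContinuousLinearMap.comp_apply]
  abel

theorem dif : DIF_statement := by
  intro _ hN hB X _ _ _ _ _ Q b n D R hR m t t1 r2 m0 m1
  have B0 := D.hZ.pos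
  have t0 : 0 < t := by linarith
  obtain ⟨b1, b2, b3, b4, -⟩ := hB X Q b n D R hR t t1 (by nlinarith [sq_nonneg t])
  obtain ⟨Tn, n1, n2⟩ := hN X Q (L0 Q) R hR (t • D.v1) ((J_v D t).mono fun x hx => by
    rw [hx, norm_smul, Complex.norm_real, Real.norm_of_nonneg t0.le]
    refine abs_le_of_sq_le_sq' ?_ (by positivity) |>.2
    rw [mul_pow, D.E.fp_norm]
    nlinarith [mul_le_mul_of_nonneg_left (D.E.lam_le x) (sq_nonneg t)])
  obtain ⟨T, h1, h2⟩ := der D hR (by nlinarith) m0 m1 b1 n1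
  refine ⟨T, h1, fun ξ η hT => ?_⟩
  rw [h2, b2, (Ex.ph D.C).map_zero, D.G.map_zero, add_zero, (K1 Q.t1 (L0 Q).bp).map_zero,
    ContinuousLinearMap.zero_apply, zero_add] at hT
  have k4 : D.sf ((L0 Q).bp.J (t • D.v1)) 0 0 ≠ 0 := fun h => by
    have := (lt_min_iff.1 b3).2
    rw [h] at this
    simp [u0] at this
  have k5 : cc (D.cL ((1 / 2 : ℝ) • Tn ξ)) = 0 :=
    (mul_eq_zero.1 (congrFun (congrArg (fun p => p.2.1) hT) 0)).resolve_left k4
  have k6 : D.cL ((1 / 2 : ℝ) • Tn ξ) = D.cL ((1 / 2 : ℝ) • Tn ξ) 2 • u0 := by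
    rw [cc_apply] at k5
    have k7 := congrArg Complex.re k5
    have k8 := congrArg Complex.im k5
    generalize D.cL ((1 / 2 : ℝ) • Tn ξ) = c at k7 k8
    simp at k7 k8
    funext i
    fin_cases i <;> simp [u0, k7, k8]
  exact ⟨_, _, lsol D t0.ne' b4 (n2 ξ) k6 rfl (congrArg (fun p => p.2.2) hT) (congrArg Prod.fst hT)⟩

end Vale.Agent.P247W.Bp
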