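import Vale.Agent.P247W.Bs

/-!
# P247W, block BP: the integral identity for the linearised system
-/

set_option linter.all false

open scoped ContDiff Topology ENNReal ComplexConjugate
open Set MeasureTheory Filter

noncomputable section

namespace Vale.Agent.P247W.Bp

open Vale.Agent.P204.GX Vale.Agent.P204.T4 Vale.Agent.P247E Vale.Agent.P247A
open Vale.Agent.P247E.R
open Vale.Agent.P247.H647 (Sp En sig pau len P3 symb hat jz nz nz_nonneg)

namespace Kr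

theorem hat_of {Φ Ψ Θ : Fin 4 → Fin 4 → ℝ} (h : ∀ a c, Φ a c + Ψ a c = 2 * Θ a c) (k : Fin 3) :
    hat Φ k + hat Ψ k = 2 * hat Θ k := by
  fin_cases k
  · exact (by linarith [h 0 1, h 2 3] : Φ 0 1 + Φ 2 3 + (Ψ 0 1 + Ψ 2 3) = 2 * (Θ 0 1 + Θ 2 3))
  · exact (by linarith [h 0 2, h 3 1] : Φ 0 2 + Φ 3 1 + (Ψ 0 2 + Ψ 3 1) = 2 * (Θ 0 2 + Θ 3 1))
  · exact (by linarith [h 0 3, h 1 2] : Φ 0 3 + Φ 1 2 + (Ψ 0 3 + Ψ 1 2) = 2 * (Θ 0 3 + Θ 1 2))

/-- the perturbed derivative -/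
def pz (ε : ℝ) (ζ : Fin 4 → ℂ) (a : V4) (α : ℂ) : Fin 4 → ℂ := fun c =>
  ε * ζ c - Complex.I * a c * α

theorem hj1 (ζ : Fin 4 → ℂ) (a : V4) (α : ℂ) (k : Fin 3) :
    hat (jz (pz 1 ζ a α)) k + hat (jz (pz (-1) ζ a α)) k = 2 * hat (jz ζ) k :=
  hat_of (fun p q => by simp [jz, pz]; ring) k

theorem hj2 (ζ η : Fin 4 → ℂ) (a : V4) (α β z : ℂ) (k : Fin 3) :
    hat (jzR (pz 1 ζ a α) fun c => z * pz 1 η a β c) k +
      hat (jzR (pz (-1) ζ a α) fun c => z * pz (-1) η a β c) k =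
        2 * hat (jzR ζ fun c => z * η c) k :=
  hat_of (fun p q => by simp [jzR, pz]; ring) k

theorem hj3 (ζ d : Fin 4 → ℂ) (a : V4) (α β : ℂ) (k : Fin 3) :
    hat (jzR (pz 1 ζ a α) fun c => d c * ((1 : ℝ) * β)) k +
      hat (jzR (pz (-1) ζ a α) fun c => d c * ((-1 : ℝ) * β)) k =
        2 * hat (jzR ζ fun c => d c * β) k :=
  hat_of (fun p q => by simp [jzR, pz]; ring) k

theorem er_pw (ζ : Fin 4 → ℂ) (β : ℂ) {T : Fin 3 → Fin 3 → ℝ} {d : Fin 3 → Fin 4 → ℂ} {B C : ℝ}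
    (hT : ∀ j k, |T j k| ≤ C) (hh : ∀ j c, ‖d j c‖ ≤ B) :
    |∑ j, ∑ k, T j k * hat (jzR ζ fun c => d j c * β) k| ≤ 72 * C * B * (nz ζ * ‖β‖) := by
  have hC : 0 ≤ C := (abs_nonneg _).trans (hT 0 0)
  have h1 : ∀ j k, |T j k * hat (jzR ζ fun c => d j c * β) k| ≤
      C * (4 * (nz ζ * (2 * (B * ‖β‖)))) := by
    intro j k
    rw [abs_mul]
    refine mul_le_mul (hT j k) ((hat_jzR_le _ _ k).trans ?_) (abs_nonneg _) hC
    refine mul_le_mul_of_nonneg_left (mul_le_mul_of_nonneg_left (nz_le fun c => ?_)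
      (nz_nonneg _)) (by norm_num)
    rw [norm_mul]
    exact mul_le_mul_of_nonneg_right (hh j c) (norm_nonneg _)
  refine (Finset.abs_sum_le_sum_abs _ _).trans ((Finset.sum_le_sum fun j _ =>
    (Finset.abs_sum_le_sum_abs _ _).trans (Finset.sum_le_sum fun k _ => h1 j k)).trans
    (le_of_eq ?_))
  simp
  ring

theorem im_pau (f : Sp) (k : Fin 3) : (inner ℂ f (pau k f)).im = 0 := by
  fin_cases k <;> simp [P247.H647.inner_sp, P247.H647.pau0_apply, P247.H647.pau1_apply,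
    P247.H647.pau2_apply] <;> ring

variable {X : Type} [MetricSpace X] [CompactSpace X] [ConnectedSpace X] [MeasurableSpace X]
  [BorelSpace X] {Q : QM X}

theorem eig_facts {B : ℝ} {Z : X → En} {u : Fin 3 → ℝ} (hB : 0 < B) (E : Eig Q B Z u) (x : X) :
    inner ℂ (E.gp x) (E.fp x) = 1 ∧ inner ℂ (E.gm x) (E.fp x) = 0 ∧ ∀ c,
      inner ℂ (E.gp x) (df Q.toCM E.fp x c) + inner ℂ (df Q.toCM E.gp x c) (E.fp x) = 0 ∧
      inner ℂ (E.gm x) (df Q.toCM E.fp x c) + inner ℂ (df Q.toCM E.gm x c) (E.fp x) = 0 := by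
  have l0 : 0 < len (Q.nu u x) := (inv_pos.2 hB).trans_le (E.lam_ge x)
  have l1 : ((2 * len (Q.nu u x) : ℝ) : ℂ) ≠ 0 := by exact_mod_cast (by positivity)
  have k : ∀ f : Sp, ‖f‖ ^ 2 = 2 * len (Q.nu u x) →
      inner ℂ ((((2 * len (Q.nu u x))⁻¹ : ℝ) : ℂ) • f) f = 1 := fun f hf => by
    rw [inner_smul_left, Complex.conj_ofReal, inner_self_eq_norm_sq_to_K, Complex.ofReal_inv,
      inv_mul_eq_one₀ l1, ← hf]
    norm_cast
  have a0 := inner_eig_zero l0.ne' (E.fp_eig x) (E.fm_eig x)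
  have a1 : inner ℂ (E.gp x) (E.fp x) = 1 := by rw [E.gp_eq]; exact k _ (E.fp_norm x)
  have a2 : inner ℂ (E.gm x) (E.fp x) = 0 := by rw [E.gm_eq, inner_smul_left, a0, mul_zero]
  have a3 : inner ℂ (E.gm x) (E.fm x) = 1 := by rw [E.gm_eq]; exact k _ (E.fm_norm x)
  have a4 : inner ℂ (E.gp x) (E.fm x) = 0 := by
    rw [E.gp_eq, inner_smul_left, ← inner_conj_symm, a0, map_zero, mul_zero]
  refine ⟨a1, a2, fun c => ⟨?_, ?_⟩⟩
  · have := congrArg (inner ℂ (E.gp x)) (E.ddec x (E.fp x) c)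
    simp only [inner_add_right, inner_smul_right, a1, a2, a4, inner_zero_right] at this
    linear_combination this
  · have := congrArg (inner ℂ (E.gm x)) (E.ddec x (E.fp x) c)
    simp only [inner_add_right, inner_smul_right, a1, a2, a3, inner_zero_right] at this
    linear_combination this

variable {b n : ℕ} (D : Dat Q b n)

theorem pert (t ε : ℝ) (hε : ε * ε = 1) (ξ : (L0 Q).bp.H1) (a : Q.t1.H1) : ∀ᵐ x ∂Q.mu,
    ps (t • D.v1 + ε • ξ) x = (t : ℂ) • D.E.fp x + (ε : ℂ) • ps ξ x ∧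
    (∀ k, Q.Fa (L0 Q) D.H (ε • a) x k = ε * vec ((D.H.clm a : X → Sp) x) k.succ) ∧
    ∀ c, (L0 Q).nabA (t • D.v1 + ε • ξ) (Q.av (ε • a)) x c = (t : ℂ) • df Q.toCM D.E.fp x c +
      (ε : ℂ) • ((L0 Q).nabA ξ 0 x c - (Complex.I * Q.av a x c) • (t : ℂ) • D.E.fp x) -
        (Complex.I * Q.av a x c) • ps ξ x := by
  have k : ∀ (T : (L0 Q).bp.H1 →L[ℝ] LL2 Q.toCM Sp), ∀ᵐ x ∂Q.mu,
      (T (t • D.v1 + ε • ξ) : X → Sp) x =
        (t : ℂ) • (T D.v1 : X → Sp) x + (ε : ℂ) • (T ξ : X → Sp) x := fun T => by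
    rw [map_add, map_smul, map_smul]
    filter_upwards [Lp.coeFn_add (t • T D.v1) (ε • T ξ), Lp.coeFn_smul t (T D.v1),
      Lp.coeFn_smul ε (T ξ)] with x h1 h2 h3
    rw [h1, Pi.add_apply, h2, h3]
    rfl
  have hε' : (ε : ℂ) * ε = 1 := by exact_mod_cast hε
  filter_upwards [k (L0 Q).bp.J, eventually_all.2 fun c => k ((L0 Q).nabH c), D.rep_v1.J_ae,
    eventually_all.2 ((L0 Q).nabH_rep (Hx.triv_sm.2 D.E.fp_sm) D.rep_v1),
    Lp.coeFn_smul ε (D.H.clm a), Lp.coeFn_smul ε (Q.t1.J a)] with x h1 h2 h3 h4 h5 h6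
  rw [h3] at h1
  refine ⟨h1, fun k => ?_, fun c => ?_⟩
  · rw [QM.Fa, map_smul, h5, Pi.smul_apply, vec_smul, LBc.Fh, LBc.triv_F, ← Hx.hc_succ]
    simp
  · rw [LBc.nabA, LBc.nabA, h1, h2, h4, Hx.triv_cv, QM.av, QM.av, map_smul, h6, Pi.smul_apply,
      vec_smul, Pi.smul_apply, smul_eq_mul]
    simp only [Pi.zero_apply, Complex.ofReal_zero, Complex.ofReal_mul]
    have : ((ε : ℂ) * ε) • ps ξ x = ps ξ x := by rw [hε', one_smul]
    linear_combination (norm := module) (-(Complex.I * vec ((Q.t1.J a : X → Sp) x) c)) • this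

end Kr

open Kr in
theorem kr1 : KR1_statement := by
  intro X _ _ _ _ _ Q b n D
  obtain ⟨C, hC1, hC⟩ := exists_T_le Q
  have hB := D.hZ.pos
  obtain ⟨K, hK⟩ : ∃ K : ℝ, K = 1 + 4 * D.B + 72 * C * D.B := ⟨_, rfl⟩
  have hCB : 0 ≤ 72 * C * D.B := by positivity
  have hK1 : 1 ≤ K := by rw [hK]; linarith
  refine ⟨200 * K ^ 7, fun t ξ a hr hL => ?_⟩
  set s := D.E with hs
  have n1 := fun ε : ℝ => nul_dir ST1 D.hH (t • D.v1 + ε • ξ) (ε • a) s.gp_sm u0
  have n2 := fun ε : ℝ => nul_dir ST1 D.hH (t • D.v1 + ε • ξ) (ε • a) s.gm_sm u0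
  have n3 := fun ε : ℝ => nul_pol BQ1 ST1 D.hH (t • D.v1 + ε • ξ) (ε • a) s.gp_sm s.gm_sm s.h_sm
    s.h_eq
  have nS := ((((n1 1).add (n1 (-1))).sub ((n2 1).add (n2 (-1)))).add
    (((n3 1).add (n3 (-1))).cmul (3 / 2))).cmul (1 / 2)
  generalize hSf : (fun x => _ : X → ℝ) = Sf at nS
  have key : ∀ᵐ x ∂Q.mu, 0 ≤ Sf x ∧ (Sf x = 0 →
      (inner ℂ (s.gp x) (ps ξ x)).re = 0 ∧ inner ℂ (s.gm x) (ps ξ x) = 0) := by
    filter_upwards [hL.dirac, hL.curv, pert D t 1 (one_mul 1) ξ a, pert D t (-1) (by ring) ξ a]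
      with x hx1 hx2 p1 p2
    obtain ⟨f1, f2, f3⟩ := eig_facts hB s x
    have hψ := s.dec x (ps ξ x)
    have hD := dirac_eig s x (ψ := ps ξ x) (P := fun c => (L0 Q).nabA ξ 0 x c -
      (Complex.I * Q.av a x c) • (t : ℂ) • s.fp x) (by
        rw [← hx1, cl_apply]
        simp only [map_sub, Finset.sum_sub_distrib, QM.av]
        rw [sub_eq_add_neg])
    have z : ∀ (ε : ℝ) (f : X → Sp), (∀ c, inner ℂ (f x) (df Q.toCM s.fp x c) +
        inner ℂ (df Q.toCM f x c) (s.fp x) = 0) →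
        ps (t • D.v1 + ε • ξ) x = (t : ℂ) • s.fp x + (ε : ℂ) • ps ξ x →
        (∀ c, (L0 Q).nabA (t • D.v1 + ε • ξ) (Q.av (ε • a)) x c = (t : ℂ) • df Q.toCM s.fp x c +
          (ε : ℂ) • ((L0 Q).nabA ξ 0 x c - (Complex.I * Q.av a x c) • (t : ℂ) • s.fp x) -
            (Complex.I * Q.av a x c) • ps ξ x) →
        zf (t • D.v1 + ε • ξ) (ε • a) f x = pz ε (fun c => inner ℂ (f x) ((L0 Q).nabA ξ 0 x c -
          (Complex.I * Q.av a x c) • (t : ℂ) • s.fp x) + inner ℂ (df Q.toCM f x c) (ps ξ x))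
          (Q.av a x) (inner ℂ (f x) (ps ξ x)) := fun ε f k1 k2 k3 => funext fun c => by
      rw [zf, k2, k3, pz, inner_sub_right, inner_add_right, inner_add_right, inner_smul_right,
        inner_smul_right, inner_smul_right, inner_smul_right, inner_smul_right]
      linear_combination (t : ℂ) * k1 c
    refine lin_pw (B := K) (t := t) (F := fun k => vec ((D.H.clm a : X → Sp) x) k.succ)
      hK1 hr ?_ ?_ (s.fp_norm x) (s.fm_norm x) (s.fp_eig x) (s.fm_eig x) ?_ hD (fun k => ?_)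
      ((er_pw _ _ (hC x) fun j c => s.dh_le j x c).trans (mul_le_mul_of_nonneg_right
        (by rw [hK]; linarith) (mul_nonneg (nz_nonneg _) (norm_nonneg _)))) _ ?_
    · refine le_trans ?_ (s.lam_ge x)
      rw [one_div]
      exact inv_anti₀ hB (by rw [hK]; linarith)
    · exact (s.lam_le x).trans (by rw [hK]; linarith)
    · refine (norm_sum_le _ _).trans ((Finset.sum_le_sum fun d _ =>
        (P247.H647.norm_sig d _).le.trans (s.dfm_le x d)).trans ?_)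
      simp only [Finset.sum_const, Finset.card_univ, Fintype.card_fin, nsmul_eq_mul]
      rw [hK]; push_cast; linarith
    · rw [← hψ]; exact hx2 k
    · rw [← hSf]
      simp only [er, z 1 s.gp (fun c => (f3 c).1) p1.1 p1.2.2,
        z 1 s.gm (fun c => (f3 c).2) p1.1 p1.2.2, z (-1) s.gp (fun c => (f3 c).1) p2.1 p2.2.2,
        z (-1) s.gm (fun c => (f3 c).2) p2.1 p2.2.2, p1.1, p2.1, p1.2.1, p2.2.1, inner_add_right,
        inner_smul_right, ← hs, f1, f2, mul_zero, zero_add, mul_one]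
      generalize inner ℂ (s.gp x) (ps ξ x) = α
      generalize inner ℂ (s.gm x) (ps ξ x) = β
      generalize (fun c => inner ℂ (s.gp x) _ + inner ℂ (df Q.toCM s.gp x c) (ps ξ x)) = ζ
      generalize hη : (fun c => inner ℂ (s.gm x) _ + inner ℂ (df Q.toCM s.gm x c) (ps ξ x)) = η
      simp only [congrFun hη]
      have g1 := hj1 ζ (Q.av a x) α
      have g2 := hj1 η (Q.av a x) β
      have g3 := fun k => hj2 ζ η (Q.av a x) α β (inner ℂ (s.fp x) (pau k (s.fm x))) k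
      have g4 := fun j => hj3 ζ (fun c => df Q.toCM (s.h j) x c) (Q.av a x) α β
      simp only [← eq_sub_iff_add_eq] at g1 g2 g3 g4
      simp only [g1, g2, g3, g4, nsq, Fin.sum_univ_three]
      simp only [map_add, map_mul, Complex.conj_ofReal, Complex.add_re, Complex.mul_re,
        Complex.add_im, Complex.mul_im, Complex.ofReal_re, Complex.ofReal_im, Complex.conj_re,
        Complex.conj_im]
      ring
  have k0 := nS.ae_zero (key.mono fun x hx => hx.1)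
  have v0 : vec 0 = 0 := map_zero P247E.R.vecL
  refine ⟨Lp.ext ?_, ?_⟩
  · filter_upwards [key, k0, hL.div, hL.curv, Lp.coeFn_zero Sp 2 Q.mu] with x hx hx0 a1 a2 a3
    rw [a3]
    refine vec_ext fun c => Fin.cases ?_ (fun k => ?_) c
    · simp [a1, v0]
    · rw [a2, s.dec x (ps ξ x), (hx.2 hx0).2, zero_smul, add_zero, map_smul, inner_smul_right,
        Complex.mul_re, (hx.2 hx0).1, im_pau]
      simp [v0]
  · filter_upwards [key, k0] with x hx hx0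
    exact (hx.2 hx0).symm

end Vale.Agent.P247W.Bp
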