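import Vale.Agent.P247W.Bs

/-!
# P247W, block BP: `NQD`, `NND`
-/

set_option linter.all false

open scoped ContDiff Topology ENNReal ComplexConjugate
open Set MeasureTheory Filter

noncomputable section

namespace Vale.Agent.P247W.Bp

open Vale.Agent.P204.GX Vale.Agent.P204.T4 Vale.Agent.P247E Vale.Agent.P247A
open Vale.Agent.P247E.R
open Vale.Agent.P247.H647 (Sp En sig pau len P3 symb pau0_apply pau1_apply pau2_apply)

namespace Nq

theorem pau_symm (k : Fin 3) (p x : Sp) :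
    (inner ℂ x (pau k p)).re = (inner ℂ p (pau k x)).re := by
  fin_cases k <;>
    simp [PiLp.inner_apply, Fin.sum_univ_two, pau0_apply, pau1_apply, pau2_apply] <;> ring

theorem re_le (k : Fin 3) (p x : Sp) : |(inner ℂ p (pau k x)).re| ≤ ‖p‖ * ‖x‖ := by
  have := (Complex.abs_re_le_norm _).trans (norm_inner_le_norm (𝕜 := ℂ) p (pau k x))
  rwa [norm_pau] at this

/-- the polarisation of the quadratic map -/
def bq : Sp →L[ℝ] Sp →L[ℝ] Fin 3 → ℝ :=
  LinearMap.mkContinuous₂ (LinearMap.mk₂ ℝ (fun p x k => 2 * (inner ℂ p (pau k x)).re)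
    (fun p p' x => by funext k; simp [inner_add_left, mul_add])
    (fun c p x => by
      funext k
      rw [← algebraMap_smul ℂ c p, inner_smul_left]
      simp; ring)
    (fun p x x' => by funext k; simp [inner_add_right, mul_add])
    (fun c p x => by
      funext k
      rw [← algebraMap_smul ℂ c x, map_smul, inner_smul_right]
      simp; ring)) 2
    fun p x => (pi_norm_le_iff_of_nonneg (by positivity)).2 fun k => by
      rw [LinearMap.mk₂_apply, norm_mul, mul_assoc, Real.norm_two]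
      exact mul_le_mul_of_nonneg_left (re_le k p x) zero_le_two

theorem bq_apply (p x : Sp) : bq p x = fun k => 2 * (inner ℂ p (pau k x)).re := rfl

theorem qT_small {R : ℝ} {p : Sp} (h : ‖p‖ ≤ R) (hR : 0 < R) (k : Fin 3) :
    qT R p k = (inner ℂ p (pau k p)).re := by
  rw [qT, gq, max_eq_right (pow_le_pow_left₀ (norm_nonneg _) h 2), div_self (by positivity), one_mul]

theorem rem_le {R : ℝ} (hR : 0 < R) {p : Sp} (h : ‖p‖ ≤ R / 2) (x : Sp) :
    ‖qT R (p + x) - qT R p - bq p x‖ ≤ 10 * ‖x‖ ^ 2 := by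
  rcases le_total ‖x‖ (R / 2) with k | k
  · refine (pi_norm_le_iff_of_nonneg (by positivity)).2 fun j => ?_
    rw [Pi.sub_apply, Pi.sub_apply, qT_small ((norm_add_le _ _).trans (by linarith)) hR,
      qT_small (by linarith) hR, bq_apply]
    have := re_le j x x
    simp only [map_add, inner_add_left, inner_add_right, Complex.add_re, pau_symm j p x]
    rw [Real.norm_eq_abs, abs_le] at *
    constructor <;> nlinarith [sq_nonneg ‖x‖]
  · have h1 := (qT_lip hR).dist_le_mul (p + x) p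
    rw [Real.coe_toNNReal _ (by positivity), dist_eq_norm, dist_eq_norm, add_sub_cancel_left] at h1
    have h2 : ‖bq p x‖ ≤ R * ‖x‖ := (pi_norm_le_iff_of_nonneg (by positivity)).2 fun j => by
      rw [bq_apply, norm_mul, Real.norm_two]
      have := (re_le j p x).trans (mul_le_mul_of_nonneg_right h (norm_nonneg _))
      rw [Real.norm_eq_abs]
      linarith
    refine (norm_sub_le _ _).trans ?_
    nlinarith [norm_nonneg x]

variable {X : Type} [MetricSpace X] [CompactSpace X] [MeasurableSpace X] [BorelSpace X] {M : CM X}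

theorem norm_le_J4 {E : Bun M Sp} {f : LL2 M Sp} {w : E.H1} {C : ℝ} (C0 : 0 ≤ C)
    (h : ∀ᵐ x ∂M.mu, ‖(f : X → Sp) x‖ ≤ C * ‖(E.J w : X → Sp) x‖ ^ 2) :
    ‖f‖ ≤ C * ‖J4 E w‖ ^ 2 := by
  have h1 : eLpNorm (f : X → Sp) 2 M.mu ≤ ENNReal.ofReal C *
      eLpNorm (fun x => ‖(E.J w : X → Sp) x‖ ^ (2 : ℝ)) 2 M.mu :=
    eLpNorm_le_mul_eLpNorm_of_ae_le_mul (by
      filter_upwards [h] with x hx
      rwa [Real.rpow_two, Real.norm_of_nonneg (sq_nonneg _)]) 2
  rw [eLpNorm_norm_rpow _ two_pos, show (2 : ℝ≥0∞) * ENNReal.ofReal 2 = 4 by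
    rw [ENNReal.ofReal_ofNat]; norm_num, ENNReal.rpow_two] at h1
  rw [norm_J4, Lp.norm_def, ← ENNReal.toReal_pow, ← ENNReal.toReal_ofReal C0, ← ENNReal.toReal_mul]
  exact ENNReal.toReal_mono (ENNReal.mul_ne_top ENNReal.ofReal_ne_top
    (ENNReal.pow_ne_top (memLp4 E w).2.ne)) h1

end Nq

open Nq in
theorem nqd : NQD_statement := by
  intro X _ _ _ _ _ Q L R hR v hv
  have := P247E.R.fact4
  have := P247E.holder442
  let B : Sp →L[ℝ] Sp →L[ℝ] Sp := ((ContinuousLinearMap.compL ℝ Sp _ Sp E3).comp bq)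
  have ae : ∀ ξ : L.bp.H1, ((B.holderL Q.mu 4 4 2).bilinearComp (J4 L.bp) (J4 L.bp) v ξ : X → Sp)
      =ᵐ[Q.mu] fun x => E3 (bq (ps v x) (ps ξ x)) := fun ξ => by
    filter_upwards [B.coeFn_holder (r := 2) (J4 L.bp v) (J4 L.bp ξ), J4_ae L.bp v, J4_ae L.bp ξ]
      with x h1 h2 h3
    rw [ps, ps, ← h2, ← h3]
    exact h1
  refine ⟨_, ?_, ae⟩
  generalize (B.holderL Q.mu 4 4 2).bilinearComp (J4 L.bp) (J4 L.bp) v = T at ae
  rw [hasFDerivAt_iff_isLittleO_nhds_zero]
  refine Asymptotics.IsBigO.trans_isLittleO (g := fun ξ => ‖ξ‖ ^ 2)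
    (.of_bound (‖E3‖ * 10 * ‖J4 L.bp‖ ^ 2) (.of_forall fun ξ => ?_))
    (Asymptotics.isLittleO_norm_pow_id one_lt_two)
  refine (norm_le_J4 (w := ξ) (C := ‖E3‖ * 10) (by positivity) ?_).trans ?_
  · filter_upwards [Lp.coeFn_sub (nq Q hR (L.bp.J (v + ξ)) - nq Q hR (L.bp.J v)) (T ξ),
      Lp.coeFn_sub (nq Q hR (L.bp.J (v + ξ))) (nq Q hR (L.bp.J v)), nq_ae hR (L.bp.J (v + ξ)),
      nq_ae hR (L.bp.J v), ae ξ, hv, Lp.coeFn_add (L.bp.J v) (L.bp.J ξ)] with x a1 a2 a3 a4 a5 a6 a7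
    rw [a1, Pi.sub_apply, a2, Pi.sub_apply, a3, a4, a5, map_add, a7, Pi.add_apply, ← map_sub,
      ← map_sub, mul_assoc]
    exact E3.le_opNorm_of_le (rem_le hR a6 _)
  · rw [Real.norm_of_nonneg (sq_nonneg _), mul_assoc (_ * _), ← mul_pow]
    exact mul_le_mul_of_nonneg_left (pow_le_pow_left₀ (norm_nonneg _) ((J4 L.bp).le_opNorm _) 2)
      (by positivity)

theorem nnd : NND_statement := by
  intro X _ _ _ _ _ Q L b C v h hv
  have d1 : DifferentiableAt ℝ (fun q : L.bp.H1 × Rv b => Dh L C q.2 q.1) (v, h) := by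
    simp only [Ex.Dh_ph]
    exact ((Q.dirac L).clm.differentiableAt.comp _ differentiableAt_fst).add
      (DifferentiableAt.clm_apply (c := fun q : L.bp.H1 × Rv b => K1 Q.t1 L.bp (Ex.ph C q.2))
        (((K1 Q.t1 L.bp).comp ((Ex.ph C).comp (ContinuousLinearMap.snd ℝ L.bp.H1 _))).differentiableAt)
        differentiableAt_fst)
  exact ((d1.norm_sq ℝ).add ((L.bp.J.differentiableAt.comp _ differentiableAt_fst).norm_sq ℝ)).sqrt
    (Real.sqrt_pos.1 (NN_pos L C hv h)).ne'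

end Vale.Agent.P247W.Bp
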