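import Vale.Agent.P247W.Bs

/-!
# P247W, block BP: the rows `RGE` and `KR2`
-/

set_option linter.all false

open scoped ContDiff Topology ENNReal ComplexConjugate
open Set MeasureTheory Filter

noncomputable section

namespace Vale.Agent.P247W.Bp

open Vale.Agent.P204.GX Vale.Agent.P204.T4 Vale.Agent.P247E Vale.Agent.P247A
open Vale.Agent.P247E.R
open Vale.Agent.P247.H647 (Sp En sig pau len P3 symb symb_apply)

theorem rge : RGE_statement := by
  intro X _ _ _ _ _ Q _ B Z u E v a γ _ hZ ha hγ h1 h2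
  have hB : (L0 Q).bp.Hom (Q.bm (L0 Q)) fun x => reL ((-Complex.I) • sgm (a x)) + reL (Z x) :=
    fun c => by
      simp only [ContinuousLinearMap.add_comp, ContinuousLinearMap.comp_add]
      exact (Q.hom_sgm _ ha c).add (hZ c)
  obtain ⟨P, p1, p3, p2⟩ := (ZER X _ _ _ _ _).1 (Q.dirac (L0 Q)) _ hB
  obtain ⟨s, hs, r, e⟩ := (REG X _ _ _ _ _ P (fun a => p1 ▸ (Q.dirac_cliff _).gar a) v).2 γ hγ (by
    filter_upwards [h1, Q.dirac_ae _ v, hB.bm.mulOp_ae ((L0 Q).bp.J v), Lp.coeFn_add
      ((Q.dirac _).clm v) (mulOp _ _ ((L0 Q).bp.J v))] with x k1 k3 k4 k5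
    rw [p2]
    refine k5.trans (Eq.trans ?_ k1)
    rw [Pi.add_apply, k3, k4]
    simp only [LBc.nabA, add_apply, reL_apply, smul_apply, sgm_apply, map_sub,
      map_smul, Finset.sum_sub_distrib, Finset.smul_sum, smul_smul, neg_mul, neg_smul,
      Finset.sum_neg_distrib]
    abel)
  have s1 := Hx.triv_sm.1 hs
  obtain ⟨α, a1, rfl⟩ : ∃ α : X → ℂ, SmF Q.toCM α ∧ s = fun x => α x • E.fp x :=
    ⟨_, fun c => (E.gp_sm c).inner ℂ (s1 c), funext fun x => by
      have := congrFun (((E.gm_sm.continuous.inner (𝕜 := ℂ) s1.continuous).ae_eq_iff_eq Q.mu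
        (continuous_const (y := 0))).1 (by
          filter_upwards [h2, r.J_ae] with x k1 k2
          rwa [← k2])) x
      simpa only [this, zero_smul, add_zero] using E.dec x (s x)⟩
  refine ⟨_, a1, r.J_ae, fun x => ?_⟩
  have k := congrArg (α x • ·) (E.dir_fp x)
  rw [← e, p3, Q.dirac_app, symb_apply]
  simp only [cv_mul a1 (Hx.triv_sm.2 E.fp_sm), Hx.triv_cv, add_apply, reL_apply, smul_apply,
    sgm_apply, map_add, map_smul, Finset.sum_add_distrib, Finset.smul_sum, smul_smul, sub_smul,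
    Finset.sum_sub_distrib, smul_add, smul_zero, neg_mul, neg_smul, Finset.sum_neg_distrib,
    smul_neg, mul_comm (α x)] at k ⊢
  rw [← add_zero (_ - _), ← k]
  abel

theorem kr2 : KR2_statement := by
  intro hR X _ _ _ _ _ Q b n D t ξ η g t0 hS h1 h2
  have g0 : D.G g = 0 := by
    rw [map_add, (D.hq.clm_eq_zero D.hH).2 ⟨η, D.ph_eq η⟩, zero_add] at h1
    exact inner_self_eq_zero (𝕜 := ℝ) |>.1 (D.hG.perp g _ h1)
  have l0 : ∀ x, 0 < len (Q.nu u0 x) := fun x => (inv_pos.2 D.hZ.pos).trans_le (D.E.lam_ge x)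
  have m := (Q.hom_sgm (L0 Q) (D.C.form_sm η)).mem (Hx.triv_sm.2 D.E.fp_sm)
  obtain ⟨α, a1, a2, a3⟩ := hR X Q (L0 Q) _ _ u0 D.E ξ 0 _ D.hZ.pos (D.hZ.hom u0 _)
    (lg_const Q.toCM norm_one).closed.1 (Q.t1.Sm.smul_mem (-t) m) (by
      filter_upwards [hS.dirac, (Ex.rep_ph D.C η).J_ae] with x k1 k2
      rw [g0, add_zero, k2, cl_eq, P247E.vec_spn, add_right_comm, add_eq_zero_iff_eq_neg] at k1
      rw [k1, Pi.smul_apply, neg_smul, ← map_smul]
      rfl) (h2.mono fun _ k => k.1)
  have a4 : (fun x => (α x).re) = fun _ => 0 :=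
    ((Complex.continuous_re.comp a1.continuous).ae_eq_iff_eq Q.mu continuous_const).1 (by
      filter_upwards [h2, a2] with x k1 k2
      have := k1.2
      rw [k2, D.E.gp_eq, inner_smul_right, inner_smul_left, inner_self_eq_norm_sq_to_K] at this
      have k3 := D.E.fp_norm x
      have k4 := l0 x
      norm_cast at this
      simpa [k3, k4.ne'] using this)
  have a5 : Q.Sm0 fun x => (α x).im := fun c => Complex.imCLM.contDiff.comp (a1 c)
  have a6 : ∀ x c, df Q.toCM (fun x => (α x).im) x c = t * D.C.form η x c := fun x c => by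
    have f0 : D.E.fp x ≠ 0 := fun e => by
      have := D.E.fp_norm x
      rw [e, norm_zero] at this
      linarith [l0 x]
    have e : ∀ d, df Q.toCM α x d - Complex.I * (0 : X → V4) x d * α x =
        Complex.I * (df Q.toCM (fun x => (α x).im) x d : ℝ) := fun d => by
      have k1 := df_clm Complex.reCLM a1 x d
      have k2 := df_clm Complex.imCLM a1 x d
      simp only [Complex.reCLM_apply, Complex.imCLM_apply, a4, df_const] at k1 k2
      refine Complex.ext ?_ ?_ <;> simp [← k1, ← k2]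
    have := a3 x
    simp only [e, symb_real] at this
    refine congrFun (sub_eq_zero.1 (sgm_inj (t := df Q.toCM (fun x => (α x).im) x -
      t • D.C.form η x) f0 ((smul_eq_zero.1 ?_).resolve_left Complex.I_ne_zero))) c
    rw [← sgmL_apply, map_sub, map_smul, sub_apply, smul_sub, sgmL_apply, this]
    simp [smul_comm t]
  have η0 : η = 0 := (smul_eq_zero.1 (D.hq.indep (t • η) _ a5 fun x c => by
    rw [a6, D.C.form_apply, Finset.mul_sum]
    exact Finset.sum_congr rfl fun i _ => mul_assoc _ _ _)).resolve_left t0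
  obtain ⟨c, hc⟩ := const_of_df a5 (funext fun x => funext fun c => by
    simp [a6, η0, D.C.form_zero])
  refine ⟨η0, Complex.I * c, J_inj _ (Lp.ext ?_)⟩
  rw [J_csmul]
  filter_upwards [a2, Lp.coeFn_smul (Complex.I * c) ((L0 Q).bp.J D.v1), D.rep_v1.J_ae]
    with x k1 k2 k3
  rw [k2, Pi.smul_apply, k3, ← show α x = Complex.I * c from Complex.ext (by simp [congrFun a4 x])
    (by simp [hc x]), ← k1]

end Vale.Agent.P247W.Bp
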