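import Vale.Agent.P247W.Bs

/-!
# P247W, block BP: the row `SMAP`
-/

set_option linter.all false

open scoped ContDiff Topology ENNReal ComplexConjugate
open Set MeasureTheory Filter

noncomputable section

namespace Vale.Agent.P247W.Bp

open Vale.Agent.P204.GX Vale.Agent.P204.T4 Vale.Agent.P247E Vale.Agent.P247A
open Vale.Agent.P247E.R
open Vale.Agent.P247.H647 (Sp En sig pau len P3 symb)

namespace Smap

theorem mm_unit {z : ℂ} (hz : ‖z‖ = 1) (c : Fin 3 → ℝ) (y : Sp) : mm c (z • y) = mm c y := by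
  simp only [mm, PiLp.smul_apply, smul_eq_mul, norm_mul, hz, one_mul]

theorem ct_unit {z : ℂ} (hz : ‖z‖ = 1) (m : ℝ) (c : Fin 3 → ℝ) (y : Sp) :
    ct m c (z • y) = ct m c y := by rw [ct, ct, mm_unit hz]

theorem lam_smul (z : ℂ) (c : Fin 3 → ℝ) (y : Sp) : lam c (z • y) = z * lam c y := by
  simp only [lam, PiLp.smul_apply, smul_eq_mul]
  ring

theorem mm_cont : Continuous fun p : (Fin 3 → ℝ) × Sp => mm p.1 p.2 := by
  have := QEig.continuous_len
  unfold mm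
  fun_prop

theorem ct_cont (m : ℝ) : Continuous fun p : (Fin 3 → ℝ) × Sp => ct m p.1 p.2 := by
  have := QEig.continuous_len
  have := mm_cont
  unfold ct
  fun_prop

theorem lam_cont : Continuous fun p : (Fin 3 → ℝ) × Sp => lam p.1 p.2 := by
  have := QEig.continuous_len
  unfold lam
  fun_prop

variable {b n : ℕ}

theorem rd_sh (h : Rv b) (l : Fin b → ℤ) : rd (sh h l) = rd h + l :=
  funext fun i => round_add_intCast (h i) (l i)

theorem rd_le (h : Rv b) (l : Fin b → ℤ) :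
    ‖h - fun i => (rd h i : ℝ)‖ ≤ ‖h - fun i => (l i : ℝ)‖ :=
  (pi_norm_le_iff_of_nonneg (norm_nonneg _)).2 fun i =>
    (round_le (h i) (l i)).trans (norm_le_pi_norm (h - fun i => (l i : ℝ)) i)

theorem rd_eq {h : Rv b} {l : Fin b → ℤ} (k : ‖h - fun i => (l i : ℝ)‖ < 1 / 2) : rd h = l :=
  funext fun i => by
    have := abs_lt.1 ((norm_le_pi_norm (h - fun i => (l i : ℝ)) i).trans_lt k)
    simp only [Pi.sub_apply] at this
    exact round_eq_iff.2 ⟨by linarith [this.1], by linarith [this.2]⟩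

variable {X : Type} [MetricSpace X] [CompactSpace X] [ConnectedSpace X] [MeasurableSpace X]
  [BorelSpace X] {Q : QM X}

/-- the integral as a continuous linear map -/
def It (Q : QM X) : LL2 Q.toCM Sp →L[ℝ] Sp :=
  (ContinuousLinearMap.lsmul ℝ ℝ).lpPairing Q.mu 2 2 (Lp.const 2 Q.mu (1 : ℝ))

theorem It_eq (f : LL2 Q.toCM Sp) : It Q f = ∫ x, (f : X → Sp) x ∂Q.mu := by
  rw [It, ContinuousLinearMap.lpPairing_eq_integral]
  refine integral_congr_ae ?_
  filter_upwards [Lp.coeFn_const 2 Q.mu (1 : ℝ)] with x hx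
  rw [hx]
  exact one_smul ℝ _

variable (D : Dat Q b n) {R : ℝ} (hR : 0 < R)

theorem sf_eq (f : LL2 Q.toCM Sp) (h : Rv b) : D.sf f h =
    max 0 (1 - 4 * ‖h - fun i => (rd h i : ℝ)‖) • It Q (gL D.C (-rd h) f) := by
  rw [It_eq, Dat.sf]

theorem sf_cont : Continuous fun p : LL2 Q.toCM Sp × Rv b => D.sf p.1 p.2 := by
  refine continuous_iff_continuousAt.2 fun q => ?_
  have c1 : Continuous fun p : LL2 Q.toCM Sp × Rv b => ‖p.2 - fun i => (rd q.2 i : ℝ)‖ := by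
    fun_prop
  rcases lt_or_ge ‖q.2 - fun i => (rd q.2 i : ℝ)‖ (1 / 2) with k | k
  · have c2 : Continuous fun p : LL2 Q.toCM Sp × Rv b =>
        max 0 (1 - 4 * ‖p.2 - fun i => (rd q.2 i : ℝ)‖) • It Q (gL D.C (-rd q.2) p.1) := by
      fun_prop
    refine c2.continuousAt.congr ?_
    filter_upwards [(c1.tendsto q).eventually (gt_mem_nhds k)] with p hp
    rw [sf_eq, rd_eq hp]
  · refine (continuousAt_const (y := (0 : Sp))).congr ?_
    have c2 : Continuous fun p : LL2 Q.toCM Sp × Rv b => ‖q.2 - p.2‖ := by fun_prop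
    filter_upwards [(c2.tendsto q).eventually
      (gt_mem_nhds (by simp : ‖q.2 - q.2‖ < 1 / 4))] with p hp
    have a1 := k.trans (rd_le q.2 (rd p.2))
    have a2 := norm_sub_le_norm_sub_add_norm_sub q.2 p.2 fun i => (rd p.2 i : ℝ)
    rw [sf_eq, max_eq_left (by linarith), zero_smul]

theorem sf_smul (z : ℂ) (f : LL2 Q.toCM Sp) (h : Rv b) : D.sf (z • f) h = z • D.sf f h := by
  rw [Dat.sf, Dat.sf, map_smul, integral_congr_ae (Lp.coeFn_smul z _), smul_comm z]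
  exact congrArg _ (integral_smul z _)

theorem sf_inv (l : Fin b → ℤ) (f : LL2 Q.toCM Sp) (h : Rv b) :
    D.sf (gL D.C l f) (sh h l) = D.sf f h := by
  have e : (sh h l - fun i => ((rd h + l) i : ℝ)) = h - fun i => (rd h i : ℝ) := by
    funext i
    simp [sh]
  rw [Dat.sf, Dat.sf, rd_sh, ← gL_add, e, neg_add, neg_add_cancel_right]

theorem cf_cont : Continuous (D.cf hR) :=
  D.cL.continuous.comp ((continuous_const_smul _).comp (nq_cont hR))

theorem gf_cont : Continuous (D.gf hR) := ((sg Q).continuous.comp (cf_cont D hR)).sub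
  ((continuous_const_smul _).comp (nq_cont hR))

theorem cf_congr {f g : LL2 Q.toCM Sp} (h : nq Q hR f = nq Q hR g) : D.cf hR f = D.cf hR g := by
  rw [Dat.cf, Dat.cf, h]

theorem gf_congr {f g : LL2 Q.toCM Sp} (h : nq Q hR f = nq Q hR g) : D.gf hR f = D.gf hR g := by
  rw [Dat.gf, Dat.gf, h, cf_congr D hR h]

/-- the operator with frozen coefficients -/
def A (g : LL2 Q.toCM Sp) (c : Fin 3 → ℝ) : (L0 Q).bp.H1 →L[ℝ] LL2 Q.toCM Sp :=
  K1 Q.t1 (L0 Q).bp (D.G g) + (mR Q.toCM (D.Z c)).comp (L0 Q).bp.J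

theorem A_cont : Continuous fun p : LL2 Q.toCM Sp × (Fin 3 → ℝ) => A D p.1 p.2 :=
  ((K1 Q.t1 (L0 Q).bp).continuous.comp (D.G.continuous.comp continuous_fst)).add
    (((mul_cont D.hZ.toZFam (L0 Q)).comp continuous_snd).clm_comp continuous_const)

theorem A_cpt (g : LL2 Q.toCM Sp) (c : Fin 3 → ℝ) : IsCompactOperator (A D g c) :=
  (K1_cpt _ _ _).add ((rel X Q.toCM Sp Sp (L0 Q).bp (L0 Q).bp).clm_comp _)

theorem A_ae (g : LL2 Q.toCM Sp) (c : Fin 3 → ℝ) (w : (L0 Q).bp.H1) :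
    (A D g c w : X → Sp) =ᵐ[Q.mu] fun x =>
      ((-Complex.I) • sgm (Q.av (D.G g) x) + D.Z c x) (ps w x) := by
  filter_upwards [Lp.coeFn_add (K1 Q.t1 (L0 Q).bp (D.G g) w) (mR Q.toCM (D.Z c) ((L0 Q).bp.J w)),
    K1_ae Q.t1 (L0 Q).bp (D.G g) w, (D.hZ.hom c (L0 Q)).bm.mulOp_ae ((L0 Q).bp.J w)]
    with x a1 a2 a3
  refine a1.trans ?_
  rw [Pi.add_apply, a2, mR, a3]
  rfl

theorem A_mul (g : LL2 Q.toCM Sp) (c : Fin 3 → ℝ) {v w : (L0 Q).bp.H1} {u : X → ℂ}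
    (h : ∀ᵐ x ∂Q.mu, ps v x = u x • ps w x) :
    ∀ᵐ x ∂Q.mu, (A D g c v : X → Sp) x = u x • (A D g c w : X → Sp) x := by
  filter_upwards [A_ae D g c v, A_ae D g c w, h] with x a1 a2 a3
  rw [a1, a2, a3, map_smul]

theorem Φ_eq (m : ℝ) (v : (L0 Q).bp.H1) (h : Rv b) : D.Φ hR m (v, h) =
    (A D (D.gf hR ((L0 Q).bp.J v)) (ct m (D.cf hR ((L0 Q).bp.J v)) (D.sf ((L0 Q).bp.J v) h)) v,
      fun _ => lam (D.cf hR ((L0 Q).bp.J v)) (D.sf ((L0 Q).bp.J v) h),
      D.e (D.gf hR ((L0 Q).bp.J v))) := rfl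

theorem c0 : Continuous fun p : LL2 Q.toCM Sp × Rv b => (D.cf hR p.1, D.sf p.1 p.2) :=
  ((cf_cont D hR).comp continuous_fst).prodMk (sf_cont D)

theorem c1 (m : ℝ) : Continuous fun p : LL2 Q.toCM Sp × Rv b =>
    A D (D.gf hR p.1) (ct m (D.cf hR p.1) (D.sf p.1 p.2)) := by
  have k1 : Continuous fun p : LL2 Q.toCM Sp × Rv b => ct m (D.cf hR p.1) (D.sf p.1 p.2) :=
    Continuous.comp (g := fun p : (Fin 3 → ℝ) × Sp => ct m p.1 p.2) (ct_cont m) (c0 D hR)
  have k2 : Continuous fun p : LL2 Q.toCM Sp × Rv b =>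
      (D.gf hR p.1, ct m (D.cf hR p.1) (D.sf p.1 p.2)) :=
    ((gf_cont D hR).comp continuous_fst).prodMk k1
  have k3 := (A_cont D).comp k2
  simpa only [Function.comp_def] using k3

theorem c2 : Continuous fun p : LL2 Q.toCM Sp × Rv b =>
    ((fun _ => lam (D.cf hR p.1) (D.sf p.1 p.2), D.e (D.gf hR p.1)) : Cv 1 × Rv n) :=
  (continuous_pi fun _ => lam_cont.comp
    (((cf_cont D hR).comp continuous_fst).prodMk (sf_cont D))).prodMk
    (D.e.continuous.comp ((gf_cont D hR).comp continuous_fst))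

end Smap

open Smap in
theorem smap_cont {X : Type} [MetricSpace X] [CompactSpace X] [ConnectedSpace X] [MeasurableSpace X]
    [BorelSpace X] {Q : QM X} {b n : ℕ} (D : Dat Q b n) {R : ℝ} (hR : 0 < R) (m : ℝ) :
    Continuous (D.Φ hR m) := by
  have cJ : Continuous fun q : (L0 Q).bp.H1 × Rv b => ((L0 Q).bp.J q.1, q.2) := by fun_prop
  have k1 := ((c1 D hR m).comp cJ).clm_apply continuous_fst
  have k2 := (c2 D hR).comp cJ
  exact k1.prodMk k2

open Smap in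
theorem smap : SMAP_statement := by
  intro X _ _ _ _ _ Q b n D R hR m
  refine ⟨smap_cont D hR m, fun z v h hz => ?_, fun l v h => ?_, fun r => ?_⟩
  · have e := Ex.nq_unit hR (f := z • (L0 Q).bp.J v) (g := (L0 Q).bp.J v)
      ((Lp.coeFn_smul z _).mono fun x hx => ⟨z, hz, hx⟩)
    have h1 : ∀ᵐ x ∂Q.mu, ps (z • v) x = z • ps v x := by
      rw [ps, J_csmul]; exact Lp.coeFn_smul z ((L0 Q).bp.J v)
    rw [Φ_eq, Φ_eq, J_csmul, cf_congr D hR e, gf_congr D hR e, sf_smul, ct_unit hz, lam_smul]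
    refine Prod.ext (Lp.ext ?_) rfl
    filter_upwards [A_mul D _ _ (u := fun _ => z) h1, Lp.coeFn_smul z (A D _ _ v)] with x a1 a2
    exact a1.trans a2.symm
  · have e := Ex.nq_unit hR (f := gL D.C l ((L0 Q).bp.J v)) (g := (L0 Q).bp.J v)
      ((gL_ae D.C l _).mono fun x hx => ⟨_, D.C.gl_nm l x, hx⟩)
    have h1 : ∀ᵐ x ∂Q.mu, ps (gV (L0 Q) D.C l v) x = D.C.gl l x • ps v x := by
      rw [ps, J_gV]; exact gL_ae D.C l ((L0 Q).bp.J v)
    show D.Φ hR m (gV (L0 Q) D.C l v, sh h l) = (gL D.C l (D.Φ hR m (v, h)).1, (D.Φ hR m (v, h)).2)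
    rw [Φ_eq, Φ_eq, J_gV, cf_congr D hR e, gf_congr D hR e, sf_inv]
    refine Prod.ext (Lp.ext ?_) rfl
    filter_upwards [A_mul D _ _ h1, gL_ae D.C l (A D _ _ v)] with x a1 a2
    exact a1.trans a2.symm
  · obtain ⟨S, hS, hS'⟩ := IsCompactOperator.image_closedBall_subset_compact
      (f := ((L0 Q).bp.J : (L0 Q).bp.H1 →ₗ[ℝ] LL2 Q.toCM Sp))
      (rel X Q.toCM Sp Sp (L0 Q).bp (L0 Q).bp) r
    have hK := hS.prod (isCompact_closedBall (0 : Rv b) r)
    have hr : 0 < |r| + 1 := by positivity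
    obtain ⟨T, hT, hT'⟩ := cpt_family hK ((c1 D hR m).const_smul (|r| + 1))
      fun p => (A_cpt D _ _).smul (|r| + 1)
    refine ⟨T ×ˢ _, hT.prod (hK.image (c2 D hR)), fun v h hv hh => ?_⟩
    have k : ((L0 Q).bp.J v, h) ∈ S ×ˢ Metric.closedBall (0 : Rv b) r :=
      ⟨hS' ⟨v, mem_closedBall_zero_iff.2 hv, rfl⟩, mem_closedBall_zero_iff.2 hh⟩
    refine ⟨?_, _, k, rfl⟩
    have k1 := hT' _ k ((|r| + 1)⁻¹ • v) (by
      rw [norm_smul, norm_inv, Real.norm_of_nonneg hr.le, inv_mul_le_iff₀ hr]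
      linarith [le_abs_self r])
    rw [Pi.smul_apply, ContinuousLinearMap.smul_apply, map_smul, smul_smul, mul_inv_cancel₀ hr.ne', one_smul] at k1
    exact k1

end Vale.Agent.P247W.Bp
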