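import Vale.Agent.P247W.Bs

/-!
# P247W, block BP: the row `UNQ`
-/

set_option linter.all false

open scoped ContDiff Topology ENNReal ComplexConjugate
open Set MeasureTheory Filter

noncomputable section

namespace Vale.Agent.P247W.Bp

open Vale.Agent.P204.GX Vale.Agent.P204.T4 Vale.Agent.P247E Vale.Agent.P247A
open Vale.Agent.P247E.R
open Vale.Agent.P247.H647 (Sp En sig pau len P3 symb P3_smul)

namespace Unq

variable {X : Type} [MetricSpace X] [CompactSpace X] [ConnectedSpace X] [MeasurableSpace X]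
  [BorelSpace X] {Q : QM X} {b n : ℕ}

theorem core (hR : RGE_statement) (D : Dat Q b n) {c u : Fin 3 → ℝ} {r R : ℝ}
    (E : Eig Q D.B (D.Z c) u) (hr : 0 < r) (R0 : 0 < R) (h1 : 2 * D.B * r < R ^ 2)
    {v : (L0 Q).bp.H1} {h : Rv b}
    (h2 : ∀ᵐ x ∂Q.mu, ∑ d, sig d ((L0 Q).nabA v (D.C.form h) x d) + D.Z c x (ps v x) = 0)
    (h3 : ∀ᵐ x ∂Q.mu, ∀ k, (r • Q.nu u x) k - 1 / 2 * qT R (ps v x) k = 0) :
    ∃ (l : Fin b → ℤ) (z : ℂ), z ≠ 0 ∧ h = (fun i => (l i : ℝ)) ∧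
      ∀ᵐ x ∂Q.mu, ps v x = z • D.C.gl l x • E.fp x := by
  have l0 : ∀ x, 0 < len (Q.nu u x) := fun x => (inv_pos.2 D.hZ.pos).trans_le (E.lam_ge x)
  have h4 := h3.mono fun x k => eig_of_F R0 (by
    rw [len_smul' hr.le]; nlinarith [E.lam_le x]) k
  simp only [len_smul' hr.le] at h4
  obtain ⟨α, a1, a2, a3⟩ := hR X Q (L0 Q) _ _ u E v _ (fun _ => 0) D.hZ.pos (D.hZ.hom c _)
    (D.C.form_sm h) Q.t1.Sm.zero_mem h2 (h4.mono fun x k => by
      rw [E.gm_eq, inner_smul_left, inner_eig_zero (mul_pos hr (l0 x)).ne' k.2 (by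
        rw [P3_smul, E.fm_eig, smul_smul]; simp), mul_zero])
  have a4 : (fun x => ‖α x‖ ^ 2) = fun _ => r :=
    ((a1.continuous.norm.pow 2).ae_eq_iff_eq Q.mu continuous_const).1 (by
      filter_upwards [h4, a2] with x k1 k2
      have := k1.1
      rw [k2, norm_smul, mul_pow, E.fp_norm] at this
      exact mul_right_cancel₀ (mul_pos two_pos (l0 x)).ne' (this.trans (by ring)))
  have s0 : (√r : ℂ) ≠ 0 := by exact_mod_cast (Real.sqrt_pos.2 hr).ne'
  have s1 : SmF Q.toCM fun x => (√r : ℂ)⁻¹ * α x := fun a => contDiff_const.mul (a1 a)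
  have s2 : ∀ x, ‖(√r : ℂ)⁻¹ * α x‖ = 1 := fun x => by
    rw [norm_mul, norm_inv, Complex.norm_real, ← congrFun a4 x, Real.sqrt_sq (norm_nonneg _),
      norm_norm, inv_mul_cancel₀ fun e => hr.ne' (by rw [← congrFun a4 x, e]; simp)]
  have k := lg_darg s1 s2
  obtain ⟨z, m, b1, b2, b3⟩ := D.hq.gen_harm (k.congr (fun _ => rfl) (ξ := D.hq.form h) fun x d => by
    have f0 : E.fp x ≠ 0 := fun e => by
      have := E.fp_norm x
      rw [e, norm_zero] at this
      linarith [l0 x]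
    have e : ∀ d, df Q.toCM α x d - Complex.I * D.C.form h x d * α x = Complex.I * α x *
        ((darg Q.toCM (fun x => (√r : ℂ)⁻¹ * α x) x - D.C.form h x) d : ℝ) := fun d => by
      have := (df_clm (ContinuousLinearMap.mul ℝ ℂ (√r : ℂ)⁻¹) a1 x d).symm.trans (k.der x d)
      rw [ContinuousLinearMap.mul_apply', mul_left_comm] at this
      rw [mul_left_cancel₀ (inv_ne_zero s0) this, Pi.sub_apply]
      push_cast
      ring
    have := a3 x
    simp only [e, symb_real] at this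
    rw [← H1Q.gau_form]
    exact congrFun (sub_eq_zero.1 (sgm_inj f0 ((smul_eq_zero.1 this).resolve_left
      (mul_ne_zero Complex.I_ne_zero fun e => by simpa [e] using s2 x)))) d) (D.hq.harm_form h)
  refine ⟨m, √r * z, mul_ne_zero s0 fun e => by simp [e] at b1, D.hq.form_inj b2,
    a2.mono fun x e => ?_⟩
  rw [e, smul_smul, mul_assoc, Dat.C, H1Q.gau_gl, ← b3, mul_inv_cancel_left₀ s0]

end Unq

theorem unq : UNQ_statement := by
  intro hR X _ _ _ _ _ Q b n D R v h g c R0 hS hF hc h1 h2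
  have r0 : 0 < len c := one_pos.trans_le hc
  have g0 : D.G g = 0 := by
    have k : D.H.clm (Ex.ph D.C h + D.G g) = 0 := Lp.ext (by
      filter_upwards [hS.div, hF, Lp.coeFn_zero Sp 2 Q.mu] with x a1 a2 a3
      refine (spn_vec _).symm.trans ((congrArg spn (funext (Fin.cases a1 fun k => ?_))).trans
        ((map_zero spnL).trans a3.symm))
      simpa [QM.Fa, LBc.Fh, LBc.triv_F, ← Hx.hc_succ] using a2 k)
    rw [map_add, (D.hq.clm_eq_zero D.hH).2 ⟨h, D.ph_eq h⟩, zero_add] at k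
    exact inner_self_eq_zero (𝕜 := ℝ) |>.1 (D.hG.perp g _ k)
  have d1 : ∀ᵐ x ∂Q.mu, ∑ d, sig d ((L0 Q).nabA v (D.C.form h) x d) + D.Z c x (ps v x) = 0 := by
    filter_upwards [hS.dirac, (Ex.rep_ph D.C h).J_ae] with x a1 a2
    simpa only [g0, add_zero, LBc.nabA, QM.av, a2, P247E.vec_spn] using a1
  have d2 : ∀ᵐ x ∂Q.mu, ∀ k, (len c • Q.nu ((len c)⁻¹ • c) x) k - 1 / 2 * qT R (ps v x) k = 0 := by
    filter_upwards [hS.curv, hF] with x a1 a2 k
    rw [Pi.smul_apply, nu_smul, smul_eq_mul, mul_inv_cancel_left₀ r0.ne', ← a1, a2]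
  obtain ⟨E, s, e1, e2⟩ := D.hZ.eigp c hc
  obtain ⟨l, z, z0, rfl, e3⟩ := Unq.core hR D E r0 R0 h1 d1 d2
  have i1 : Integrable E.fp Q.mu := memLp_one_iff_integrable.1 (E.fp_sm.bm.memLp 1)
  have e4 : D.sf ((L0 Q).bp.J v) (fun i => (l i : ℝ)) = z • ∫ x, E.fp x ∂Q.mu := by
    have : rd (fun i => (l i : ℝ)) = l := funext fun i => round_intCast _
    rw [Dat.sf, this, sub_self, norm_zero, mul_zero, sub_zero, max_eq_right zero_le_one, one_smul]
    refine (integral_congr_ae ?_).trans (integral_smul z _)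
    filter_upwards [gL_ae D.C (-l) ((L0 Q).bp.J v), e3] with x a1 a2
    rw [a1, show ((L0 Q).bp.J v : X → Sp) x = _ from a2, smul_comm, smul_smul (D.C.gl _ _),
      ← D.C.gl_add, neg_add_cancel, D.C.gl_zero, one_smul]
  have e5 : (len c)⁻¹ • c = u0 := lam_zero r0 (QEig.len_unit r0) e1 (y := z • ∫ x, E.fp x ∂Q.mu) (by
    rw [inner_smul_right, ← integral_inner i1]
    refine mul_ne_zero z0 fun e => (e2 (Classical.arbitrary X)).ne' (congrFun (eq_zero_of_integral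
      (μ := Q.mu) (f := fun x => (inner ℂ s (E.fp x)).re) (Complex.continuous_re.comp
      (continuous_const.inner E.fp_sm.continuous)) (fun x => (e2 x).le)
      (i1.const_inner (𝕜 := ℂ) s).re ?_) _)
    exact (integral_re (i1.const_inner s)).trans (congrArg _ e)) (by
      rwa [smul_smul, mul_inv_cancel₀ r0.ne', one_smul, ← e4])
  have e6 : D.Z c = D.Z u0 := by
    rw [← D.hZ.ray _ hc, ← e5, smul_smul, mul_inv_cancel₀ r0.ne', one_smul]
  rw [e6] at d1
  rw [e5] at d2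
  obtain ⟨l', z', -, f1, f2⟩ := Unq.core hR D D.E r0 R0 h1 d1 d2
  refine ⟨l', z', f1.trans (funext fun i => (zero_add _).symm), J_inj _ (Lp.ext ?_)⟩
  rw [J_csmul, J_gV]
  filter_upwards [f2, Lp.coeFn_smul z' (gL D.C l' ((L0 Q).bp.J D.v1)),
    gL_ae D.C l' ((L0 Q).bp.J D.v1), D.rep_v1.J_ae] with x a1 a2 a3 a4
  rw [a2, Pi.smul_apply, a3, a4, ← a1]

end Vale.Agent.P247W.Bp
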