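import Vale.Agent.P247W.QuSta

/-!
# P247W, quantisation: the assembly
-/

set_option linter.all false

open scoped Topology ContDiff
open Set Filter Complex MeasureTheory

noncomputable section

namespace Vale.Agent.P247W.Qu

open Vale.Agent.P204.GX Vale.Agent.P204.T4 Vale.Agent.P247E Vale.Agent.P247A
open Vale.Agent.P247.H647 (Sp En)

namespace As

theorem ee_th {z : ℂ} (h : ‖z‖ = 1) : ee (1 * th z) = z := by
  have e : arg z / (2 * Real.pi) = th z + (⌊arg z / (2 * Real.pi)⌋ : ℤ) := by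
    rw [th, Int.fract_add_floor]
  have k := congrArg ee e
  rw [ee_add, ee_int, mul_one] at k
  have := norm_mul_exp_arg_mul_I z
  rw [h, ofReal_one, one_mul] at this
  rw [one_mul, ← k, ee]
  refine Eq.trans (congrArg _ ?_) this
  have : (Real.pi : ℂ) ≠ 0 := ofReal_ne_zero.2 Real.pi_ne_zero
  push_cast
  field_simp

theorem meas_th : Measurable th := (measurable_arg.div_const _).fract

variable {X : Type} [MetricSpace X] [CompactSpace X] [MeasurableSpace X] [BorelSpace X]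

/-- the two angles -/
structure Ang (θ : X → ℝ × Circle) : Prop where
  meas : StronglyMeasurable θ
  mem : ∀ x, (θ x).1 ∈ Icc (0 : ℝ) 1

variable {θ : X → ℝ × Circle} (Q : QM X)

theorem Ang.bm (h : Ang θ) (f : Al) : BM fun x => f (θ x) := by
  obtain ⟨C, hC⟩ := ((isCompact_Icc (a := (0 : ℝ)) (b := 1)).prod
    (isCompact_univ (X := Circle))).exists_bound_of_continuousOn f.continuous.continuousOn
  exact ⟨f.continuous.comp_stronglyMeasurable h.meas, C, fun x => hC _ ⟨h.mem x, trivial⟩⟩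

/-- the multiplication operators -/
def Ang.act (h : Ang θ) (f : Al) : LL2 Q.toCM Sp →L[ℂ] LL2 Q.toCM Sp := mC (bm_scal (h.bm f))

theorem Ang.ae (h : Ang θ) (f : Al) (v : LL2 Q.toCM Sp) :
    (h.act Q f v : X → Sp) =ᵐ[Q.mu] fun x => f (θ x) • (v : X → Sp) x := mR_ae (bm_scal (h.bm f)) v

/-- the module structure -/
@[reducible] def Ang.mod (h : Ang θ) : Module Al (LL2 Q.toCM Sp) where
  smul f v := h.act Q f v
  one_smul v := Lp.ext ((h.ae Q 1 v).mono fun x hx => hx.trans (one_smul _ _))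
  mul_smul f g v := Lp.ext (by
    filter_upwards [h.ae Q (f * g) v, h.ae Q f (h.act Q g v), h.ae Q g v] with x h1 h2 h3
    refine h1.trans (Eq.trans ?_ h2.symm)
    rw [h3, ContinuousMap.mul_apply, mul_smul])
  smul_zero f := map_zero (h.act Q f)
  smul_add f := map_add (h.act Q f)
  add_smul f g v := Lp.ext (by
    filter_upwards [h.ae Q (f + g) v, h.ae Q f v, h.ae Q g v,
      Lp.coeFn_add (h.act Q f v) (h.act Q g v)] with x h1 h2 h3 h4
    refine h1.trans (Eq.trans ?_ h4.symm)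
    rw [Pi.add_apply, h2, h3, ContinuousMap.add_apply, add_smul])
  zero_smul v := Lp.ext (by
    filter_upwards [h.ae Q 0 v, Lp.coeFn_zero Sp 2 Q.mu] with x h1 h2
    exact h1.trans ((zero_smul _ _).trans h2.symm))

theorem Ang.tower (h : Ang θ) : letI := h.mod Q; IsScalarTower ℂ Al (LL2 Q.toCM Sp) :=
  letI := h.mod Q
  ⟨fun z f v => Lp.ext (by
    filter_upwards [h.ae Q (z • f) v, h.ae Q f v, Lp.coeFn_smul z (h.act Q f v)] with x h1 h2 h3
    refine h1.trans (Eq.trans ?_ h3.symm)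
    rw [Pi.smul_apply, h2, ContinuousMap.smul_apply, smul_assoc])⟩

theorem mC_ae {B : X → En} (hB : BM B) (v : LL2 Q.toCM Sp) :
    (mC (Q := Q) hB v : X → Sp) =ᵐ[Q.mu] fun x => B x ((v : X → Sp) x) := mR_ae hB v

theorem Ang.comm (h : Ang θ) {B : X → En} (hB : BM B) (f : Al) (v : LL2 Q.toCM Sp) :
    mC (Q := Q) hB (h.act Q f v) = h.act Q f (mC (Q := Q) hB v) := Lp.ext (by
  filter_upwards [mC_ae Q hB (h.act Q f v), h.ae Q f v, h.ae Q f (mC (Q := Q) hB v), mC_ae Q hB v]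
    with x h1 h2 h3 h4
  rw [h1, h2, h3, h4, map_smul])

theorem bm_sg {η : X → V4} (h : Q.Sm1 η) (z : ℂ) : BM fun x => z • sgm (η x) :=
  (bm_Sm1 h).cont (F := fun t : V4 => z • sgm t) (sgmL.continuous.const_smul z)

/-- the abstract data -/
def Ang.dat (h : Ang θ) (L : LBc Q.toCM) {a a' : X → V4} (ha : Q.Sm1 a) (ha' : Q.Sm1 a') :
    @Dat (LL2 Q.toCM Sp) _ _ (h.mod Q) :=
  letI := h.mod Q
  { bd := fun f C v k => Lp.norm_le_mul_norm_of_ae_le_mul ((h.ae Q f v).mono fun x hx => by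
      refine (congrArg norm hx).trans_le ?_
      rw [norm_smul]
      exact mul_le_mul_of_nonneg_right (k _ (h.mem x) _) (norm_nonneg _))
    σ := mC (bm_sg Q ha (1 / (2 * Real.pi)))
    τ := mC (bm_sg Q ha' 1)
    hσ := h.comm Q _
    hτ := h.comm Q _
    Γ := LinearMap.range ((Jc L).prod (cx (Q.dirac L).clm (D_csmul L)) :
      L.bp.H1 →ₗ[ℂ] LL2 Q.toCM Sp × LL2 Q.toCM Sp) }

/-- the graph on smooth sections -/
def gr (L : LBc Q.toCM) : Set (LL2 Q.toCM Sp × LL2 Q.toCM Sp) :=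
  {p | ∃ w, (∃ s ∈ L.bp.Sm, L.bp.Rep w s) ∧ p = (L.bp.J w, (Q.dirac L).clm w)}

theorem geo (h : Ang θ) (L L' : LBc Q.toCM) {a a' : X → V4} (ha : Q.Sm1 a) (ha' : Q.Sm1 a') (ε : ℤ)
    (k : ∀ s ∈ L'.bp.Sm, ∀ η η', Dr η η' → (∀ t : ℝ, 1 ≤ |t| → η t = 0 ∧ η' t = 0) → ∀ q : ℤ,
      (fun x => kap η ε q (θ x) • s x) ∈ L.bp.Sm ∧ ∀ x,
      (Q.dirac L).app (fun x => kap η ε q (θ x) • s x) x =
        kap η' ε q (θ x) • (1 / (2 * Real.pi) : ℂ) • sgm (a x) (s x) +
        kap η ε q (θ x) • (Q.dirac L').app s x + I • kap (η * lin ε q) ε q (θ x) • sgm (a' x) (s x)) :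
    @Dat.Geo _ _ _ (h.mod Q) (h.dat Q L ha ha') ε (gr Q L') := by
  rintro _ ⟨w, ⟨s, hs, r⟩, rfl⟩ η η' d z q
  obtain ⟨m, e⟩ := k s hs η η' d z q
  have r' := L.bp.rep_jw m
  refine ⟨L.bp.jw m, Prod.ext (Lp.ext ?_) (Lp.ext ?_)⟩
  · filter_upwards [r'.J_ae, h.ae Q (kap η ε q) (L'.bp.J w), r.J_ae] with x h1 h2 h3
    exact h1.trans (h3 ▸ h2.symm)
  · have a1 := mC_ae Q (bm_sg Q ha (1 / (2 * Real.pi))) (L'.bp.J w)
    have a2 := mC_ae Q (bm_sg Q ha' 1) (L'.bp.J w)
    have a3 := h.ae Q (kap η' ε q) (mC (bm_sg Q ha (1 / (2 * Real.pi))) (L'.bp.J w))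
    have a4 := h.ae Q (kap η ε q) ((Q.dirac L').clm w)
    have a5 := h.ae Q (kap (η * lin ε q) ε q) (mC (bm_sg Q ha' 1) (L'.bp.J w))
    show ((Q.dirac L).clm (L.bp.jw m) : X → Sp) =ᵐ[Q.mu] (h.act Q (kap η' ε q)
      (mC (bm_sg Q ha (1 / (2 * Real.pi))) (L'.bp.J w)) + h.act Q (kap η ε q) ((Q.dirac L').clm w) +
      I • h.act Q (kap (η * lin ε q) ε q) (mC (bm_sg Q ha' 1) (L'.bp.J w)) : LL2 Q.toCM Sp)
    generalize h.act Q (kap η' ε q) _ = u1 at *
    generalize h.act Q (kap η ε q) _ = u2 at *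
    generalize h.act Q (kap (η * lin ε q) ε q) _ = u3 at *
    filter_upwards [r'.clm_ae m (Q.dirac L), r.clm_ae hs (Q.dirac L'), r.J_ae, a1, a2, a3, a4, a5,
      Lp.coeFn_add (u1 + u2) (I • u3), Lp.coeFn_add u1 u2, Lp.coeFn_smul I u3]
      with x h1 h2 h3 h4 h5 h6 h7 h8 h9 h10 h11
    rw [h1, e, h9, Pi.add_apply, h10, h11, Pi.add_apply, Pi.smul_apply, h6, h7, h8, h4, h5, h2, h3,
      one_smul]
    rfl

theorem ind_tw [ConnectedSpace X] (L L' : LBc Q.toCM) {a a' : X → V4} (ha : Q.Sm1 a)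
    (ha' : Q.Sm1 a') {t : ℝ} (h : L'.F = fun x => L.F x + t • wd (a x) (a' x)) :
    ((Q.dirac L').ind : ℝ) = (Q.dirac L).ind +
      2 * t * Q.pr L.F (fun x => wd (a x) (a' x)) / (4 * Real.pi ^ 2) := by
  have b1 := bm_Om L.F_mem
  have b2 : BM fun x => wd (a x) (a' x) := ((bm_Sm1 ha).prod (bm_Sm1 ha')).cont
    (F := fun p : V4 × V4 => wd p.1 p.2) (continuous_pi fun i => by
      fin_cases i <;> simp only [wd] <;> simp <;> fun_prop)
  have it : ∀ {u v : X → L2}, BM u → BM v → Integrable (fun x => P204.T4.Q (u x) (v x)) Q.mu :=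
    fun hu hv => memLp_one_iff_integrable.1 (((hu.prod hv).cont continuous_Q).memLp 1)
  have e : Q.pr L'.F L'.F = Q.pr L.F L.F + 2 * t * Q.pr L.F fun x => wd (a x) (a' x) := by
    simp only [CM.pr]
    rw [← integral_const_mul, ← integral_add (it b1 b1) ((it b1 b2).const_mul _), h]
    congr 1
    funext x
    simp only [P204.T4.Q, Pi.add_apply, Pi.smul_apply, smul_eq_mul, wd_0, wd_1, wd_2, wd_3, wd_4,
      wd_5]
    ring
  rw [P247I.ind X Q L', P247I.ind X Q L, e]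
  ring

/-- no kernel, hence no positive index -/
theorem not_pos {ι : Type} [Fintype ι] (L : ι → LBc Q.toCM) (h0 : ∀ r, 0 ≤ (Q.dirac (L r)).ind)
    (T : (ι → LL2 Q.toCM Sp) →L[ℂ] ι → LL2 Q.toCM Sp) (C : ℝ)
    (h : ∀ ψ f, (∀ r, (ψ r, f r) ∈ gr Q (L r)) → ‖ψ‖ ≤ C * ‖f + T ψ‖) (r₀ : ι) :
    (Q.dirac (L r₀)).ind ≤ 0 := by
  by_contra! h1
  obtain ⟨v, v0, hv⟩ := idx (fun r => (Q.dirac (L r)).clm) (fun r => (L r).bp.J)
    (fun r => (Q.dirac_cliff (L r)).fr rfl) (fun r => rel X Q.toCM Sp Sp (L r).bp (L r).bp) h0 h1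
    (T.restrictScalars ℝ)
  have k : ‖fun r => (L r).bp.J (v r)‖ ≤
      C * ‖(fun r => (Q.dirac (L r)).clm (v r)) + T fun r => (L r).bp.J (v r)‖ :=
    (dense_pi univ fun r _ => (L r).bp.dense_rep).induction
      (P := fun v : ∀ r, (L r).bp.H1 => ‖fun r => (L r).bp.J (v r)‖ ≤
        C * ‖(fun r => (Q.dirac (L r)).clm (v r)) + T fun r => (L r).bp.J (v r)‖)
      (fun w hw => h _ _ fun r => ⟨w r, hw r trivial, rfl⟩) (isClosed_le (by fun_prop) (by fun_prop)) v
  rw [show ((fun r => (Q.dirac (L r)).clm (v r)) + T fun r => (L r).bp.J (v r)) = 0 from funext hv,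
    norm_zero, mul_zero, norm_le_zero_iff] at k
  exact v0 (funext fun r => J_inj (L r) ((congrFun k r).trans (map_zero _).symm))

variable {Q}

theorem lg_single (C : Gau Q.toCM 2) (i : Fin 2) : Lg Q.toCM (C.gl (Pi.single i 1)) (C.a i) :=
  ⟨C.gl_sm _, C.gl_nm _, fun x c => by
    rw [C.gl_df]
    fin_cases i <;> simp⟩

theorem core [ConnectedSpace X] (h1 : ABS_statement) (h2 : LTW_statement) (L : LBc Q.toCM)
    (C : Gau Q.toCM 2) (A : Rv 2 → LL2 Q.toCM Sp →L[ℂ] LL2 Q.toCM Sp) {c : ℝ} (hA : Continuous A)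
    (c0 : 0 < c) (hg : ∀ l h y, A (P247A.sh h l) (gL C l y) = gL C l (A h y))
    (he : ∀ h v, c * ‖Jc L v‖ ≤ ‖Dh L C h v + A h (Jc L v)‖) (hi : (Q.dirac L).ind = 0)
    (i j : Fin 2) : Q.pr L.F (fun x => wd (C.a i x) (C.a j x)) ≤ 0 := by
  let g' : X → Circle := fun x =>
    ⟨C.gl (Pi.single j 1) x, mem_sphere_zero_iff_norm.2 (C.gl_nm _ x)⟩
  have c' : Continuous g' := (C.gl_sm _).continuous.subtype_mk _
  have h : Ang fun x => (th (C.gl (Pi.single i 1) x), g' x) :=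
    ⟨(meas_th.comp (C.gl_sm _).continuous.measurable).stronglyMeasurable.prodMk
      c'.stronglyMeasurable, fun x => ⟨Int.fract_nonneg _, (Int.fract_lt_one _).le⟩⟩
  choose L' hF hL using h2 X Q L _ g' _ _ (lg_single C i) (lg_single C j)
  letI := h.mod Q
  haveI := h.tower Q
  let E : ℝ × ℝ → Rv 2 := fun h => Pi.single i h.1 + Pi.single j h.2
  have u1 : ∀ v : LL2 Q.toCM Sp, uu 1 • v = gL C (Pi.single i 1) v := fun v => Lp.ext (by
    filter_upwards [h.ae Q (uu 1) v, gL_ae C (Pi.single i 1) v] with x k1 k2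
    exact k1.trans ((congrArg (· • _) (ee_th (C.gl_nm _ x))).trans k2.symm))
  have u2 : ∀ v : LL2 Q.toCM Sp, ww 1 • v = gL C (Pi.single j 1) v := fun v => Lp.ext (by
    filter_upwards [h.ae Q (ww 1) v, gL_ae C (Pi.single j 1) v] with x k1 k2
    refine k1.trans (Eq.trans ?_ k2.symm)
    simp only [ww, ContinuousMap.coe_mk, zpow_one]
    rfl)
  obtain ⟨n, T, K, hK⟩ := h1 _ (h.dat Q L (C.a_sm i) (C.a_sm j)) (fun ε => gr Q (L' ε))
    (fun h => A (E h)) c c0 (hA.comp (continuous_pi fun k => by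
      simp only [E, Pi.add_apply, Pi.single_apply]
      split_ifs <;> fun_prop)) (fun h v => by
      rw [u1, u1, ← hg]
      congr 2
      funext k
      simp only [E, P247A.sh, Pi.add_apply, Pi.single_apply]
      split_ifs <;> push_cast <;> ring) (fun h v => by
      rw [u2, u2, ← hg]
      congr 2
      funext k
      simp only [E, P247A.sh, Pi.add_apply, Pi.single_apply]
      split_ifs <;> push_cast <;> ring) (by
      rintro _ ⟨v, rfl⟩ t
      refine (he (E t) v).trans_eq (congrArg norm ?_)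
      congr 1
      rw [Dh_eq]
      have a1 := mC_ae Q (bm_sg Q (C.a_sm i) (1 / (2 * Real.pi))) (L.bp.J v)
      have a2 := mC_ae Q (bm_sg Q (C.a_sm j) 1) (L.bp.J v)
      have a3 := mR_ae (bm_cl (C.form_sm (E t))) (L.bp.J v)
      show _ = (Q.dirac L).clm v - (2 * Real.pi * I * t.1) • mC (bm_sg Q (C.a_sm i)
        (1 / (2 * Real.pi))) (L.bp.J v) - (I * t.2) • mC (bm_sg Q (C.a_sm j) 1) (L.bp.J v)
      generalize mC (bm_sg Q (C.a_sm i) (1 / (2 * Real.pi))) (L.bp.J v) = v1 at *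
      generalize mC (bm_sg Q (C.a_sm j) 1) (L.bp.J v) = v2 at *
      generalize mR _ _ (L.bp.J v) = v3 at *
      rw [sub_sub, sub_eq_add_neg]
      congr 1
      refine Lp.ext ?_
      filter_upwards [a1, a2, a3, Lp.coeFn_neg ((2 * Real.pi * I * t.1) • v1 + (I * t.2) • v2),
        Lp.coeFn_add ((2 * Real.pi * I * t.1) • v1) ((I * t.2) • v2),
        Lp.coeFn_smul (2 * Real.pi * I * t.1) v1, Lp.coeFn_smul (I * t.2) v2]
        with x k1 k2 k3 k4 k5 k6 k7
      have f : C.form (E t) x = t.1 • C.a i x + t.2 • C.a j x := by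
        simp only [E, Gau.form, Pi.single_apply, ite_smul, Finset.sum_add_distrib, add_smul,
          Pi.add_apply, zero_smul, Finset.sum_ite_eq', Finset.mem_univ, if_true, Pi.smul_apply]
      have p : (Real.pi : ℂ) ≠ 0 := ofReal_ne_zero.2 Real.pi_ne_zero
      rw [k3, k4, Pi.neg_apply, k5, Pi.add_apply, k6, k7, Pi.smul_apply, Pi.smul_apply, k1, k2, f,
        sgm_add, sgm_smul, sgm_smul]
      simp only [ContinuousLinearMap.smul_apply, ContinuousLinearMap.add_apply, smul_smul,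
        ← coe_smul]
      rw [show 2 * Real.pi * I * t.1 * (1 / (2 * Real.pi)) = I * t.1 by field_simp]
      module) fun ε => geo Q h L (L' ε) _ _ ε (hL ε)
  have k := fun ε => ind_tw Q L (L' ε) (C.a_sm i) (C.a_sm j) (hF ε)
  by_contra! p
  have k1 : 0 < (Q.dirac (L' 1)).ind := by
    have : (0 : ℝ) < (Q.dirac (L' 1)).ind := by
      rw [k, hi]
      have := Real.pi_pos
      push_cast
      positivity
    exact_mod_cast this
  have k0 : (Q.dirac (L' 0)).ind = 0 := by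
    have := k 0
    rw [hi] at this
    simpa using this
  have := not_pos Q (fun r : ZMod (2 * n + 1) => L' (if r = 0 then 1 else 0)) (fun r => by
    by_cases q : r = 0
    · rw [if_pos q]; exact k1.le
    · rw [if_neg q]; exact k0.ge) T K hK 0
  rw [if_pos rfl] at this
  omega

end As

theorem asmq : ASMQ_statement := by
  intro h1 h2 X _ _ _ _ _ Q L C A c hA c0 hg he hi
  have a := As.core h1 h2 L C A hA c0 hg he hi 0 1
  have b := As.core h1 h2 L C A hA c0 hg he hi 1 0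
  simp only [CM.pr, wd_swap (C.a 1 _), Q_neg_right, integral_neg] at a b ⊢
  linarith

end Vale.Agent.P247W.Qu
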