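import Vale.Agent.P247W.QuL1

/-!
# P247W, quantisation: the row `LTW`
-/

set_option linter.all false

open scoped Topology ContDiff ComplexConjugate
open Set Filter Complex

noncomputable section

namespace Vale.Agent.P247W.Qu

open Vale.Agent.P204.GX Vale.Agent.P204.T4 Vale.Agent.P247E
open Vale.Agent.P247.H647 (Sp En cov sig)
open Vale.Agent.P247.H74 (e)

namespace Lt

variable {X : Type} [MetricSpace X] {M : CM X} {g : X → ℂ} {a a' : X → V4} (T : Lift M g a)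
  (g' : X → Circle) (ε q : ℤ) (b : M.A)

/-- one term of the periodisation -/
def Lift.tm (χ : C(ℝ, ℂ)) (n : ℤ) (y : V4) : ℂ :=
  χ (T.θ b y - n) * (g' (M.ψ b y) : ℂ) ^ (q - ε * n)

/-- the multiplier in the smooth gauges -/
def Lift.kk (χ : C(ℝ, ℂ)) (y : V4) : ℂ :=
  kap χ ε q (th (g (M.ψ b y)), g' (M.ψ b y)) * T.W g' ε b y

theorem Lift.kk_eq (χ : C(ℝ, ℂ)) (y : V4) :
    T.kk g' ε q b χ y = T.tm g' ε q b χ ⌊T.θ b y⌋ y + T.tm g' ε q b χ (⌊T.θ b y⌋ + 1) y := by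
  rw [Lift.kk, ← T.eq, th_ee]
  simp only [kap, sh, ww, Lift.W, Lift.tm, ContinuousMap.add_apply, ContinuousMap.mul_apply,
    ContinuousMap.coe_mk, Circle.coe_zpow, add_mul, mul_assoc,
    ← zpow_add₀ (Circle.coe_ne_zero _)]
  congr 3
  · ring
  · push_cast; ring
  · ring

theorem Lift.kk_ev {χ : C(ℝ, ℂ)} (hχ : ∀ t : ℝ, 1 ≤ |t| → χ t = 0) (y : V4) :
    T.kk g' ε q b χ =ᶠ[𝓝 y] fun z => T.tm g' ε q b χ (⌊T.θ b y⌋ - 1) z +
      T.tm g' ε q b χ ⌊T.θ b y⌋ z + T.tm g' ε q b χ (⌊T.θ b y⌋ + 1) z := by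
  have h : Ioo ((⌊T.θ b y⌋ : ℝ) - 1) (⌊T.θ b y⌋ + 1) ∈ 𝓝 (T.θ b y) :=
    Ioo_mem_nhds (by linarith [Int.floor_le (T.θ b y)]) (Int.lt_floor_add_one _)
  filter_upwards [(T.sm b).continuous.continuousAt.eventually h] with z hz
  rw [T.kk_eq]
  generalize ⌊T.θ b y⌋ = m at hz ⊢
  rcases le_or_gt (m : ℝ) (T.θ b z) with h1 | h1
  · rw [Int.floor_eq_iff.2 ⟨h1, hz.2⟩, Lift.tm.eq_1 _ _ _ _ _ _ (m - 1),
      hχ _ (le_abs.2 (.inl (by push_cast; linarith))), zero_mul, zero_add]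
  · rw [(Int.floor_eq_iff (z := m - 1)).2 ⟨by push_cast; exact hz.1.le, by push_cast; linarith⟩,
      sub_add_cancel, Lift.tm.eq_1 _ _ _ _ _ _ (m + 1),
      hχ _ (le_abs.2 (.inr (by push_cast; linarith))), zero_mul, add_zero]

variable {g'} (h' : Lg M (fun x => (g' x : ℂ)) a') {η η' : C(ℝ, ℂ)} (hd : Dr η η')

include h' hd

theorem Lift.tm_sm (n : ℤ) : ContDiff ℝ ∞ (T.tm g' ε q b η n) :=
  (hd.sm.comp ((T.sm b).sub contDiff_const)).mul ((h'.zpow _).sm b)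

theorem Lift.tm_der (n : ℤ) (y : V4) (c : Fin 4) :
    fderiv ℝ (T.tm g' ε q b η n) y (fv M b y c) =
      T.tm g' ε q b η' n y * (1 / (2 * Real.pi) * a (M.ψ b y) c) + I * a' (M.ψ b y) c *
        (T.tm g' ε q b (η * lin ε q) n y - ε * T.θ b y * T.tm g' ε q b η n y) := by
  have d1 := (hd.der (T.θ b y - n)).hasFDerivAt.comp y
    (((T.sm b).differentiable (by simp) y).hasFDerivAt.sub_const (n : ℝ))
  have d2 := ((h'.zpow (q - ε * n)).sm b).differentiable (by simp) y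
  have d3 := lg_fd (h'.zpow (q - ε * n)) b y (fv M b y c)
  rw [dp_fv] at d3
  have d4 : fderiv ℝ (T.tm g' ε q b η n) y = _ := (d1.mul d2.hasFDerivAt).fderiv
  rw [d4]
  simp only [ContinuousLinearMap.add_apply, ContinuousLinearMap.smul_apply, smul_eq_mul, d3,
    ContinuousLinearMap.comp_apply, ContinuousLinearMap.toSpanSingleton_apply, T.der, dp_fv,
    Function.comp_apply, real_smul, Lift.tm, lin, ContinuousMap.mul_apply, ContinuousMap.coe_mk,
    Pi.smul_apply]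
  push_cast
  ring

theorem Lift.kk_sm (h0 : ∀ t : ℝ, 1 ≤ |t| → η t = 0) : ContDiff ℝ ∞ (T.kk g' ε q b η) :=
  contDiff_iff_contDiffAt.2 fun y => (((T.tm_sm ε q b h' hd _).add (T.tm_sm ε q b h' hd _)).add
    (T.tm_sm ε q b h' hd _)).contDiffAt.congr_of_eventuallyEq (T.kk_ev g' ε q b h0 y)

theorem Lift.kk_der (h0 : ∀ t : ℝ, 1 ≤ |t| → η t = 0 ∧ η' t = 0) (y : V4) (c : Fin 4) :
    fderiv ℝ (T.kk g' ε q b η) y (fv M b y c) =
      T.kk g' ε q b η' y * (1 / (2 * Real.pi) * a (M.ψ b y) c) + I * a' (M.ψ b y) c *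
        (T.kk g' ε q b (η * lin ε q) y - ε * T.θ b y * T.kk g' ε q b η y) := by
  have d := fun n => (T.tm_sm ε q b h' hd n).differentiable (by simp) y
  rw [(T.kk_ev g' ε q b (fun t h => (h0 t h).1) y).fderiv_eq,
    (T.kk_ev g' ε q b (fun t h => (h0 t h).1) y).self_of_nhds,
    (T.kk_ev g' ε q b (fun t h => (h0 t h).2) y).self_of_nhds,
    (T.kk_ev g' ε q b (χ := η * lin ε q) (fun t h => by simp [(h0 t h).1]) y).self_of_nhds,
    fderiv_fun_add ((d _).fun_add (d _)) (d _), fderiv_fun_add (d _) (d _)]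
  simp only [ContinuousLinearMap.add_apply, T.tm_der ε q b h' hd]
  ring

omit hd in
theorem Lift.lo_eq (L : LBc M) (χ : C(ℝ, ℂ)) (s : X → Sp) :
    L.lo b (fun x => kap χ ε q (th (g x), g' x) • s x) =
      fun y => T.kk g' ε q b χ y • (T.tw L h' ε).lo b s y := by
  funext y
  simp only [LBc.lo, Lift.kk, Lift.tw, smul_smul, map_mul, Lift.W, conj_zpow]
  congr 1
  rw [mul_mul_mul_comm, ← zpow_add₀ (Circle.coe_ne_zero _), add_neg_cancel, zpow_zero]
  ring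

theorem Lift.cv_eq (L : LBc M) (h0 : ∀ t : ℝ, 1 ≤ |t| → η t = 0 ∧ η' t = 0) {s : X → Sp}
    (hs : (T.tw L h' ε).Sm s) (x : X) (c : Fin 4) :
    L.cv (fun x => kap η ε q (th (g x), g' x) • s x) x c =
      (kap η' ε q (th (g x), g' x) * (1 / (2 * Real.pi) * a x c)) • s x +
        kap η ε q (th (g x), g' x) • (T.tw L h' ε).cv s x c +
        (I * kap (η * lin ε q) ε q (th (g x), g' x) * a' x c) • s x := by
  have d := fderiv_fun_smul (𝕜 := ℝ) (x := M.cy x) ((T.kk_sm ε q (M.ch x) h' hd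
    fun t h => (h0 t h).1).differentiable (by simp) _) ((hs (M.ch x)).differentiable (by simp) _)
  have e1 := (T.tw L h' ε).γ_lo (M.ch x) s (M.cy x)
  have e2 := T.kk_der ε q (M.ch x) h' hd h0 (M.cy x) c
  have e3 := dp_fv a' (M.ch x) (M.cy x) c
  rw [M.ψ_cy] at e1 e3
  rw [LBc.cv, LBc.cv, T.lo_eq ε q _ h', cov, cov, d, ← e1]
  simp only [ContinuousLinearMap.add_apply, ContinuousLinearMap.smul_apply,
    ContinuousLinearMap.smulRight_apply, e2]
  generalize (T.tw L h' ε).lo (M.ch x) s = σ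
  simp only [Lift.kk, M.ψ_cy, Lift.tw, ContinuousLinearMap.add_apply,
    ContinuousLinearMap.smul_apply, dpL_apply, e3, smul_eq_mul]
  push_cast
  module

end Lt

open Lt in
theorem ltw : LTW_statement := by
  intro X _ _ _ _ _ Q L g g' a a' h h' ε
  obtain ⟨T⟩ := exists_Lift h
  refine ⟨T.tw L h' ε, T.tw_F L h' ε, fun s hs η η' hd h0 q => ⟨fun b => ?_, fun x => ?_⟩⟩
  · rw [L.bp_lo, T.lo_eq ε q b h']
    exact (T.kk_sm ε q b h' hd fun t h => (h0 t h).1).smul (hs b)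
  · simp only [Q.dirac_app, T.cv_eq ε q h' hd L h0 hs, map_add, map_smul, Finset.sum_add_distrib,
      sgm_apply, Finset.smul_sum, smul_smul, mul_assoc]

end Vale.Agent.P247W.Qu
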