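import Vale.Agent.P247W.Qu4
import Vale.Agent.P247W.QuL
import Vale.Agent.P247W.QuA

/-!
# P247W: quantisation
-/

namespace Vale.Agent.P247W

/-- **quantisation** -/
theorem quant : QUANT_statement := Qu.asmq Qu.abs_thm Qu.ltw

end Vale.Agent.P247W
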