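import Vale.Agent.P247W.HQ
import Vale.Agent.P247E.QEigA

/-!
# P247W: the index of the untwisted Dirac operator is divisible by four
-/

set_option linter.all false

open scoped ContDiff Topology ComplexConjugate Quaternion
open Set MeasureTheory Module

noncomputable section

namespace Vale.Agent.P247W

open Vale.Agent.P204.GX Vale.Agent.P204.T4 Vale.Agent.P247E Vale.Agent.P247E.Solv
open Vale.Agent.P247.H647 (Sp En sig jf jf0 jf1)

namespace Md4

theorem four_dvd {U : Type} [AddCommGroup U] [Module ℝ U] (I J : End ℝ U) (hI : I * I = -1)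
    (hJ : J * J = -1) (h : J * I = -(I * J)) : 4 ∣ finrank ℝ U := by
  let q : QuaternionAlgebra.Basis (End ℝ U) (-1 : ℝ) 0 (-1) :=
    ⟨I, J, I * J, by simp [hI], by simp [hJ], rfl, by simp [h]⟩
  let φ : ℍ[ℝ] →ₐ[ℝ] End ℝ U := q.liftHom
  letI : Module ℍ[ℝ] U := Module.compHom U φ.toRingHom
  have : IsScalarTower ℝ ℍ[ℝ] U := ⟨fun t z v => by
    change φ (t • z) v = t • φ z v
    rw [map_smul]; rfl⟩
  exact ⟨_, by rw [← finrank_mul_finrank ℝ ℍ[ℝ] U, Quaternion.finrank_eq_four]⟩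

theorem four_span {X : Type} (S : Set (X → Sp)) (h1 : ∀ s ∈ S, (fun x => Complex.I • s x) ∈ S)
    (h2 : ∀ s ∈ S, (fun x => jf (s x)) ∈ S) : 4 ∣ finrank ℝ (Submodule.span ℝ S) := by
  have k : ∀ T : Sp →L[ℝ] Sp, (∀ s ∈ S, (fun x => T (s x)) ∈ S) → ∀ s ∈ Submodule.span ℝ S,
      T.toLinearMap.compLeft X s ∈ Submodule.span ℝ S := fun T h s hs =>
    Submodule.map_span_le _ _ _ |>.2 (fun s hs => Submodule.subset_span (h s hs)) ⟨s, hs, rfl⟩
  refine four_dvd (LinearMap.restrict _ (k (reL (Complex.I • 1)) h1))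
    (LinearMap.restrict _ (k QEig.jfL h2)) ?_ ?_ ?_ <;> ext s x i
  · change (Complex.I • Complex.I • s.1 x) i = -s.1 x i
    simp [← mul_assoc]
  · change jf (jf (s.1 x)) i = -s.1 x i
    fin_cases i <;> simp [jf]
  · change jf (Complex.I • s.1 x) i = -(Complex.I • jf (s.1 x)) i
    fin_cases i <;> simp [jf]

theorem sgm_jf (t : V4) (v : Sp) : sgm t (jf v) = jf (sgm t v) := by
  ext i
  fin_cases i <;> simp [jf0, jf1, sgm_fin] <;> ring

theorem sig_jf (c : Fin 4) (v : Sp) : sig c (jf v) = jf (sig c v) := by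
  simpa [sgm_apply, Pi.single_apply] using sgm_jf (Pi.single c 1) v

variable {X : Type} [MetricSpace X] [CompactSpace X] [MeasurableSpace X] [BorelSpace X] {Q : QM X}

theorem inv_ker (T : Sp →L[ℝ] Sp) (a : ∀ v w, inner ℝ v (T w) = -inner ℝ (T v) w)
    (h1 : ∀ t v, sgm t (T v) = T (sgm t v)) (h2 : ∀ c v, sig c (T v) = T (sig c v)) :
    (∀ s ∈ (Q.dirac (.triv _)).kerS, (fun x => T (s x)) ∈ (Q.dirac (.triv _)).kerS) ∧
    ∀ s ∈ (Q.dirac (.triv _)).adj.kerS, (fun x => T (s x)) ∈ (Q.dirac (.triv _)).adj.kerS := by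
  have m : ∀ s ∈ Q.t0.Sm, (fun x => T (s x)) ∈ Q.t0.Sm := fun s hs =>
    Hx.triv_sm.2 fun b => T.contDiff.comp (Hx.triv_sm.1 hs b)
  have m' : ∀ s ∈ Q.t1.Sm, (fun x => T (s x)) ∈ Q.t1.Sm := fun s hs b => by
    refine (congrArg _ (funext fun y => ?_)).mpr (T.contDiff.comp (hs b))
    change conj (1 : ℂ) • sgm _ (T _) = T (conj (1 : ℂ) • sgm _ _)
    rw [map_one, one_smul, one_smul, h1]
  have c : ∀ s ∈ Q.t0.Sm, ∀ x, (Q.dirac (.triv _)).app (fun x => T (s x)) x =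
      T ((Q.dirac (.triv _)).app s x) := fun s hs x => by
    simp only [Q.dirac_app, Hx.triv_cv, df_clm T (Hx.triv_sm.1 hs), h2, map_sum]
  refine ⟨fun s hs => ⟨m s hs.1, fun x => by rw [c s hs.1, hs.2, map_zero]⟩, fun t ht =>
    ⟨m' t ht.1, congrFun (Bun.zero_of_int ((Q.dirac _).adj.app_mem (m' t ht.1)) ?_)⟩⟩
  have u := (Q.dirac _).adj.app_mem (m' t ht.1)
  have k1 := (Q.dirac _).isAdj_adj _ (m _ u) t ht.1
  simp only [ht.2, c _ u, inner_zero_right, integral_zero] at k1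
  rw [← (Q.dirac _).isAdj_adj _ u _ (m' t ht.1)]
  simp only [a, integral_neg, k1, neg_zero]

end Md4

variable {X : Type} [MetricSpace X] [CompactSpace X] [MeasurableSpace X] [BorelSpace X]

/-- the untwisted Dirac operator is quaternionic linear -/
theorem four_dvd_ind (Q : QM X) : 4 ∣ (Q.dirac (LBc.triv Q.toCM)).ind := by
  have dc := Q.dirac_cliff (LBc.triv Q.toCM)
  have da := (Q.dirac (LBc.triv Q.toCM)).isAdj_adj
  have h1 := Md4.inv_ker (Q := Q) (reL (Complex.I • 1)) (fun v w => by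
    simp [Hx.inner_vec, vec_eq, Fin.sum_univ_four]; ring) (fun t v => map_smul (sgm t) _ v)
    fun c v => map_smul (sig c) _ v
  have h2 := Md4.inv_ker (Q := Q) QEig.jfL (fun v w => by
    simp [Hx.inner_vec, vec_eq, Fin.sum_univ_four, QEig.jfL_apply, jf0, jf1]; ring)
    Md4.sgm_jf Md4.sig_jf
  rw [(fred X _ _ _ _ _ _ _ da dc.gar (CLA X _ _ _ _ _ rfl _ _ da dc).gar).2.2.2.2.2.2]
  exact dvd_sub (Int.natCast_dvd_natCast.2 (Md4.four_span _ h1.1 h2.1))
    (Int.natCast_dvd_natCast.2 (Md4.four_span _ h1.2 h2.2))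

variable [ConnectedSpace X] {Q : QM X} {H : Op Q.t1 Q.t0} {b : ℕ}

theorem finrank_coker (b3 : BP3 Q.toCM) (hH : Q.IsHod H) :
    finrank ℝ (Submodule.span ℝ H.adj.kerS) = 4 := by
  rw [show Submodule.span ℝ H.adj.kerS = LinearMap.range (Λ Q) from le_antisymm
    (Submodule.span_le.2 fun _ => coker b3 hH) (by
      rintro _ ⟨c, rfl⟩; exact Submodule.subset_span (Λ_mem hH c)),
    LinearMap.finrank_range_of_inj Λ_inj]
  simp

/-- the index of the untwisted Dirac operator if `b⁺ ≤ 3` -/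
theorem ind_triv_eq (B : H1Q Q.toCM b) (b3 : BP3 Q.toCM) :
    (Q.dirac (LBc.triv Q.toCM)).ind = 4 - b := by
  obtain ⟨B⟩ := exists_HQ B
  rw [ind_triv (Hx.isHod Q), ind_hod (Hx.isHod Q), B.finrank_ker (Hx.isHod Q),
    finrank_coker b3 (Hx.isHod Q)]
  simp

theorem mod4Q (B : H1Q Q.toCM b) (b3 : BP3 Q.toCM) : 4 ∣ b := by
  have := four_dvd_ind Q
  rw [ind_triv_eq B b3] at this
  omega

end Vale.Agent.P247W
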