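import Vale.Agent.P247W.Fam0

/-!
# P247W: the family of Dirac operators over the torus of flat connections
-/

set_option linter.all false

open scoped ContDiff Topology ENNReal ComplexConjugate
open Set MeasureTheory Filter

noncomputable section

namespace Vale.Agent.P247W

open Vale.Agent.P204.GX Vale.Agent.P204.T4 Vale.Agent.P247E Vale.Agent.P247A
open Vale.Agent.P247.H647 (Sp En sig cov)

variable {X : Type} [MetricSpace X]

/-- a lattice of gauge transformations, `d (gl l) = i (∑ l i a i) gl l` -/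
structure Gau (M : CM X) (b : ℕ) where
  a : Fin b → X → V4
  a_sm : ∀ i, M.Sm1 (a i)
  gl : (Fin b → ℤ) → X → ℂ
  gl_sm : ∀ l, SmF M (gl l)
  gl_nm : ∀ l x, ‖gl l x‖ = 1
  gl_zero : ∀ x, gl 0 x = 1
  gl_add : ∀ l l' x, gl (l + l') x = gl l x * gl l' x
  gl_df : ∀ l x c, df M (gl l) x c = Complex.I * ((∑ i, (l i : ℝ) * a i x c : ℝ) : ℂ) * gl l x

variable {b : ℕ}

/-- the form `∑ h i a i` -/
def Gau.form {M : CM X} (C : Gau M b) (h : Rv b) : X → V4 := ∑ i, h i • C.a i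

theorem Gau.form_apply {M : CM X} (C : Gau M b) (h : Rv b) (x : X) (c : Fin 4) :
    C.form h x c = ∑ i, h i * C.a i x c := by simp [Gau.form]

theorem Gau.form_sm {M : CM X} (C : Gau M b) (h : Rv b) : M.Sm1 (C.form h) := by
  refine Finset.sum_induction _ M.Sm1 (fun η ξ h1 h2 a => ?_) (fun a => ?_) fun i _ a => ?_
  · rw [M.cf1_add]; exact (h1 a).add (h2 a)
  · rw [M.cf1_zero]; exact contDiff_const
  · rw [M.cf1_smul]; exact (C.a_sm i a).const_smul (h i)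

theorem Gau.form_add {M : CM X} (C : Gau M b) (h h' : Rv b) :
    C.form (h + h') = C.form h + C.form h' := by
  simp [Gau.form, add_smul, Finset.sum_add_distrib]

theorem Gau.form_zero {M : CM X} (C : Gau M b) : C.form 0 = 0 := by simp [Gau.form]

theorem sh_eq (h : Rv b) (l : Fin b → ℤ) : sh h l = h + fun i => (l i : ℝ) := rfl

variable [CompactSpace X] [MeasurableSpace X] [BorelSpace X] {Q : QM X}

theorem bm_cl {η : X → V4} (h : Q.Sm1 η) : BM fun x => (-Complex.I) • sgm (η x) :=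
  (bm_Sm1 h).cont (F := fun t : V4 => (-Complex.I) • sgm t) (sgmL.continuous.const_smul (-Complex.I))

theorem D_csmul (L : LBc Q.toCM) (z : ℂ) (w : L.bp.H1) :
    (Q.dirac L).clm (z • w) = z • (Q.dirac L).clm w := by
  refine L.bp.H1_ind (p := fun w => (Q.dirac L).clm (z • w) = z • (Q.dirac L).clm w)
    (isClosed_eq (by fun_prop) (by fun_prop)) (fun w s hs h => Lp.ext ?_) w
  have hz : SmF Q.toCM fun _ => z := fun _ => contDiff_const
  filter_upwards [(rep_csmul h hs z).clm_ae (sm_mul hz hs) (Q.dirac L), h.clm_ae hs (Q.dirac L),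
    Lp.coeFn_smul z ((Q.dirac L).clm w)] with x h1 h2 h3
  rw [h1, h3, Pi.smul_apply, h2, Q.dirac_app, Q.dirac_app, Finset.smul_sum]
  refine Finset.sum_congr rfl fun c _ => ?_
  rw [cv_mul hz hs, ← map_smul]
  simp [df]

variable (L : LBc Q.toCM) (C : Gau Q.toCM b)

/-- the embedding in `L²` -/
def Jc : L.bp.H1 →L[ℂ] LL2 Q.toCM Sp := cx L.bp.J (J_csmul L)

/-- multiplication operators -/
def mC {B : X → En} (hB : BM B) : LL2 Q.toCM Sp →L[ℂ] LL2 Q.toCM Sp := cx (mR _ B) (mR_csmul hB)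

/-- the Dirac operator of the connection `A + form h` -/
def Dh (h : Rv b) : L.bp.H1 →L[ℂ] LL2 Q.toCM Sp :=
  cx (Q.dirac L).clm (D_csmul L) + ∑ i, (h i : ℂ) • (mC (bm_cl (C.a_sm i))).comp (Jc L)

theorem Dh_eq (h : Rv b) (v : L.bp.H1) : Dh L C h v = (Q.dirac L).clm v +
    mR _ (fun x => (-Complex.I) • sgm (C.form h x)) (L.bp.J v) := by
  rw [Dh, ContinuousLinearMap.add_apply, ContinuousLinearMap.sum_apply]
  congr 1
  refine Lp.ext ?_
  filter_upwards [Lp.coeFn_fun_finsetSum Finset.univ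
    fun i => ((h i : ℂ) • (mC (bm_cl (C.a_sm i))).comp (Jc L)) v, mR_ae (bm_cl (C.form_sm h)) (L.bp.J v),
    eventually_all.2 fun i => mR_ae (bm_cl (C.a_sm i)) (L.bp.J v), eventually_all.2 fun i =>
      Lp.coeFn_smul (h i : ℂ) (mR _ (fun x => (-Complex.I) • sgm (C.a i x)) (L.bp.J v))]
    with x h1 h2 h3 h4
  rw [h1, h2, Gau.form, Finset.sum_apply, ← sgmL_apply, map_sum, Finset.smul_sum,
    ContinuousLinearMap.sum_apply]
  refine Finset.sum_congr rfl fun i _ => (h4 i).trans ?_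
  rw [Pi.smul_apply, h3, Pi.smul_apply, map_smul, smul_comm (-Complex.I)]
  ext j
  simp

theorem Dh_ae (h : Rv b) (v : L.bp.H1) : (Dh L C h v : X → Sp) =ᵐ[Q.mu]
    fun x => ∑ c, sig c (L.nabA v (C.form h) x c) := by
  rw [Dh_eq]
  filter_upwards [Lp.coeFn_add ((Q.dirac L).clm v)
    (mR _ (fun x => (-Complex.I) • sgm (C.form h x)) (L.bp.J v)), Q.dirac_ae L v,
    mR_ae (bm_cl (C.form_sm h)) (L.bp.J v)] with x h1 h2 h3
  rw [h1, Pi.add_apply, h2, h3]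
  simp only [LBc.nabA, map_sub, Finset.sum_sub_distrib, ContinuousLinearMap.smul_apply, sgm_apply,
    map_smul, Finset.smul_sum, smul_smul, neg_mul, neg_smul, Finset.sum_neg_distrib]
  rw [sub_eq_add_neg]

theorem Dh_zero (v : L.bp.H1) : Dh L C 0 v = (Q.dirac L).clm v := by simp [Dh, cx]

theorem bm_gl (l : Fin b → ℤ) : BM fun x => C.gl l x • (1 : En) := bm_scal (C.gl_sm l).bm

/-- the action of the lattice on `L²` -/
def gL (l : Fin b → ℤ) : LL2 Q.toCM Sp →L[ℂ] LL2 Q.toCM Sp := mC (bm_gl C l)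

theorem gL_ae (l : Fin b → ℤ) (f : LL2 Q.toCM Sp) :
    (gL C l f : X → Sp) =ᵐ[Q.mu] fun x => C.gl l x • (f : X → Sp) x := mR_ae (bm_gl C l) f

theorem gL_zero (f : LL2 Q.toCM Sp) : gL C 0 f = f :=
  Lp.ext ((gL_ae C 0 f).mono fun x hx => by simp only [hx, C.gl_zero, one_smul])

theorem gL_add (l l' : Fin b → ℤ) (f : LL2 Q.toCM Sp) : gL C (l + l') f = gL C l (gL C l' f) := by
  refine Lp.ext ?_
  filter_upwards [gL_ae C (l + l') f, gL_ae C l (gL C l' f), gL_ae C l' f] with x h1 h2 h3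
  rw [h1, h2, h3, C.gl_add, mul_smul]

theorem gL_norm (l : Fin b → ℤ) (f : LL2 Q.toCM Sp) : ‖gL C l f‖ = ‖f‖ := by
  rw [Lp.norm_def, Lp.norm_def]
  refine congrArg _ (eLpNorm_congr_norm_ae ((gL_ae C l f).mono fun x hx => ?_))
  rw [hx, norm_smul, C.gl_nm, one_mul]

theorem exists_gV (l : Fin b → ℤ) : ∃ T : L.bp.H1 →L[ℝ] L.bp.H1, ∀ w,
    L.bp.J (T w) = gL C l (L.bp.J w) ∧
      Dh L C (fun i => l i) (T w) = gL C l ((Q.dirac L).clm w) := by
  obtain ⟨T, hT⟩ := exists_lift (Q.dirac_cliff L).gar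
    ((mR _ fun x => C.gl l x • (1 : En)).comp L.bp.J)
    ((mR _ fun x => C.gl l x • (1 : En)).comp (Q.dirac L).clm -
      (mR _ fun x => (-Complex.I) • sgm (C.form (fun i => l i) x)).comp
        ((mR _ fun x => C.gl l x • (1 : En)).comp L.bp.J)) fun w s hs r => by
    have m := sm_mul (C.gl_sm l) hs
    have r' := L.bp.rep_jw m
    have e1 : L.bp.J (L.bp.jw m) = gL C l (L.bp.J w) := Lp.ext (by
      filter_upwards [r'.J_ae, gL_ae C l (L.bp.J w), r.J_ae] with x h1 h2 h3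
      rw [h1, h2, h3])
    refine ⟨_, e1, eq_sub_of_add_eq ?_⟩
    show _ + mR _ _ (gL C l (L.bp.J w)) = gL C l ((Q.dirac L).clm w)
    rw [← e1, ← Dh_eq]
    refine Lp.ext ?_
    filter_upwards [Dh_ae L C (fun i => l i) (L.bp.jw m), gL_ae C l ((Q.dirac L).clm w),
      r.clm_ae hs (Q.dirac L), eventually_all.2 (L.nabH_rep m r'), r'.J_ae] with x h1 h2 h3 h4 h5
    rw [h1, h2, h3, Q.dirac_app, Finset.smul_sum]
    refine Finset.sum_congr rfl fun c _ => ?_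
    rw [LBc.nabA, h4, h5, cv_mul (C.gl_sm l) hs, C.gl_df, C.form_apply, smul_smul, ← map_smul,
      add_sub_cancel_left]
  refine ⟨T, fun w => ⟨(hT w).1, ?_⟩⟩
  rw [Dh_eq, (hT w).1, (hT w).2]
  exact sub_add_cancel _ _

theorem J_inj : Function.Injective L.bp.J := L.bp.J_inj

/-- the action of the lattice on `H¹` -/
def gV (l : Fin b → ℤ) : L.bp.H1 →L[ℂ] L.bp.H1 :=
  cx (exists_gV L C l).choose fun z v => J_inj L (by
    rw [J_csmul, ((exists_gV L C l).choose_spec _).1, ((exists_gV L C l).choose_spec _).1,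
      J_csmul, map_smul])

theorem J_gV (l : Fin b → ℤ) (v : L.bp.H1) : L.bp.J (gV L C l v) = gL C l (L.bp.J v) :=
  ((exists_gV L C l).choose_spec v).1

theorem D_gV (l : Fin b → ℤ) (h : Rv b) (v : L.bp.H1) :
    Dh L C (sh h l) (gV L C l v) = gL C l (Dh L C h v) := by
  have k : Dh L C (fun i => l i) (gV L C l v) = gL C l ((Q.dirac L).clm v) :=
    ((exists_gV L C l).choose_spec v).2
  rw [Dh_eq] at k
  rw [Dh_eq, Dh_eq, map_add, ← k, add_assoc, J_gV]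
  congr 1
  refine Lp.ext ?_
  filter_upwards [mR_ae (bm_cl (C.form_sm (sh h l))) (gL C l (L.bp.J v)),
    mR_ae (bm_cl (C.form_sm fun i => l i)) (gL C l (L.bp.J v)),
    mR_ae (bm_cl (C.form_sm h)) (L.bp.J v), gL_ae C l (L.bp.J v),
    gL_ae C l (mR _ (fun x => (-Complex.I) • sgm (C.form h x)) (L.bp.J v)),
    Lp.coeFn_add (mR _ (fun x => (-Complex.I) • sgm (C.form (fun i => l i) x)) (gL C l (L.bp.J v)))
      (gL C l (mR _ (fun x => (-Complex.I) • sgm (C.form h x)) (L.bp.J v)))] with x h1 h2 h3 h4 h5 h6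
  rw [h1, h6, Pi.add_apply, h2, h5, h3, h4, sh_eq, C.form_add, Pi.add_apply, sgm_add, smul_add,
    ContinuousLinearMap.add_apply, map_smul, map_smul, add_comm]

theorem Dh_fr (h : Rv b) : ∃ P : Op L.bp (Q.bm L), P.Cliff ∧ P.ind = (Q.dirac L).ind ∧
    (∀ s x, P.app s x = (Q.dirac L).app s x + (-Complex.I) • sgm (C.form h x) (s x)) ∧
    ∀ v, P.clm v = Dh L C h v := by
  obtain ⟨P, p1, p2, p3⟩ := (ZER X _ _ _ _ _).1 (Q.dirac L) _ (Q.hom_sgm L (C.form_sm h))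
  exact ⟨P, fun a => p1 ▸ Q.dirac_cliff L a, (ZER X _ _ _ _ _).2 rfl _ P (Q.dirac_cliff L) p1, p2,
    fun v => by rw [p3, Dh_eq]; rfl⟩

theorem Dh_index (h : Rv b) :
    2 * (Dh L C h : L.bp.H1 →ₗ[ℂ] LL2 Q.toCM Sp).index = (Q.dirac L).ind := by
  obtain ⟨P, -, p2, -, p3⟩ := Dh_fr L C h
  rw [cx_index, ← p2, Op.ind]
  congr 1
  exact LinearMap.ext fun v => (p3 v).symm

/-- the family -/
def fam : Fam b L.bp.H1 (LL2 Q.toCM Sp) (LL2 Q.toCM Sp) where
  D := Dh L C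
  smooth := contDiff_aff _ _
  J := Jc L
  J_inj := J_inj L
  J_cpt := rel X Q.toCM Sp Sp L.bp L.bp
  gV := gV L C
  gH := gL C
  gW := gL C
  gV_zero v := J_inj L (by rw [J_gV, gL_zero])
  gH_zero := gL_zero C
  gW_zero := gL_zero C
  gV_add l l' v := J_inj L (by rw [J_gV, J_gV, J_gV, gL_add])
  gH_add := gL_add C
  gW_add := gL_add C
  gH_norm := gL_norm C
  gW_norm := gL_norm C
  J_g := J_gV L C
  D_g := D_gV L C
  est h := by
    obtain ⟨P, p1, -, -, p3⟩ := Dh_fr L C h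
    obtain ⟨c, -, hc⟩ := gar X Q.toCM Sp Sp L.bp (Q.bm L) P p1.gar
    exact ⟨c, fun v => by rw [← p3]; exact hc v⟩
  cok h := by
    obtain ⟨P, p1, -, -, p3⟩ := Dh_fr L C h
    refine cx_cok _ ?_
    rw [show (Dh L C h : L.bp.H1 →ₗ[ℂ] LL2 Q.toCM Sp).restrictScalars ℝ = P.clm from
      LinearMap.ext fun v => (p3 v).symm]
    exact (p1.fr rfl).cok

/-! ## The invariant norm -/

/-- the invariant norm -/
def NN (q : L.bp.H1 × Rv b) : ℝ := √(‖Dh L C q.2 q.1‖ ^ 2 + ‖L.bp.J q.1‖ ^ 2)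

theorem Dh_cont : Continuous fun q : L.bp.H1 × Rv b => Dh L C q.2 q.1 :=
  ((fam L C).smooth.continuous.comp continuous_snd).clm_apply continuous_fst

theorem NN_cont : Continuous (NN L C) :=
  (((Dh_cont L C).norm.pow 2).add ((L.bp.J.continuous.comp continuous_fst).norm.pow 2)).sqrt

theorem NN_nonneg (q : L.bp.H1 × Rv b) : 0 ≤ NN L C q := Real.sqrt_nonneg _

theorem J_le_NN (q : L.bp.H1 × Rv b) : ‖L.bp.J q.1‖ ≤ NN L C q :=
  Real.le_sqrt_of_sq_le (le_add_of_nonneg_left (sq_nonneg _))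

theorem D_le_NN (q : L.bp.H1 × Rv b) : ‖Dh L C q.2 q.1‖ ≤ NN L C q :=
  Real.le_sqrt_of_sq_le (le_add_of_nonneg_right (sq_nonneg _))

theorem NN_pos {v : L.bp.H1} (hv : v ≠ 0) (h : Rv b) : 0 < NN L C (v, h) :=
  lt_of_lt_of_le (norm_pos_iff.2 fun k => hv (J_inj L (k.trans (map_zero _).symm)))
    (J_le_NN L C (v, h))

theorem NN_smul (z : ℂ) (v : L.bp.H1) (h : Rv b) : NN L C (z • v, h) = ‖z‖ * NN L C (v, h) := by
  simp only [NN, map_smul, J_csmul, norm_smul, mul_pow, ← mul_add]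
  rw [Real.sqrt_mul (sq_nonneg _), Real.sqrt_sq (norm_nonneg _)]

theorem NN_inv (l : Fin b → ℤ) (v : L.bp.H1) (h : Rv b) :
    NN L C (gV L C l v, sh h l) = NN L C (v, h) := by
  simp only [NN, D_gV, J_gV, gL_norm]

theorem Dh_sub : ∃ S : ℝ, 0 ≤ S ∧ ∀ (h : Rv b) (v : L.bp.H1),
    ‖Dh L C h v - (Q.dirac L).clm v‖ ≤ S * ‖h‖ * ‖L.bp.J v‖ := by
  refine ⟨∑ i, ‖mC (Q := Q) (bm_cl (C.a_sm i))‖, Finset.sum_nonneg fun _ _ => norm_nonneg _,
    fun h v => ?_⟩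
  rw [Dh, ContinuousLinearMap.add_apply, ContinuousLinearMap.sum_apply, Finset.sum_mul,
    Finset.sum_mul]
  erw [add_sub_cancel_left]
  refine (norm_sum_le _ _).trans (Finset.sum_le_sum fun i _ => ?_)
  rw [ContinuousLinearMap.smul_apply, norm_smul, Complex.norm_real, mul_comm _ ‖h‖, mul_assoc]
  exact mul_le_mul (norm_le_pi_norm h i) ((mC (bm_cl (C.a_sm i))).le_opNorm (L.bp.J v))
    (norm_nonneg _) (norm_nonneg _)

/-- the invariant norm is equivalent to the norm, uniformly for bounded `h` -/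
theorem NN_equiv (R : ℝ) : ∃ c : ℝ, 0 < c ∧ ∀ v h, ‖h‖ ≤ R →
    ‖v‖ ≤ c * NN L C (v, h) ∧ NN L C (v, h) ≤ c * ‖v‖ := by
  obtain ⟨c, hc0, hc⟩ := gar X Q.toCM Sp Sp L.bp (Q.bm L) _ (Q.dirac_cliff L).gar
  obtain ⟨S, s0, k⟩ := Dh_sub L C
  obtain ⟨j, j0, hj⟩ : ∃ j : ℝ, 0 ≤ j ∧ ∀ v, ‖L.bp.J v‖ ≤ j * ‖v‖ :=
    ⟨_, L.bp.J.opNorm_nonneg, L.bp.J.le_opNorm⟩
  obtain ⟨d, d0, hd⟩ : ∃ d : ℝ, 0 ≤ d ∧ ∀ v, ‖(Q.dirac L).clm v‖ ≤ d * ‖v‖ :=
    ⟨_, (Q.dirac L).clm.opNorm_nonneg, (Q.dirac L).clm.le_opNorm⟩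
  refine ⟨c * (2 + S * |R|) + (d + (S * |R| + 1) * j), by positivity, fun v h hh => ?_⟩
  have k1 : ‖Dh L C h v - (Q.dirac L).clm v‖ ≤ S * |R| * ‖L.bp.J v‖ := (k h v).trans
    (mul_le_mul_of_nonneg_right (mul_le_mul_of_nonneg_left (hh.trans (le_abs_self _)) s0)
      (norm_nonneg _))
  have k2 := J_le_NN L C (v, h)
  have k3 := D_le_NN L C (v, h)
  have k4 := abs_le.1 (abs_norm_sub_norm_le (Dh L C h v) ((Q.dirac L).clm v))
  have k5 := hj v
  have k6 := hd v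
  have k7 : NN L C (v, h) ≤ ‖Dh L C h v‖ + ‖L.bp.J v‖ := Real.sqrt_le_iff.2
    ⟨by positivity, by nlinarith [norm_nonneg (Dh L C h v), norm_nonneg (L.bp.J v)]⟩
  have k8 : 0 ≤ S * |R| := by positivity
  have k9 := NN_nonneg L C (v, h)
  have k10 := mul_le_mul_of_nonneg_left k2 k8
  have k11 := mul_le_mul_of_nonneg_left k5 (by positivity : 0 ≤ S * |R| + 1)
  dsimp only at k2 k3 k10
  refine ⟨(hc v).trans ((mul_le_mul_of_nonneg_left (by linarith : _ ≤ (2 + S * |R|) *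
    NN L C (v, h)) hc0.le).trans ?_), ?_⟩
  · rw [← mul_assoc]
    exact mul_le_mul_of_nonneg_right (le_add_of_nonneg_right (by positivity)) k9
  · have : 0 ≤ c * (2 + S * |R|) * ‖v‖ := by positivity
    linarith

end Vale.Agent.P247W
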