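import Vale.Agent.P247W.Sta
import Vale.Agent.P247W.Fam
import Vale.Agent.P247W.Mod4
import Vale.Agent.P247I.Ind

/-!
# P247W: rows (part 2) and the assembly on `QM`
-/

set_option linter.all false

open scoped ContDiff Topology ENNReal ComplexConjugate
open Set MeasureTheory Filter

noncomputable section

namespace Vale.Agent.P247W

open Vale.Agent.P204.GX Vale.Agent.P204.T4 Vale.Agent.P247E Vale.Agent.P247A
open Vale.Agent.P247.H647 (Sp En)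

/-- `QUANT`: quantisation -/
def QUANT_statement : Prop := ForAllQ fun _ _ _ _ _ _ Q L => ∀ (C : Gau Q.toCM 2)
  (A : Rv 2 → LL2 Q.toCM Sp →L[ℂ] LL2 Q.toCM Sp) (c : ℝ), Continuous A → 0 < c →
  (∀ l h y, A (sh h l) (gL C l y) = gL C l (A h y)) →
  (∀ h v, c * ‖Jc L v‖ ≤ ‖Dh L C h v + A h (Jc L v)‖) → (Q.dirac L).ind = 0 →
  Q.pr L.F (fun x => wd (C.a 0 x) (C.a 1 x)) = 0

/-- existence for index zero -/
def EX2_statement : Prop := ForAllQ fun _ _ _ _ _ _ Q L =>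
  ∀ (H : Op Q.t1 Q.t0) G B Z, Q.IsHod H → RG Q H G → ZFamD Q B Z → ∀ C : Gau Q.toCM 2,
    (Q.dirac L).ind = 0 → Q.pr L.F (fun x => wd (C.a 0 x) (C.a 1 x)) ≠ 0 → EXD Q L H Z

/-- `EXD2` -/
def EXD2_statement : Prop := FBB_statement → QUANT_statement → EX2_statement

/-- `b⁺ ≤ 3` on `QM` -/
def BP3Q_statement : Prop := ForAllQ fun _ _ _ _ _ _ Q _ => ∀ b, H1Q Q.toCM b → BP3 Q.toCM

/-- `BPQ` -/
def BPQ_statement : Prop := FBA_statement → BP3Q_statement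

/-- the Higgs sequence on `QM` -/
def SWQ_statement : Prop := ForAllQ fun X _ _ _ _ _ Q L => BP3 Q.toCM → ∀ b, H1Q Q.toCM b →
  ar Q L ≠ 0 → (4 * Real.pi ^ 2 * ((b : ℝ) - 2) ≤ Q.pr L.F L.F ∨
    (Q.pr L.F L.F = 4 * Real.pi ^ 2 * ((b : ℝ) - 4) ∧ ∃ g g' : X → ℂ, SmF Q.toCM g ∧
      SmF Q.toCM g' ∧ (∀ x, ‖g x‖ = 1) ∧ (∀ x, ‖g' x‖ = 1) ∧
      Q.pr L.F (fun x => wd (darg Q.toCM g x) (darg Q.toCM g' x)) ≠ 0)) →
  Nonempty (HiggsQ Q L (ar Q L))

/-- the lattice generated by circle valued functions -/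
def gauOf {X : Type} [MetricSpace X] {M : CM X} {b : ℕ} (g : Fin b → X → ℂ)
    (h1 : ∀ i, SmF M (g i)) (h2 : ∀ i x, ‖g i x‖ = 1) : Gau M b where
  a i := darg M (g i)
  a_sm i := (lg_darg (h1 i) (h2 i)).closed.1
  gl l x := ∏ i, g i x ^ l i
  gl_sm l := (lg_prod _ fun i => (lg_darg (h1 i) (h2 i)).zpow (l i)).sm
  gl_nm l := (lg_prod _ fun i => (lg_darg (h1 i) (h2 i)).zpow (l i)).nm
  gl_zero x := by simp
  gl_add l l' x := by
    rw [← Finset.prod_mul_distrib]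
    exact Finset.prod_congr rfl fun i _ => zpow_add₀
      (norm_ne_zero_iff.1 (by rw [h2]; exact one_ne_zero)) _ _
  gl_df l x c := by
    rw [(lg_prod _ fun i => (lg_darg (h1 i) (h2 i)).zpow (l i)).der]
    simp

theorem swq_of (h1 : EIGD_statement) (h2 : GRN_statement) (h3 : EXD1_statement)
    (h4 : EX2_statement) (h5 : HIG_statement) : SWQ_statement := by
  intro X _ _ _ _ _ Q L b3 b B ha hc
  obtain ⟨B', Z, hZ⟩ := h1 X Q L
  have hH := Hx.isHod Q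
  obtain ⟨G, hG⟩ := h2 X Q L b3 _ hH
  have hi : ((Q.dirac L).ind : ℝ) = _ := P247I.ind X Q L
  rw [ind_triv_eq B b3] at hi
  have hp : 0 < 4 * Real.pi ^ 2 := by positivity
  refine h5 X Q L _ B' Z hH hZ ha ?_
  rcases hc with hc | ⟨hc, g, g', s1, s2, n1, n2, hg⟩
  · refine h3 X Q L _ G B' Z hH hG hZ ?_
    have k : (b : ℝ) - 2 ≤ Q.pr L.F L.F / (4 * Real.pi ^ 2) := by
      rw [le_div_iff₀ hp]; linarith
    have : (1 : ℝ) ≤ (Q.dirac L).ind := by rw [hi]; push_cast; linarith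
    exact_mod_cast this
  · refine h4 X Q L _ G B' Z hH hG hZ (gauOf ![g, g'] (Fin.forall_fin_two.2 ⟨s1, s2⟩)
      (Fin.forall_fin_two.2 ⟨n1, n2⟩)) ?_ hg
    rw [hc, mul_div_cancel_left₀ _ hp.ne'] at hi
    have : ((Q.dirac L).ind : ℝ) = 0 := by rw [hi]; push_cast; ring
    exact_mod_cast this

end Vale.Agent.P247W
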