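import Vale.Agent.P247E.R.Apr
import Vale.Agent.P247.H647.Sta

/-!
# P247W: the dual Seiberg-Witten system, definitions and rows (part 1)

Each `XX_statement : Prop` is one row; prove `theorem xx : XX_statement` in your own file (take
the statements it depends on as hypotheses, or import their proofs when they are landed).
-/

set_option linter.all false

open scoped ContDiff Topology ENNReal ComplexConjugate
open Set MeasureTheory Filter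

noncomputable section

namespace Vale.Agent.P247W

open Vale.Agent.P204.GX Vale.Agent.P204.T4 Vale.Agent.P247E
open Vale.Agent.P247E.R (spin zf ps)
open Vale.Agent.P247.H647 (Sp En sig pau hat len jz P3 nz PosA)

section defs

variable {X : Type} [MetricSpace X]

/-- the dual direction `T⁻¹ u` -/
def dv (Q : QM X) (u : Fin 3 → ℝ) (x : X) : Fin 3 → ℝ := (Q.T x)⁻¹.mulVec u

/-- eigenspinors for the dual direction of the unit vector `u`, with bounds `B` -/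
structure EigD (Q : QM X) (B : ℝ) (Z : X → En) (u : Fin 3 → ℝ) where
  fp : X → Sp
  fm : X → Sp
  gp : X → Sp
  gm : X → Sp
  h : Fin 3 → X → ℂ
  m : Fin 3 → X → ℂ
  fp_sm : SmF Q.toCM fp
  fm_sm : SmF Q.toCM fm
  gp_sm : SmF Q.toCM gp
  gm_sm : SmF Q.toCM gm
  h_sm : ∀ j, SmF Q.toCM (h j)
  m_sm : ∀ j, SmF Q.toCM (m j)
  lam_ge : ∀ x, B⁻¹ ≤ len (dv Q u x)
  lam_le : ∀ x, len (dv Q u x) ≤ B
  fp_norm : ∀ x, ‖fp x‖ ^ 2 = 2 * len (dv Q u x)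
  fm_norm : ∀ x, ‖fm x‖ ^ 2 = 2 * len (dv Q u x)
  fp_eig : ∀ x, P3 (dv Q u x) (fp x) = (len (dv Q u x) : ℂ) • fp x
  fm_eig : ∀ x, P3 (dv Q u x) (fm x) = -(len (dv Q u x) : ℂ) • fm x
  gp_eq : ∀ x, gp x = (((2 * len (dv Q u x))⁻¹ : ℝ) : ℂ) • fp x
  gm_eq : ∀ x, gm x = (((2 * len (dv Q u x))⁻¹ : ℝ) : ℂ) • fm x
  dec : ∀ x (ψ : Sp), ψ = inner ℂ (gp x) ψ • fp x + inner ℂ (gm x) ψ • fm x
  ddec : ∀ x (ψ : Sp) c, inner ℂ (df Q.toCM gp x c) ψ • fp x + inner ℂ (gp x) ψ • df Q.toCM fp x c +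
    (inner ℂ (df Q.toCM gm x c) ψ • fm x + inner ℂ (gm x) ψ • df Q.toCM fm x c) = 0
  dir_fp : ∀ x, ∑ c, sig c (df Q.toCM fp x c) + Z x (fp x) = 0
  Z_fm : ∀ x, Z x (fm x) = 0
  dfm_le : ∀ x c, ‖df Q.toCM fm x c‖ ≤ B
  h_eq : ∀ x k, ∑ j, h j x * (Q.T x j k : ℂ) = inner ℂ (fp x) (pau k (fm x))
  dh_le : ∀ j x c, ‖df Q.toCM (h j) x c‖ ≤ B
  m_eq : ∀ x k, ∑ j, m j x * (Q.T x j k : ℂ) = (dv Q u x k : ℂ)
  dm_le : ∀ j x c, ‖df Q.toCM (m j) x c‖ ≤ B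

/-- the family of zero order terms -/
structure ZFamD (Q : QM X) (B : ℝ) (Z : (Fin 3 → ℝ) → X → En) : Prop where
  pos : 0 < B
  hom : ∀ c (L : LBc Q.toCM), L.bp.Hom (Q.bm L) fun x => reL (Z c x)
  bd : ∀ c x, ‖Z c x‖ ≤ B
  cont : ∀ c₀ (ε : ℝ), 0 < ε → ∀ᶠ c in 𝓝 c₀, ∀ x, ‖Z c x - Z c₀ x‖ ≤ ε
  eig : ∀ c, 1 ≤ len c → Nonempty (EigD Q B (Z c) ((len c)⁻¹ • c))

/-- the curvature of `A + a` -/
def cur {M : CM X} (L : LBc M) (a : X → V4) (x : X) : L2 := L.F x + M.dX a x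

/-- the gauge invariant Jacobian -/
def jacQ {M : CM X} (L : LBc M) (a : X → V4) (s : X → ℂ) (x : X) : L2 :=
  (1 - ‖s x‖ ^ 2) • cur L a x + ofEnt (jz (L.cva a s x))

/-- the defect of `ζ` from being complex linear for the direction `n` -/
def dfct (n : Fin 3 → ℝ) (ζ : Fin 4 → ℂ) : ℝ := len n * nz ζ ^ 2 - ∑ k, n k * hat (jz ζ) k

/-- sequences of smooth connections and sections -/
structure Base {M : CM X} (L : LBc M) where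
  r : ℕ → ℝ
  a : ℕ → X → V4
  s : ℕ → X → ℂ
  r_pos : ∀ n, 0 < r n
  r_lim : Tendsto r atTop atTop
  a_sm : ∀ n, M.Sm1 (a n)
  s_sm : ∀ n, L.Sm (s n)

variable [MeasurableSpace X] [BorelSpace X]

/-- the periods of the curvature -/
def ar (Q : QM X) (L : LBc Q.toCM) : Fin 3 → ℝ := fun j => Q.pr L.F (Q.w j)

/-- weak solutions of the dual system with the quadratic map `q` (`qT R` or `spin`) -/
structure DSol (Q : QM X) (L : LBc Q.toCM) (H : Op Q.t1 Q.t0) (Z : (Fin 3 → ℝ) → X → En)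
    (q : Sp → Fin 3 → ℝ) (w : L.bp.H1) (φ : Q.t1.H1) (c : Fin 3 → ℝ) : Prop where
  dirac : ∀ᵐ x ∂Q.mu, ∑ d, sig d (L.nabA w (Q.av φ) x d) + Z c x (ps w x) = 0
  curv : ∀ᵐ x ∂Q.mu, ∀ k, Q.Fa L H φ x k = dv Q c x k - (1 / 2) * q (ps w x) k

/-- the connection is controlled by the self-dual part of its curvature -/
def Tame (Q : QM X) (L : LBc Q.toCM) (H : Op Q.t1 Q.t0) (C : ℝ) (φ : Q.t1.H1) : Prop :=
  ‖φ‖ ^ 2 ≤ C * (1 + ∫ x, ∑ k, Q.Fa L H φ x k ^ 2 ∂Q.mu)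

/-- existence of solutions of the truncated system, of every size -/
def EXD (Q : QM X) (L : LBc Q.toCM) (H : Op Q.t1 Q.t0) (Z : (Fin 3 → ℝ) → X → En) : Prop :=
  ∃ C : ℝ, ∀ ρ R : ℝ, 0 < ρ → 0 < R → ∃ w φ c, DSol Q L H Z (qT R) w φ c ∧ Tame Q L H C φ ∧
    ρ ≤ ‖w‖ ∧ ‖w‖ ≤ C * ρ

/-- existence of solutions with large perturbation -/
def BIG (Q : QM X) (L : LBc Q.toCM) (H : Op Q.t1 Q.t0) (Z : (Fin 3 → ℝ) → X → En) : Prop :=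
  ∀ r₀ : ℝ, ∃ w φ c, DSol Q L H Z spin w φ c ∧ r₀ ≤ len c

/-- the estimates for `α = ⟨g, ψ⟩` -/
structure Est (Q : QM X) (L : LBc Q.toCM) (H : Op Q.t1 Q.t0) (C r : ℝ) (u : Fin 3 → ℝ)
    (w : L.bp.H1) (φ : Q.t1.H1) (g : X → Sp) : Prop where
  sm : SmF Q.toCM g
  a : ∫ x, nz (zf w φ g x) ^ 2 ∂Q.mu ≤ C * r
  b : ∫ x, (r - ‖inner ℂ (g x) (ps w x)‖ ^ 2) ^ 2 ∂Q.mu ≤ C * r
  c : ∫ x, dfct (dv Q u x) (zf w φ g x) ∂Q.mu ≤ C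
  d : ∫ x, ∑ k, (Q.Fa L H φ x k - (r - ‖inner ℂ (g x) (ps w x)‖ ^ 2) * dv Q u x k) ^ 2 ∂Q.mu ≤ C

/-- bounded energy -/
def Base.En {M : CM X} {L : LBc M} (b : Base L) : Prop := ∃ C : ℝ, ∀ n,
  ∫ x, (nz (L.cva (b.a n) (b.s n) x) ^ 2 + b.r n * (1 - ‖b.s n x‖ ^ 2) ^ 2 +
    (1 / b.r n) * ∑ i, cur L (b.a n) x i ^ 2) ∂M.mu ≤ C

/-- smooth approximate solutions -/
structure SeqQ (Q : QM X) (L : LBc Q.toCM) (u : Fin 3 → ℝ) extends Base L where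
  e1 : ∃ C : ℝ, ∀ n, ∫ x, nz (L.cva (a n) (s n) x) ^ 2 ∂Q.mu ≤ C ∧
    r n * ∫ x, (1 - ‖s n x‖ ^ 2) ^ 2 ∂Q.mu ≤ C
  e2 : ∀ ε > 0, ∀ᶠ n in atTop, ∫ x, dfct (dv Q u x) (L.cva (a n) (s n) x) ∂Q.mu ≤ ε
  e3 : Tendsto (fun n => (1 / r n) * ∫ x, ∑ k, (hat (ent (cur L (a n) x)) k -
    r n * (1 - ‖s n x‖ ^ 2) * dv Q u x k) ^ 2 ∂Q.mu) atTop (𝓝 0)

/-- the output of the Seiberg-Witten part -/
structure HiggsQ (Q : QM X) (L : LBc Q.toCM) (u : Fin 3 → ℝ) extends Base L where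
  energy : toBase.En
  pos : ∀ φ : X → L2, BM φ → (∀ k, Continuous fun x => hat (ent (φ x)) k) →
    (∀ x, PosA (dv Q u x) (ent (φ x))) → ∀ ε > 0, ∀ᶠ n in atTop,
      -ε ≤ Q.pr (jacQ L (a n) (s n)) φ

/-- a right inverse of the Hodge operator -/
def RG (Q : QM X) (H : Op Q.t1 Q.t0) (G : LL2 Q.toCM Sp →L[ℝ] Q.t1.H1) : Prop :=
  ∀ g : LL2 Q.toCM Sp, ∫ x, vec ((g : X → Sp) x) 0 ∂Q.mu = 0 →
    (∀ j, ∫ x, ∑ k, Q.T x j k * vec ((g : X → Sp) x) k.succ ∂Q.mu = 0) → H.clm (G g) = g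

end defs

/-- `EIGD` -/
def EIGD_statement : Prop := ForAllQ fun _ _ _ _ _ _ Q _ => ∃ B Z, ZFamD Q B Z

/-- `GRN` -/
def GRN_statement : Prop := ForAllQ fun _ _ _ _ _ _ Q _ => BP3 Q.toCM →
  ∀ H : Op Q.t1 Q.t0, Q.IsHod H → ∃ G, RG Q H G

/-- `EXD1`: positive index -/
def EXD1_statement : Prop := ForAllQ fun _ _ _ _ _ _ Q L =>
  ∀ (H : Op Q.t1 Q.t0) G B Z, Q.IsHod H → RG Q H G → ZFamD Q B Z → 1 ≤ (Q.dirac L).ind →
    EXD Q L H Z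

/-- `APRD`: a priori estimates for the truncated system -/
def APRD_statement : Prop := ForAllQ fun _ _ _ _ _ _ Q L =>
  ∀ (H : Op Q.t1 Q.t0) B Z, Q.IsHod H → ZFamD Q B Z → ∀ C : ℝ,
    (∀ M : ℝ, ∃ M' : ℝ, ∀ R w φ c, 0 < R → DSol Q L H Z (qT R) w φ c → Tame Q L H C φ →
      ‖w‖ ≤ M → ‖φ‖ ≤ M' ∧ len c ≤ M') ∧
    ∀ r₀ : ℝ, ∃ ρ₀ R₀ : ℝ, ∀ R w φ c, 0 < R → R₀ ≤ R → DSol Q L H Z (qT R) w φ c →
      Tame Q L H C φ → len c ≤ r₀ → ‖w‖ ≤ ρ₀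

/-- `UNTR`: removal of the truncation -/
def UNTR_statement : Prop := ForAllQ fun _ _ _ _ _ _ Q L =>
  ∀ (H : Op Q.t1 Q.t0) B Z, Q.IsHod H → ZFamD Q B Z → ∀ M r₀ : ℝ,
    (∀ n : ℕ, ∃ R w φ c, (n : ℝ) < R ∧ DSol Q L H Z (qT R) w φ c ∧ ‖w‖ ≤ M ∧ ‖φ‖ ≤ M ∧
      r₀ ≤ len c ∧ len c ≤ M) →
    ∃ w φ c, DSol Q L H Z spin w φ c ∧ r₀ ≤ len c

/-- `EST`: the main estimate -/
def EST_statement : Prop := ForAllQ fun _ _ _ _ _ _ Q L =>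
  ∀ (H : Op Q.t1 Q.t0) B Z, Q.IsHod H → ZFamD Q B Z → ∃ r₀ C : ℝ, ∀ w φ c,
    DSol Q L H Z spin w φ c → r₀ ≤ len c → ∃ g, Est Q L H C (len c) ((len c)⁻¹ • c) w φ g

/-- `SEQ`: smoothing, rescaling, and a subsequence -/
def SEQ_statement : Prop := ForAllQ fun _ _ _ _ _ _ Q L =>
  ∀ H : Op Q.t1 Q.t0, Q.IsHod H → ∀ C : ℝ,
    (∀ n : ℕ, ∃ r u w φ g, (n : ℝ) < r ∧ len u = 1 ∧ Est Q L H C r u w φ g) →
    ∃ u, len u = 1 ∧ Nonempty (SeqQ Q L u)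

/-- `FF`: no concentration of `F ∧ F / r` -/
def FF_statement : Prop := ForAllQ fun X _ _ _ _ _ Q L => ∀ b : Base L, b.En →
  ∀ χ : X → ℝ, Continuous χ → Tendsto (fun n => (1 / b.r n) *
    ∫ x, χ x * P204.T4.Q (cur L (b.a n) x) (cur L (b.a n) x) ∂Q.mu) atTop (𝓝 0)

/-- `POSQ`: energy and positivity -/
def POSQ_statement : Prop := FF_statement → ForAllQ fun _ _ _ _ _ _ Q L =>
  ∀ u, len u = 1 → SeqQ Q L u → Nonempty (HiggsQ Q L u)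

/-- `DIRQ`: the direction -/
def DIRQ_statement : Prop := ForAllQ fun _ _ _ _ _ _ Q L =>
  ∀ u, len u = 1 → ar Q L ≠ 0 → HiggsQ Q L u → Nonempty (HiggsQ Q L (ar Q L))

/-- from existence to the Higgs sequence -/
def HIG_statement : Prop := ForAllQ fun _ _ _ _ _ _ Q L =>
  ∀ (H : Op Q.t1 Q.t0) B Z, Q.IsHod H → ZFamD Q B Z → ar Q L ≠ 0 → EXD Q L H Z →
    Nonempty (HiggsQ Q L (ar Q L))

theorem big_of (h1 : APRD_statement) (h2 : UNTR_statement) : ForAllQ fun _ _ _ _ _ _ Q L =>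
    ∀ (H : Op Q.t1 Q.t0) B Z, Q.IsHod H → ZFamD Q B Z → EXD Q L H Z → BIG Q L H Z := by
  intro X _ _ _ _ _ Q L H B Z hH hZ ⟨C, hC⟩ r₀
  obtain ⟨a1, a2⟩ := h1 X Q L H B Z hH hZ C
  obtain ⟨ρ₀, R₀, a3⟩ := a2 r₀
  obtain ⟨M', a4⟩ := a1 (C * (|ρ₀| + 1))
  refine h2 X Q L H B Z hH hZ (max M' (C * (|ρ₀| + 1))) r₀ fun n => ?_
  have hR : 0 < |R₀| + n + 1 := by positivity
  obtain ⟨w, φ, c, b1, b2, b3, b4⟩ := hC (|ρ₀| + 1) _ (by positivity) hR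
  obtain ⟨b5, b6⟩ := a4 _ w φ c hR b1 b2 b4
  refine ⟨_, w, φ, c, by linarith [abs_nonneg R₀], b1, b4.trans (le_max_right _ _),
    b5.trans (le_max_left _ _), ?_, b6.trans (le_max_left _ _)⟩
  by_contra h
  have := a3 _ w φ c hR (by linarith [le_abs_self R₀, n.cast_nonneg (α := ℝ)]) b1 b2
    (not_le.1 h).le
  linarith [le_abs_self ρ₀]

theorem hig_of (h1 : APRD_statement) (h2 : UNTR_statement) (h3 : EST_statement)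
    (h4 : SEQ_statement) (h5 : FF_statement) (h6 : POSQ_statement) (h7 : DIRQ_statement) :
    HIG_statement := by
  intro X _ _ _ _ _ Q L H B Z hH hZ ha hE
  have hb := big_of h1 h2 X Q L H B Z hH hZ hE
  obtain ⟨r₀, C, a1⟩ := h3 X Q L H B Z hH hZ
  obtain ⟨u, hu, ⟨S⟩⟩ := h4 X Q L H hH C fun n => by
    obtain ⟨w, φ, c, b1, b2⟩ := hb (max r₀ (n + 1))
    obtain ⟨g, b3⟩ := a1 w φ c b1 ((le_max_left _ _).trans b2)
    have b4 : (n : ℝ) < len c := (lt_add_one _).trans_le ((le_max_right _ _).trans b2)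
    have b5 : 0 < len c := (n.cast_nonneg (α := ℝ)).trans_lt b4
    refine ⟨_, _, w, φ, g, b4, ?_, b3⟩
    have : len ((len c)⁻¹ • c) = |(len c)⁻¹| * len c := by
      unfold len
      simp only [Pi.smul_apply, smul_eq_mul, mul_pow, ← Finset.mul_sum]
      rw [Real.sqrt_mul (sq_nonneg _), Real.sqrt_sq_eq_abs]
    rw [this, abs_of_pos (inv_pos.2 b5), inv_mul_cancel₀ b5.ne']
  obtain ⟨S'⟩ := h6 h5 X Q L u hu S
  exact h7 X Q L u hu ha S'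

end Vale.Agent.P247W
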