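import Vale.Agent.P247W.Apd0
import Vale.Agent.P247W.Sta
import Vale.Agent.P247W.Hod

/-!
# P247W: the row `APRD`
-/

set_option linter.all false

open scoped ContDiff Topology ENNReal NNReal ComplexConjugate
open Set MeasureTheory Filter Metric

noncomputable section

namespace Vale.Agent.P247W

open Vale.Agent.P204.GX Vale.Agent.P204.T4 Vale.Agent.P247E Vale.Agent.P247E.R
open Vale.Agent.P247.H647 (Sp En sig pau len len_sq len_nonneg abs_le_len)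

namespace Apd

variable {X : Type} [MetricSpace X] [CompactSpace X] [ConnectedSpace X] [MeasurableSpace X]
  [BorelSpace X] {Q : QM X} {L : LBc Q.toCM} {H : Op Q.t1 Q.t0} {B : ℝ}
  {Z : (Fin 3 → ℝ) → X → En}

theorem T_unit (Q : QM X) (x : X) : IsUnit (Q.T x).det := isUnit_iff_ne_zero.2 fun k => by
  obtain ⟨u, h1, h2⟩ := Matrix.exists_vecMul_eq_zero_iff.2 k
  exact h1 (Q.T_pos x u 0 le_rfl (by simpa using h2))

theorem T_dv (c : Fin 3 → ℝ) (x : X) (j : Fin 3) : ∑ k, Q.T x j k * dv Q c x k = c j := by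
  have : (Q.T x).mulVec (dv Q c x) = c := by
    rw [dv, Matrix.mulVec_mulVec, Matrix.mul_nonsing_inv _ (T_unit Q x), Matrix.one_mulVec]
  exact congrFun this j

theorem dv_smul (t : ℝ) (c : Fin 3 → ℝ) (x : X) : dv Q (t • c) x = t • dv Q c x :=
  Matrix.mulVec_smul _ _ _

theorem len_dv (hZ : ZFamD Q B Z) (c : Fin 3 → ℝ) (x : X) :
    B⁻¹ * len c ≤ len (dv Q c x) ∧ len (dv Q c x) ≤ B * len c := by
  rcases (len_nonneg c).eq_or_lt with h | h
  · have h2 : c = (0 : ℝ) • c := by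
      funext k
      have := abs_le_len c k
      rw [← h] at this
      simpa using this
    rw [h2, dv_smul, len_smul' le_rfl, len_smul' le_rfl]
    simp
  · have h1 : len ((len c)⁻¹ • c) = 1 := by
      rw [len_smul' (inv_pos.2 h).le, inv_mul_cancel₀ h.ne']
    obtain ⟨s⟩ := hZ.eig _ h1.ge
    rw [h1, inv_one, one_smul] at s
    have h3 : dv Q c x = len c • dv Q ((len c)⁻¹ • c) x := by
      rw [dv_smul, smul_inv_smul₀ h.ne']
    rw [h3, len_smul' h.le, mul_comm B⁻¹, mul_comm B]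
    exact ⟨mul_le_mul_of_nonneg_left (s.lam_ge x) h.le, mul_le_mul_of_nonneg_left (s.lam_le x) h.le⟩

/-- the periods of the curvature do not depend on the connection -/
theorem mean_Fa (hH : Q.IsHod H) (φ : Q.t1.H1) (j : Fin 3) :
    Integrable (fun x => ∑ k, Q.T x j k * Q.Fa L H φ x k) Q.mu ∧
    ∫ x, ∑ k, Q.T x j k * Q.Fa L H φ x k ∂Q.mu = ar Q L j := by
  have i1 : Integrable (fun x => ∑ k, Q.T x j k * L.Fh x k) Q.mu :=
    integrable_finsetSum _ fun k _ => BM.int_mul (bm_T Q j k)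
      (((bm_Fh BQ1 BQ2 L k).memLp 2).integrable one_le_two)
  have i2 : Integrable (fun x => ∑ k, Q.T x j k * vec ((H.clm φ : X → Sp) x) k.succ) Q.mu :=
    integrable_finsetSum _ fun k _ => BM.int_mul (bm_T Q j k)
      ((memLp_vec (Lp.memLp (H.clm φ)) k.succ).integrable one_le_two)
  have h1 := ((fred X _ _ _ _ _ H _ H.isAdj_adj (IsHod.cliff hH).gar
    (IsHod.cliff' hH).gar).2.2.2.1 (H.clm φ)).1 ⟨φ, rfl⟩ _ (Solv.Λ_mem hH (0, Pi.single j 1))
  have h2 : ∫ x, ∑ k, Q.T x j k * vec ((H.clm φ : X → Sp) x) k.succ ∂Q.mu = 0 := by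
    rw [← h1]
    refine integral_congr_ae (.of_forall fun x => ?_)
    simp [Hx.inner_vec, Solv.vec_Λ, Fin.sum_univ_succ (n := 3), Solv.nu_eq, Pi.single_apply,
      mul_comm]
  simp only [QM.Fa, mul_add, Finset.sum_add_distrib]
  refine ⟨i1.add i2, ?_⟩
  rw [integral_add i1 i2, h2, add_zero, ar, CM.pr]
  simp only [(BQ2 X Q L).2.1]
  rfl

theorem DSol.gs (hZ : ZFamD Q B Z) {R r : ℝ} {w : L.bp.H1} {φ : Q.t1.H1} {c : Fin 3 → ℝ}
    (hw : DSol Q L H Z (qT R) w φ c) (hc : len c ≤ r) : GS Q L H B (B * r) R w φ := by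
  refine ⟨hw.dirac.mono fun x hx => ?_, hw.curv.mono fun x hx => ?_⟩
  · rw [eq_neg_of_add_eq_zero_left hx, norm_neg]
    exact (Z c x).le_of_opNorm_le (hZ.bd c x) _
  · simp only [hx, sub_add_cancel]
    exact (len_dv hZ c x).2.trans (mul_le_mul_of_nonneg_left hc hZ.pos.le)

theorem GS.int_le {r R : ℝ} (hR : 0 < R) {w : L.bp.H1} {φ : Q.t1.H1} (hw : GS Q L H B r R w φ) :
    ∫ x, ∑ k, Q.Fa L H φ x k ^ 2 ∂Q.mu ≤
      2 * r ^ 2 * Q.mu.real univ + ‖nq Q hR (L.bp.J w)‖ ^ 2 := by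
  have i2 := int_sq (nq Q hR (L.bp.J w))
  rw [norm_sq_L2, mul_comm, ← smul_eq_mul, ← integral_const, ← integral_add (integrable_const _) i2]
  refine integral_mono_ae (integrable_finsetSum _ fun k _ =>
    (memLp_Fa BQ1 BQ2 H φ k).integrable_sq) ((integrable_const _).add i2) ?_
  filter_upwards [hw.curv, nq_ae hR (L.bp.J w)] with x a1 a2
  have a3 := pow_le_pow_left₀ (len_nonneg _) a1 2
  rw [len_sq] at a3
  rw [a2, norm_E3_sq]
  simp only [Fin.sum_univ_three] at a3 ⊢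
  nlinarith [sq_nonneg (Q.Fa L H φ x 0 + qT R (ps w x) 0), sq_nonneg (Q.Fa L H φ x 1 + qT R (ps w x) 1),
    sq_nonneg (Q.Fa L H φ x 2 + qT R (ps w x) 2), sq_nonneg (qT R (ps w x) 0),
    sq_nonneg (qT R (ps w x) 1), sq_nonneg (qT R (ps w x) 2)]

theorem norm_qT {R : ℝ} (hR : 0 < R) (ψ : Sp) : ‖E3 (qT R ψ)‖ ≤ ‖ψ‖ ^ 2 := by
  have e : qT R ψ = gq R (‖ψ‖ ^ 2) • spin ψ := rfl
  rw [norm_E3, e, len_smul' (gq_pos hR _).le, len_spin]
  exact mul_le_of_le_one_left (sq_nonneg _) (gq_le_one hR _)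

/-- the quadratic term is bounded uniformly in the truncation -/
theorem norm_nq {R : ℝ} (hR : 0 < R) (w : L.bp.H1) :
    ‖nq Q hR (L.bp.J w)‖ ≤ ‖J4 L.bp w‖ ^ 2 := by
  have h1 : eLpNorm (nq Q hR (L.bp.J w) : X → Sp) 2 Q.mu ≤
      eLpNorm (fun x => ‖ps w x‖ ^ (2 : ℝ)) 2 Q.mu := eLpNorm_mono_ae (by
    filter_upwards [nq_ae hR (L.bp.J w)] with x hx
    rw [hx, Real.rpow_two, Real.norm_of_nonneg (sq_nonneg _)]
    exact norm_qT hR _)
  rw [eLpNorm_norm_rpow _ two_pos, show (2 : ℝ≥0∞) * ENNReal.ofReal 2 = 4 by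
    rw [ENNReal.ofReal_ofNat]; norm_num, ENNReal.rpow_two] at h1
  rw [norm_J4, Lp.norm_def, ← ENNReal.toReal_pow]
  exact ENNReal.toReal_mono (ENNReal.pow_ne_top (memLp4 L.bp w).2.ne) h1

theorem tame_le {C r R N : ℝ} (hR : 0 < R) {w : L.bp.H1} {φ : Q.t1.H1} (hw : GS Q L H B r R w φ)
    (hT : Tame Q L H C φ) (hN : ‖nq Q hR (L.bp.J w)‖ ≤ N) :
    ‖φ‖ ≤ 1 + |C| * (1 + (2 * r ^ 2 * Q.mu.real univ + N ^ 2)) := by
  have h0 : 0 ≤ ∫ x, ∑ k, Q.Fa L H φ x k ^ 2 ∂Q.mu :=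
    integral_nonneg fun x => Finset.sum_nonneg fun _ _ => sq_nonneg _
  have h1 := (hw.int_le hR).trans (add_le_add_right (pow_le_pow_left₀ (norm_nonneg _) hN 2) _)
  have h2 := hT.trans ((mul_le_mul_of_nonneg_right (le_abs_self C) (by linarith)).trans
    (mul_le_mul_of_nonneg_left (add_le_add_right h1 1) (abs_nonneg C)))
  refine le_of_sq (le_add_of_nonneg_right (by positivity)) (h2.trans (by linarith))

/-- the bound for the perturbation parameter -/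
theorem c_le (hH : Q.IsHod H) (L : LBc Q.toCM) : ∃ C : ℝ, 0 ≤ C ∧ ∀ Z R w φ c, 0 < R →
    DSol Q L H Z (qT R) w φ c → len c ≤ C * (1 + ‖w‖ ^ 2) := by
  have hV : 0 < Q.mu.real univ :=
    ENNReal.toReal_pos (isOpen_univ.measure_pos Q.mu univ_nonempty).ne' (measure_ne_top _ _)
  obtain ⟨D, hD1, hD⟩ := exists_T_le Q
  refine ⟨2 * ((‖ar Q L‖ + 2 * D * ‖L.bp.J‖ ^ 2) / Q.mu.real univ), by positivity,
    fun Z R w φ c hR hw => ?_⟩
  have k2 : ‖L.bp.J w‖ ^ 2 ≤ ‖L.bp.J‖ ^ 2 * ‖w‖ ^ 2 := by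
    rw [← mul_pow]; exact pow_le_pow_left₀ (norm_nonneg _) (L.bp.J.le_opNorm w) 2
  have h1 : ∀ j, |c j| ≤ (‖ar Q L‖ + 2 * D * ‖L.bp.J‖ ^ 2) / Q.mu.real univ * (1 + ‖w‖ ^ 2) := by
    intro j
    obtain ⟨i1, e1⟩ := mean_Fa (L := L) hH φ j
    have h2 : ‖∫ x, (c j - ∑ k, Q.T x j k * Q.Fa L H φ x k) ∂Q.mu‖ ≤
        ∫ x, 2 * D * ‖ps w x‖ ^ 2 ∂Q.mu := by
      refine norm_integral_le_of_norm_le ((int_sq (L.bp.J w)).const_mul _) ?_
      filter_upwards [hw.curv] with x hx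
      have a1 : ∀ k, |Q.T x j k * qT R (ps w x) k| ≤ D * ‖ps w x‖ ^ 2 := fun k => by
        rw [abs_mul]
        exact mul_le_mul (hD x j k) ((abs_le_len _ k).trans ((norm_E3 _).ge.trans (norm_qT hR _)))
          (abs_nonneg _) (by linarith)
      have a2 := T_dv (Q := Q) c x j
      have a3 := abs_le.1 (a1 0)
      have a4 := abs_le.1 (a1 1)
      have a5 := abs_le.1 (a1 2)
      have a6 : 0 ≤ D * ‖ps w x‖ ^ 2 := by positivity
      simp only [hx, Fin.sum_univ_three] at a2 ⊢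
      rw [Real.norm_eq_abs, abs_le]
      constructor <;> linarith
    rw [integral_sub (integrable_const _) i1, e1, integral_const, integral_const_mul,
      ← norm_sq_L2, smul_eq_mul, Real.norm_eq_abs] at h2
    have h3 : |ar Q L j| ≤ ‖ar Q L‖ := norm_le_pi_norm (ar Q L) j
    have h4 := abs_add_le (Q.mu.real univ * c j - ar Q L j) (ar Q L j)
    rw [sub_add_cancel, abs_mul, abs_of_pos hV] at h4
    rw [div_mul_eq_mul_div, le_div_iff₀ hV]
    have h5 := mul_le_mul_of_nonneg_left k2 (show 0 ≤ 2 * D by linarith)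
    have h6 : 0 ≤ ‖ar Q L‖ * ‖w‖ ^ 2 := by positivity
    have h7 : 0 ≤ 2 * D * ‖L.bp.J‖ ^ 2 := by positivity
    nlinarith
  rw [mul_assoc]
  generalize (‖ar Q L‖ + 2 * D * ‖L.bp.J‖ ^ 2) / Q.mu.real univ * (1 + ‖w‖ ^ 2) = t at h1 ⊢
  have t0 := (abs_nonneg _).trans (h1 0)
  refine (sq_le_sq₀ (len_nonneg _) (by linarith)).1 ?_
  rw [len_sq, Fin.sum_univ_three]
  nlinarith [sq_le_sq' (abs_le.1 (h1 0)).1 (abs_le.1 (h1 0)).2,
    sq_le_sq' (abs_le.1 (h1 1)).1 (abs_le.1 (h1 1)).2,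
    sq_le_sq' (abs_le.1 (h1 2)).1 (abs_le.1 (h1 2)).2]

end Apd

open Apd

/-- **APRD** -/
theorem aprd : APRD_statement := by
  intro X _ _ _ _ _ Q L H B Z hH hZ C
  refine ⟨fun M => ?_, fun r => ?_⟩
  · obtain ⟨D, D0, hD⟩ := c_le hH L
    refine ⟨max (1 + |C| * (1 + (2 * (B * (D * (1 + M ^ 2))) ^ 2 * Q.mu.real univ +
      ((‖J4 L.bp‖ * M) ^ 2) ^ 2))) (D * (1 + M ^ 2)), fun R w φ c hR hw hT hM => ?_⟩
    have h1 := (hD Z R w φ c hR hw).trans (mul_le_mul_of_nonneg_left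
      (add_le_add_right (pow_le_pow_left₀ (norm_nonneg _) hM 2) 1) D0)
    exact ⟨(tame_le hR (DSol.gs hZ hw h1) hT ((norm_nq hR w).trans (pow_le_pow_left₀
      (norm_nonneg _) ((J4 L.bp).le_opNorm_of_le hM) 2))).trans (le_max_left _ _),
      h1.trans (le_max_right _ _)⟩
  · obtain ⟨M, R₀, h1⟩ := Apd.apr_int hH L B (B * r)
    obtain ⟨ρ, R₁, h2⟩ := norm_le hH L B (B * r)
      (1 + |C| * (1 + (2 * (B * r) ^ 2 * Q.mu.real univ + M ^ 2)))
    refine ⟨ρ, max R₀ R₁, fun R w φ c hR hRl hw hT hc => ?_⟩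
    have h3 := DSol.gs hZ hw hc
    exact h2 R w φ hR ((le_max_right _ _).trans hRl) h3
      (tame_le hR h3 hT (h1 R w φ hR ((le_max_left _ _).trans hRl) h3).2.1)

end Vale.Agent.P247W
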