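import Vale.Agent.P247W.Sta
import Vale.Agent.P247E.Jac

/-!
# P247W: the row `DIRQ`
-/

set_option linter.all false

open scoped ContDiff Topology ENNReal ComplexConjugate
open Set MeasureTheory Filter

noncomputable section

namespace Vale.Agent.P247W

open Vale.Agent.P204.GX Vale.Agent.P204.T4 Vale.Agent.P247E
open Vale.Agent.P247.H647 (omM hat len jz PosA)

namespace Dq

theorem posA_eS {n m : Fin 3 → ℝ} (h : 0 ≤ m ⬝ᵥ n) : PosA n (ent (∑ k, m k • eS k)) := fun y => by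
  have : ∑ a, ∑ c, ∑ d, ∑ k, ent (∑ k, m k • eS k) a d * y a * y c * (n k * omM k c d) =
      (m ⬝ᵥ n) * ∑ a, y a ^ 2 := by
    simp [Fin.sum_univ_four, Fin.sum_univ_three, eS_eq, ent, omM, dotProduct]
    ring
  rw [this]
  positivity

theorem hat_eS (m : Fin 3 → ℝ) (k : Fin 3) : hat (ent (∑ k, m k • eS k)) k = 2 * m k := by
  fin_cases k <;> simp [Fin.sum_univ_three, eS_eq, ent, hat] <;> ring

theorem posA_smul {n : Fin 3 → ℝ} {φ : Fin 4 → Fin 4 → ℝ} {t : ℝ} (ht : 0 < t)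
    (h : PosA (t • n) φ) : PosA n φ := fun y => by
  have := h y
  simp only [Pi.smul_apply, smul_eq_mul, mul_assoc t, mul_left_comm _ t] at this
  refine (mul_nonneg_iff_of_pos_left ht).1 ?_
  simpa only [Finset.mul_sum] using this

variable {X : Type} [MetricSpace X] [CompactSpace X] [MeasurableSpace X] [BorelSpace X]

theorem jacQ_eq {M : CM X} (L : LBc M) {a : X → V4} {s : X → ℂ} (ha : M.Sm1 a) (hs : L.Sm s) :
    jacQ L a s = L.F + M.dX a + M.dX fun x c => (conj (s x) * L.cva a s x c).im :=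
  funext fun x => by
    rw [Pi.add_apply, (L.jac ha hs).2, jacQ, cur, sub_smul, one_smul, Pi.add_apply]; abel

theorem jacQ_mem {M : CM X} (L : LBc M) {a : X → V4} {s : X → ℂ} (ha : M.Sm1 a) (hs : L.Sm s) :
    jacQ L a s ∈ M.Om := jacQ_eq L ha hs ▸
  M.Om.add_mem (M.Om.add_mem L.F_mem (M.dX_mem_Om ha)) (M.dX_mem_Om (L.jac ha hs).1)

theorem intQ {M : CM X} {u v : X → L2} (hu : u ∈ M.Om) (hv : v ∈ M.Om) :
    Integrable (fun x => P204.T4.Q (u x) (v x)) M.mu :=
  M.integrable_Q7 (M.Om_le_C07 hu) (M.Om_le_C07 hv)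

/-- the periods of the Jacobian are those of the curvature -/
theorem pr_jacQ {M : CM X} (L : LBc M) {a : X → V4} {s : X → ℂ} (ha : M.Sm1 a) (hs : L.Sm s)
    {u : X → L2} (hu : u ∈ M.Om) (hc : ∀ b, Closed (M.cf b u)) :
    M.pr (jacQ L a s) u = M.pr L.F u := by
  have h1 := (L.jac ha hs).1
  have z1 := pr_dX ha hu hc
  have z2 := pr_dX h1 hu hc
  have i := intQ (M.Om.add_mem L.F_mem (M.dX_mem_Om ha)) hu
  unfold CM.pr at *
  simp only [jacQ_eq L ha hs, Pi.add_apply, Q_add_left] at i ⊢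
  rw [integral_add i (intQ (M.dX_mem_Om h1) hu),
    integral_add (intQ L.F_mem hu) (intQ (M.dX_mem_Om ha) hu), z1, z2, add_zero, add_zero]

theorem nonneg {Q : QM X} {L : LBc Q.toCM} {u : Fin 3 → ℝ} (S : HiggsQ Q L u) {v : Fin 3 → ℝ}
    (h : 0 ≤ v ⬝ᵥ u) : 0 ≤ v ⬝ᵥ ar Q L := by
  have e : ∀ x, (∑ j, v j • Q.w j) x = ∑ k, Matrix.vecMul v (Q.T x) k • eS k := fun x => by
    simp only [Finset.sum_apply, Pi.smul_apply, Q.w_eq, Finset.smul_sum, smul_smul, Matrix.vecMul,
      dotProduct, Finset.sum_smul]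
    exact Finset.sum_comm
  have m : (∑ j, v j • Q.w j) ∈ Q.Om := Q.Om.sum_mem fun j _ => Q.Om.smul_mem _ (Q.w_mem j)
  refine le_of_forall_pos_le_add fun ε ε0 => ?_
  obtain ⟨n, hn⟩ := (S.pos _ (bm_Om m) (fun k => by
      simp only [e, hat_eS, Matrix.vecMul, dotProduct]
      exact continuous_const.mul (continuous_finset_sum _ fun j _ =>
        continuous_const.mul (SmF.continuous (Q.T_smooth j k))))
    (fun x => by
      rw [e]
      refine posA_eS ?_
      rwa [dv, ← Matrix.dotProduct_mulVec, Matrix.mulVec_mulVec,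
        Matrix.mul_nonsing_inv _ (Q.det_T x).isUnit, Matrix.one_mulVec]) ε ε0).exists
  unfold CM.pr at hn
  simp only [Finset.sum_apply, Pi.smul_apply, Q_sum] at hn
  rw [integral_finsetSum _ fun j _ =>
    (intQ (jacQ_mem L (S.a_sm n) (S.s_sm n)) (Q.w_mem j)).const_mul _] at hn
  simp only [integral_const_mul] at hn
  refine neg_le_iff_add_nonneg.1 (hn.trans_eq (Finset.sum_congr rfl fun j _ => ?_))
  exact congrArg _ (pr_jacQ L (S.a_sm n) (S.s_sm n) (Q.w_mem j) (Q.w_closed j))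

end Dq

open Dq in
theorem dirq : DIRQ_statement := by
  intro X _ _ _ _ _ Q L u hu ha S
  have u1 : u ⬝ᵥ u = 1 := by
    have := congrArg (· ^ 2) hu
    simp only [len, one_pow] at this
    rw [Real.sq_sqrt (by positivity)] at this
    simpa only [dotProduct, ← pow_two] using this
  set t := u ⬝ᵥ ar Q L with ht
  have o : (ar Q L - t • u) ⬝ᵥ u = 0 := by
    rw [sub_dotProduct, smul_dotProduct, u1, dotProduct_comm, smul_eq_mul, mul_one, sub_self]
  have o' : (ar Q L - t • u) ⬝ᵥ ar Q L = 0 := le_antisymm (by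
    simpa only [neg_dotProduct, neg_nonneg] using
      nonneg S (v := -(ar Q L - t • u)) (by rw [neg_dotProduct, o, neg_zero])) (nonneg S o.ge)
  have e : ar Q L = t • u := sub_eq_zero.1 (dotProduct_self_eq_zero.1 (by
    rw [dotProduct_sub, o', dotProduct_smul, o, smul_zero, sub_self]))
  have t0 : 0 < t := lt_of_le_of_ne (nonneg S (u1 ▸ zero_le_one)) fun h =>
    ha (by rw [e, ← h, zero_smul])
  exact ⟨⟨S.toBase, S.energy, fun φ h1 h2 h3 => S.pos φ h1 h2 fun x => posA_smul t0 (by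
    have := h3 x
    rwa [e, dv, Matrix.mulVec_smul] at this)⟩⟩

end Vale.Agent.P247W
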