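import Vale.Agent.P247W.Sta
import Vale.Agent.P247E.QEig

/-!
# P247, SW block: row EIGD
-/

set_option linter.all false

open scoped ContDiff Topology ENNReal ComplexConjugate
open Set MeasureTheory Filter

noncomputable section

namespace Vale.Agent.P247W

open Vale.Agent.P204.GX Vale.Agent.P204.T4 Vale.Agent.P247E
open Vale.Agent.P247.H647 (Sp En sig pau len P3 jf)

namespace Ed

variable {X : Type} [MetricSpace X] (Q : QM X)

theorem T_inv (x : X) (j j' : Fin 3) :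
    ∑ k, Q.T x j k * (Q.T x)⁻¹ k j' = if j = j' then 1 else 0 := by
  rw [← Matrix.mul_apply, Matrix.mul_nonsing_inv _ (Q.det_T x).isUnit, Matrix.one_apply]

theorem dv_eq (c : Fin 3 → ℝ) (x : X) : dv Q c x = (Q.T x)⁻¹.mulVec c := rfl

theorem T_dv (c : Fin 3 → ℝ) (x : X) (j : Fin 3) : ∑ k, Q.T x j k * dv Q c x k = c j := by
  have : (Q.T x).mulVec (dv Q c x) = c := by
    rw [dv_eq, Matrix.mulVec_mulVec, Matrix.mul_nonsing_inv _ (Q.det_T x).isUnit, Matrix.one_mulVec]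
  exact congrFun this j

theorem nu_dv (v c : Fin 3 → ℝ) (x : X) : ∑ k, Q.nu v x k * dv Q c x k = ∑ j, v j * c j := by
  simp only [← T_dv Q c x, QM.nu, Matrix.vecMul, dotProduct, Finset.sum_mul, Finset.mul_sum]
  rw [Finset.sum_comm]
  exact Finset.sum_congr rfl fun j _ => Finset.sum_congr rfl fun k _ => by ring

theorem dv_smul (t : ℝ) (c : Fin 3 → ℝ) (x : X) : dv Q (t • c) x = t • dv Q c x := by
  rw [dv_eq, dv_eq, Matrix.mulVec_smul]

theorem dv_add (c c' : Fin 3 → ℝ) (x : X) : dv Q (c + c') x = dv Q c x + dv Q c' x := by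
  rw [dv_eq, dv_eq, dv_eq, Matrix.mulVec_add]

theorem dv_sub (c c' : Fin 3 → ℝ) (x : X) : dv Q (c - c') x = dv Q c x - dv Q c' x := by
  rw [dv_eq, dv_eq, dv_eq, Matrix.mulVec_sub]

theorem dv_sm (c : Fin 3 → ℝ) (k : Fin 3) : SmF Q.toCM fun x => dv Q c x k := fun a =>
  show ContDiff ℝ ∞ fun y => ∑ j, (Q.T (Q.ψ a y))⁻¹ k j * c j from
    ContDiff.sum fun j _ => (Q.sm_inv k j a).mul contDiff_const

theorem dv_pos (x : X) (u : Fin 3 → ℝ) (l : ℝ) (hl : 0 ≤ l) (h : dv Q u x = -(l • u)) : u = 0 := by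
  by_contra h0
  have h1 : (l • Q.T x + 1).mulVec u = 0 := by
    have h2 : (Q.T x).mulVec (dv Q u x) = u := funext (T_dv Q u x)
    rw [h, Matrix.mulVec_neg, Matrix.mulVec_smul] at h2
    rw [Matrix.add_mulVec, Matrix.smul_mulVec, Matrix.one_mulVec]
    nth_rewrite 2 [← h2]
    exact add_neg_cancel _
  obtain ⟨v, h2, h3⟩ := Matrix.exists_vecMul_eq_zero_iff.2
    (Matrix.exists_mulVec_eq_zero_iff.1 ⟨u, h0, h1⟩)
  rw [Matrix.vecMul_add, Matrix.vecMul_one, Matrix.vecMul_smul] at h3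
  rcases hl.eq_or_lt with rfl | hl'
  · exact h2 (by simpa using h3)
  · refine h2 (Q.T_pos x v l⁻¹ (inv_nonneg.2 hl) ?_)
    rw [← smul_neg, ← eq_neg_of_add_eq_zero_left h3, inv_smul_smul₀ hl'.ne']

open QEig hiding Zu ZZ ZZ_zero ZZ_hom exists_D Zu_bd ZZ_bd ZZ_cont eig

/-- the inverse of `T`, twice -/
def tauD (x : X) : Yt := (fun j k => (Q.T x)⁻¹ k j, fun k j => (Q.T x)⁻¹ k j)

theorem tauD_sm : SmF Q.toCM (tauD Q) := fun a =>
  (contDiff_pi.2 fun j => contDiff_pi.2 fun k => Q.sm_inv k j a).prodMk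
    (contDiff_pi.2 fun k => contDiff_pi.2 fun j => Q.sm_inv k j a)

theorem nu_eqD (u : R3) (x : X) : nuU u (tauD Q x) = dv Q u x :=
  funext fun k => Finset.sum_congr rfl fun j _ => mul_comm _ _

theorem goodD {u : R3} (hu : len u = 1) (x : X) : Good u (tauD Q x) := by
  have h0 : u ≠ 0 := fun h => by rw [h, len_zero] at hu; exact zero_ne_one hu
  refine ⟨(Vale.Agent.P247.H647.len_nonneg _).lt_of_ne fun h => h0 ?_, den_pos hu fun h => h0 ?_⟩
  · refine dv_pos Q x u 0 le_rfl ?_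
    rw [zero_smul, neg_zero, ← nu_eqD]
    exact eq_zero_of_len h.symm
  · exact dv_pos Q x u _ (Vale.Agent.P247.H647.len_nonneg _) ((nu_eqD Q u x).symm.trans h)

/-- the coefficients of the dual direction -/
def mU (j : Fin 3) (w : Wt) : ℂ := Complex.ofRealCLM (∑ k, nuU w.1.1 w.2 k * w.2.2 k j)

theorem cd_mU (j : Fin 3) (w : Wt) : ContDiffAt ℝ ∞ (mU j) w := by
  unfold mU nuU; fun_prop

/-- the zero order term for the direction `u` -/
def Zu (u : R3) (x : X) : En := GU u (tauD Q x) (df Q.toCM (tauD Q) x)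

/-- the family of zero order terms -/
def ZZ (c : R3) (x : X) : En := min (len c) 1 • Zu Q ((len c)⁻¹ • c) x

theorem ZZ_zero (x : X) : ZZ Q 0 x = 0 := by
  rw [ZZ, len_zero, min_eq_left zero_le_one]
  ext1 v
  rw [ContinuousLinearMap.smul_apply, zero_smul, ContinuousLinearMap.zero_apply]

theorem ZZ_hom (c : R3) (L : LBc Q.toCM) : L.bp.Hom (Q.bm L) fun x => reL (ZZ Q c x) := by
  by_cases h : c = 0
  · subst h
    intro a
    simp only [ZZ_zero, map_zero, ContinuousLinearMap.zero_comp, ContinuousLinearMap.comp_zero]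
    exact contDiff_const
  · have hu := len_unit (len_pos h)
    have h1 : SmF Q.toCM fun x => fderiv ℝ NU ((len c)⁻¹ • c, tauD Q x) :=
      smF_of (tauD_sm Q) fun x =>
        (cd_NU (v := ((len c)⁻¹ • c, tauD Q x)) (goodD Q hu x)).fderiv_right (by simp)
    have h2 : SmF Q.toCM fun x => RU ((len c)⁻¹ • c, tauD Q x) :=
      smF_of (tauD_sm Q) fun x => cd_RU (v := ((len c)⁻¹ • c, tauD Q x)) (goodD Q hu x)
    exact hom_of Q (tauD_sm Q) h1 h2 (min (len c) 1) L

variable [CompactSpace X] [MeasurableSpace X] [BorelSpace X]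

theorem exists_D : ∃ D, ∀ x, df Q.toCM (tauD Q) x ∈ Metric.closedBall (0 : Fin 4 → Yt) D := by
  obtain ⟨D, hD⟩ := bm_two (tauD_sm Q).bm (tauD_sm Q).bm_df
  exact ⟨D, fun x => mem_closedBall_zero_iff.2 ((pi_norm_le_iff_of_nonempty _).2 fun c =>
    (hD x c).2)⟩

theorem Zu_bd : ∃ C, 0 ≤ C ∧ ∀ u, len u = 1 → ∀ x, ‖Zu Q u x‖ ≤ C := by
  obtain ⟨D, hD⟩ := exists_D Q
  have hK := isCompact_sph.prod ((isCompact_univ (X := X)).prod
    (isCompact_closedBall (0 : Fin 4 → Yt) D))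
  obtain ⟨C, hC⟩ := hK.exists_bound_of_continuousOn
    (f := fun z => GU z.1 (tauD Q z.2.1) z.2.2) fun z hz =>
      (cont_GU continuousAt_fst ((tauD_sm Q).continuous.continuousAt.comp (by fun_prop))
        (by fun_prop) (goodD Q hz.1 _)).continuousWithinAt
  exact ⟨max C 0, le_max_right _ _, fun u hu x =>
    (hC (u, x, df Q.toCM (tauD Q) x) ⟨hu, mem_univ _, hD x⟩).trans (le_max_left _ _)⟩

theorem ZZ_bd : ∃ C, 0 ≤ C ∧ ∀ c x, ‖ZZ Q c x‖ ≤ min (len c) 1 * C := by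
  obtain ⟨C, h0, hC⟩ := Zu_bd Q
  refine ⟨C, h0, fun c x => ?_⟩
  have h1 : 0 ≤ min (len c) 1 := le_min (Vale.Agent.P247.H647.len_nonneg _) zero_le_one
  by_cases h : c = 0
  · rw [h, ZZ_zero, norm_zero, ← h]; positivity
  · rw [ZZ, norm_smul, Real.norm_of_nonneg h1]
    exact mul_le_mul_of_nonneg_left (hC _ (len_unit (len_pos h)) x) h1

theorem ZZ_cont (c₀ : R3) (ε : ℝ) (hε : 0 < ε) :
    ∀ᶠ c in 𝓝 c₀, ∀ x, ‖ZZ Q c x - ZZ Q c₀ x‖ ≤ ε := by
  by_cases h : c₀ = 0
  · subst h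
    obtain ⟨C, h0, hC⟩ := ZZ_bd Q
    have h1 : ContinuousAt (fun c : R3 => min (len c) 1 * C) 0 :=
      ((continuous_len.min continuous_const).mul continuous_const).continuousAt
    have h2 := h1.eventually (gt_mem_nhds (a := ε) (by
      simpa only [len_zero, min_eq_left zero_le_one, zero_mul] using hε))
    filter_upwards [h2] with c hc x
    rw [ZZ_zero, sub_zero]
    exact (hC c x).trans hc.le
  · obtain ⟨D, hD⟩ := exists_D Q
    have hl := len_pos h
    have hK := (isCompact_univ (X := X)).prod (isCompact_closedBall (0 : Fin 4 → Yt) D)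
    have key := hK.eventually_forall_of_forall_eventually (x₀ := c₀)
      (P := fun c z => ‖min (len c) 1 • GU ((len c)⁻¹ • c) (tauD Q z.1) z.2 -
        min (len c₀) 1 • GU ((len c₀)⁻¹ • c₀) (tauD Q z.1) z.2‖ < ε) fun z _ => by
      have ht : ContinuousAt (fun w : R3 × X × (Fin 4 → Yt) => tauD Q w.2.1) (c₀, z) :=
        (tauD_sm Q).continuous.continuousAt.comp (by fun_prop)
      have hc : ContinuousAt (fun w : R3 × X × (Fin 4 → Yt) => len w.1) (c₀, z) :=
        (continuous_len.comp continuous_fst).continuousAt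
      have h1 := cont_GU (z := (c₀, z)) ((hc.inv₀ hl.ne').smul continuousAt_fst) ht
        (η := fun w => w.2.2) (by fun_prop) (goodD Q (len_unit hl) _)
      have h2 := cont_GU (z := (c₀, z)) (u := fun _ => (len c₀)⁻¹ • c₀) continuousAt_const ht
        (η := fun w => w.2.2) (by fun_prop) (goodD Q (len_unit hl) _)
      have h3 := (((hc.min (continuousAt_const (y := (1 : ℝ)))).smul h1).sub
        (h2.const_smul (min (len c₀) 1))).norm
      exact h3.eventually (gt_mem_nhds (a := ε) (by simpa using hε))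
    filter_upwards [key] with c hc x
    exact (hc (x, df Q.toCM (tauD Q) x) ⟨mem_univ _, hD x⟩).le

theorem eig : ∃ C, ∀ B, C ≤ B → ∀ u, len u = 1 → Nonempty (EigD Q B (Zu Q u) u) := by
  have hK := isCompact_sph.prod (isCompact_closedBall (0 : Sp) 1)
  have hτ := tauD_sm Q
  obtain ⟨C₁, h1⟩ := bd_of hτ hK (Φ := lamU) fun p hp x => cd_lamU (goodD Q hp.1 x)
  obtain ⟨C₂, h2⟩ := bd_of hτ hK (Φ := fun w => (lamU w)⁻¹) fun p hp x => cd_inv (goodD Q hp.1 x)
  obtain ⟨C₃, h3⟩ := bd_of hτ hK (Φ := fmU) fun p hp x => cd_fmU (goodD Q hp.1 x)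
  choose C₄ h4 using fun j => bd_of hτ hK (Φ := hU j) fun p hp x => cd_hU j (goodD Q hp.1 x)
  obtain ⟨C₅, h5⟩ := (Set.finite_range C₄).bddAbove
  choose D₁ k1 using fun j => bd_of hτ hK (Φ := mU j) fun p hp x => cd_mU j _
  obtain ⟨D₂, k2⟩ := (Set.finite_range D₁).bddAbove
  refine ⟨max (max (max C₁ C₂) (max C₃ C₅)) D₂, fun B hB u hu => ?_⟩
  simp only [max_le_iff] at hB
  obtain ⟨hB, hB'⟩ := hB
  obtain ⟨s, hs1, hs⟩ := exists_eig u hu
  have hp : (u, s) ∈ {u : R3 | len u = 1} ×ˢ Metric.closedBall (0 : Sp) 1 :=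
    ⟨hu, mem_closedBall_zero_iff.2 hs1.le⟩
  have g := goodD Q hu
  have fp_sm : SmF Q.toCM fun x => fpU ((u, s), tauD Q x) := smF_of hτ fun x => cd_fpU (g x)
  have fm_sm : SmF Q.toCM fun x => fmU ((u, s), tauD Q x) := smF_of hτ fun x => cd_fmU (g x)
  have gp_sm : SmF Q.toCM fun x => gpU ((u, s), tauD Q x) := smF_of hτ fun x => cd_gpU (g x)
  have gm_sm : SmF Q.toCM fun x => gmU ((u, s), tauD Q x) := smF_of hτ fun x => cd_gmU (g x)
  have fp_norm : ∀ x, ‖fpU ((u, s), tauD Q x)‖ ^ 2 = 2 * len (nuU u (tauD Q x)) := fun x =>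
    norm_NN hs hs1 rfl (g x).2
  have fp_eig : ∀ x, P3 (nuU u (tauD Q x)) (fpU ((u, s), tauD Q x)) =
      (len (nuU u (tauD Q x)) : ℂ) • fpU ((u, s), tauD Q x) := fun x => P3_NN _ _ _
  have dec : ∀ x (ψ : Sp), ψ = inner ℂ (gpU ((u, s), tauD Q x)) ψ • fpU ((u, s), tauD Q x) +
      inner ℂ (gmU ((u, s), tauD Q x)) ψ • fmU ((u, s), tauD Q x) := by
    intro x ψ
    have h0 : (2 * len (nuU u (tauD Q x)) : ℝ) ≠ 0 := (mul_pos two_pos (g x).1).ne'
    rw [gpU, gmU, rsmul, rsmul, inner_smul_left, inner_smul_left, mul_smul, mul_smul, ← smul_add,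
      fmU, dec_jf, fp_norm, smul_smul, Complex.conj_ofReal, ← Complex.ofReal_mul]
    erw [inv_mul_cancel₀ h0]
    rw [Complex.ofReal_one, one_smul]
  refine ⟨{
    fp := fun x => fpU ((u, s), tauD Q x)
    fm := fun x => fmU ((u, s), tauD Q x)
    gp := fun x => gpU ((u, s), tauD Q x)
    gm := fun x => gmU ((u, s), tauD Q x)
    h := fun j x => hU j ((u, s), tauD Q x)
    m := fun j x => mU j ((u, s), tauD Q x)
    m_sm := fun j => smF_of hτ fun x => cd_mU j _
    dfm_le := fun x c => (h3 B hB.2.1 _ hp x c).2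
    dh_le := fun j x c => (h4 j B ((h5 ⟨j, rfl⟩).trans hB.2.2) _ hp x c).2
    dm_le := fun j x c => (k1 j B ((k2 ⟨j, rfl⟩).trans hB') _ hp x c).2
    m_eq := fun x k => ?_
    fp_sm := fp_sm
    fm_sm := fm_sm
    gp_sm := gp_sm
    gm_sm := gm_sm
    h_sm := fun j => smF_of hτ fun x => cd_hU j (g x)
    lam_ge := fun x => nu_eqD Q u x ▸ inv_le_of_inv_le₀ (g x).1
      ((le_abs_self _).trans (h2 B hB.1.2 _ hp x 0).1)
    lam_le := fun x => nu_eqD Q u x ▸ (le_abs_self _).trans (h1 B hB.1.1 _ hp x 0).1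
    fp_norm := fun x => nu_eqD Q u x ▸ fp_norm x
    fm_norm := fun x => nu_eqD Q u x ▸ (norm_jf_sq _).trans (fp_norm x)
    fp_eig := fun x => nu_eqD Q u x ▸ fp_eig x
    fm_eig := fun x => nu_eqD Q u x ▸ P3_jf (fp_eig x)
    gp_eq := fun x => nu_eqD Q u x ▸ rsmul _ _
    gm_eq := fun x => nu_eqD Q u x ▸ rsmul _ _
    dec := dec
    ddec := fun x ψ c => df_dec fp_sm gp_sm fm_sm gm_sm ψ (fun x => dec x ψ) x c
    dir_fp := fun x => ?_
    Z_fm := fun x => ?_
    h_eq := fun x k => ?_ }⟩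
  · have hN : SmF Q.toCM fun x => NU (u, tauD Q x) := smF_of hτ fun x => cd_NU (g x)
    have e1 : RU (u, tauD Q x) (fpU ((u, s), tauD Q x)) = -s := RR_NN hs rfl (g x).2 (g x).1
    rw [Zu, GU, ContinuousLinearMap.sum_apply, ← Finset.sum_add_distrib]
    refine Finset.sum_eq_zero fun c _ => ?_
    have e2 : df Q.toCM (fun x => fpU ((u, s), tauD Q x)) x c =
        fderiv ℝ NU (u, tauD Q x) (0, df Q.toCM (tauD Q) x c) s := by
      rw [← df_of hτ fun x => cd_NU (g x)]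
      exact df_app hN s x c
    rw [e2, ContinuousLinearMap.mul_apply, ContinuousLinearMap.mul_apply, e1, map_neg, map_neg,
      add_neg_cancel]
  · have e1 : RU (u, tauD Q x) (fmU ((u, s), tauD Q x)) = 0 := RR_neg _ _ _ (P3_jf (fp_eig x))
    rw [Zu, GU, ContinuousLinearMap.sum_apply]
    refine Finset.sum_eq_zero fun c _ => ?_
    rw [ContinuousLinearMap.mul_apply, ContinuousLinearMap.mul_apply, e1, map_zero, map_zero]
  · simp only [hU, Finset.sum_mul, mul_assoc]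
    rw [Finset.sum_comm]
    have e1 : ∀ k', ∑ j, (((tauD Q x).2 k' j : ℝ) : ℂ) * (Q.T x j k : ℂ) =
        if k' = k then 1 else 0 := fun k' => by
      have := congrArg (fun r : ℝ => (r : ℂ)) (Q.inv_T x k' k)
      simp only [Complex.ofReal_sum, Complex.ofReal_mul] at this
      refine Eq.trans this ?_
      split_ifs <;> simp
    simp only [← Finset.mul_sum, e1, mul_ite, mul_one, mul_zero, Finset.sum_ite_eq',
      Finset.mem_univ, if_true]
  · simp only [mU, Complex.ofRealCLM_apply, ← Complex.ofReal_mul, ← Complex.ofReal_sum]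
    congr 1
    simp only [Finset.sum_mul, mul_assoc]
    rw [Finset.sum_comm]
    have e1 : ∀ k', ∑ j, (tauD Q x).2 k' j * Q.T x j k = if k' = k then 1 else 0 := fun k' =>
      Q.inv_T x k' k
    simp only [← Finset.mul_sum, e1, mul_ite, mul_one, mul_zero, Finset.sum_ite_eq',
      Finset.mem_univ, if_true, nu_eqD]

end Ed

open Ed in
theorem eigd : EIGD_statement := fun X _ _ _ _ _ Q _ => by
  obtain ⟨C₁, h1⟩ := eig Q
  obtain ⟨C₂, h0, h2⟩ := ZZ_bd Q
  refine ⟨max (max C₁ C₂) 1, ZZ Q, ⟨one_pos.trans_le (le_max_right _ _), ZZ_hom Q,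
    fun c x => (h2 c x).trans ?_, ZZ_cont Q, fun c hc => ?_⟩⟩
  · exact (mul_le_of_le_one_left h0 (min_le_right _ _)).trans
      ((le_max_right _ _).trans (le_max_left _ _))
  · have h3 : ZZ Q c = Zu Q ((len c)⁻¹ • c) := funext fun x => by
      rw [ZZ, min_eq_right hc, one_smul]
    rw [h3]
    exact h1 _ ((le_max_left _ _).trans (le_max_left _ _)) _ (QEig.len_unit (one_pos.trans_le hc))

end Vale.Agent.P247W
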