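import Mathlib.Analysis.SpecialFunctions.Pow.Real

/-!
# P247W, the estimate `EST`: inequalities in real variables
-/

set_option linter.all false

namespace Vale.Agent.P247W.Es

/-- the potential term -/
def Bq (r g x w : ℝ) : ℝ :=
  r ^ 2 - r * (1 + g) * x ^ 2 + g * x ^ 2 * (x ^ 2 + w ^ 2) + g * r * w ^ 2

theorem Bq_one (r x w : ℝ) : Bq r 1 x w = (r - x ^ 2) ^ 2 + x ^ 2 * w ^ 2 + r * w ^ 2 := by
  unfold Bq; ring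

theorem Bq_big {r g x w : ℝ} (hr : 0 ≤ r) (g0 : 0 ≤ g) (g1 : g ≤ 1)
    (h : 4 * r ≤ g * (x ^ 2 + w ^ 2)) :
    r ^ 2 + g * x ^ 2 * (x ^ 2 + w ^ 2) / 2 ≤ Bq r g x w := by
  have a1 : x ^ 2 * (4 * r) ≤ x ^ 2 * (g * (x ^ 2 + w ^ 2)) :=
    mul_le_mul_of_nonneg_left h (sq_nonneg _)
  have a2 : g * (r * x ^ 2) ≤ r * x ^ 2 := mul_le_of_le_one_left (by positivity) g1
  have a3 : 0 ≤ g * r * w ^ 2 := by positivity
  unfold Bq; linarith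

theorem Bq_ge {r g x w : ℝ} (hr : 0 ≤ r) (g0 : 0 ≤ g) (g1 : g ≤ 1)
    (h : g = 1 ∨ 4 * r ≤ g * (x ^ 2 + w ^ 2)) : g * (r - x ^ 2) ^ 2 ≤ 2 * Bq r g x w := by
  rcases h with rfl | h
  · rw [Bq_one]
    have : 0 ≤ x ^ 2 * w ^ 2 + r * w ^ 2 := by positivity
    nlinarith [sq_nonneg (r - x ^ 2)]
  · have a1 := Bq_big hr g0 g1 h
    have a2 : g * r ^ 2 ≤ r ^ 2 := mul_le_of_le_one_left (by positivity) g1
    have a3 : 0 ≤ g * (r * x ^ 2) := by positivity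
    have a4 : 0 ≤ g * x ^ 2 * w ^ 2 := by positivity
    have a5 : 0 ≤ r ^ 2 := by positivity
    linarith

theorem Bq_nonneg {r g x w : ℝ} (hr : 0 ≤ r) (g0 : 0 ≤ g) (g1 : g ≤ 1)
    (h : g = 1 ∨ 4 * r ≤ g * (x ^ 2 + w ^ 2)) : 0 ≤ Bq r g x w := by
  have := Bq_ge hr g0 g1 h
  have : 0 ≤ g * (r - x ^ 2) ^ 2 := by positivity
  linarith

theorem p3_real {D l g x w z W e1 e2 P V E S : ℝ} (hD : 1 ≤ D) (hl : 1 ≤ l * D) (g0 : 0 ≤ g)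
    (hP : |P| ≤ W * (D * w + e1)) (hV : V ≤ g * l ^ 2 * (x ^ 2 * w ^ 2) + e2 ^ 2)
    (hE : |E| ≤ D * (z * w))
    (hS : S = W ^ 2 + P + 4 * g * l ^ 2 * (x ^ 2 * w ^ 2) - V + E) :
    W ^ 2 + g * (x ^ 2 * w ^ 2) ≤ 2 * D ^ 2 * (S + D ^ 2 * w ^ 2 + D * (z * w) + (e1 ^ 2 + e2 ^ 2)) := by
  have a1 := (abs_le.1 hP).1
  have a2 := (abs_le.1 hE).1
  have a3 : W ^ 2 / 2 + 3 * (g * l ^ 2 * (x ^ 2 * w ^ 2)) ≤
      S + D ^ 2 * w ^ 2 + D * (z * w) + (e1 ^ 2 + e2 ^ 2) := by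
    nlinarith [sq_nonneg (W - (D * w + e1)), sq_nonneg (D * w - e1)]
  have a4 := mul_le_mul_of_nonneg_left a3 (by positivity : 0 ≤ 2 * D ^ 2)
  have a5 : W ^ 2 ≤ D ^ 2 * W ^ 2 := le_mul_of_one_le_left (sq_nonneg _) (one_le_pow₀ hD)
  have a6 : g * (x ^ 2 * w ^ 2) ≤ (l * D) ^ 2 * (g * (x ^ 2 * w ^ 2)) :=
    le_mul_of_one_le_left (by positivity) (one_le_pow₀ hl)
  have a7 : 0 ≤ g * (x ^ 2 * w ^ 2) := by positivity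
  nlinarith

theorem p2_real {D r l g x w y W X e1 e2 N E S : ℝ} (hD : 1 ≤ D) (hr : 4 * D ^ 5 ≤ r)
    (hl : 1 ≤ l * D) (hl2 : l ≤ D) (g0 : 0 ≤ g)
    (hX : X ^ 2 ≤ 3 * (W ^ 2 + (D * w) ^ 2 + e1 ^ 2))
    (hN : -(g * l ^ 2 * w ^ 4 / 2 + e2 ^ 2 / 2) ≤ w ^ 2 * N) (hE : |E| ≤ D * (y * w))
    (hS : S = l * y ^ 2 - X ^ 2 / 2 + w ^ 2 * (l ^ 2 * (r - g * x ^ 2 + g * w ^ 2) + N) - E) :
    y ^ 2 + r * w ^ 2 + g * w ^ 4 ≤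
      2 * D ^ 2 * (S + 2 * D ^ 2 * (W ^ 2 + g * (x ^ 2 * w ^ 2)) + 2 * (e1 ^ 2 + e2 ^ 2)) := by
  have hD0 : 0 < D := by linarith
  have hl0 : 0 < l := by nlinarith
  have hr0 : 0 < r := lt_of_lt_of_le (by positivity) hr
  have a2 := (abs_le.1 hE).2
  have hlD : 1 ≤ (l * D) ^ 2 := one_le_pow₀ hl
  have hD2 : 1 ≤ D ^ 2 := one_le_pow₀ hD
  have b1 : 2 * D ^ 2 * (D * (y * w)) ≤ D * y ^ 2 + D ^ 5 * w ^ 2 := by
    have := mul_nonneg hD0.le (sq_nonneg (y - D ^ 2 * w))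
    nlinarith
  have b2 : D * y ^ 2 ≤ D ^ 2 * (l * y ^ 2) := by
    have := mul_le_mul_of_nonneg_right hl (by positivity : 0 ≤ D * y ^ 2)
    nlinarith
  have b3 : y ^ 2 ≤ D * y ^ 2 := le_mul_of_one_le_left (sq_nonneg _) hD
  have b4 : r * w ^ 2 ≤ (l * D) ^ 2 * (r * w ^ 2) := le_mul_of_one_le_left (by positivity) hlD
  have b5 : g * w ^ 4 ≤ (l * D) ^ 2 * (g * w ^ 4) := le_mul_of_one_le_left (by positivity) hlD
  have b6 : l ^ 2 * (g * (x ^ 2 * w ^ 2)) ≤ D ^ 2 * (g * (x ^ 2 * w ^ 2)) :=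
    mul_le_mul_of_nonneg_right (pow_le_pow_left₀ hl0.le hl2 2) (by positivity)
  have b7 : 4 * D ^ 5 * w ^ 2 ≤ r * w ^ 2 := mul_le_mul_of_nonneg_right hr (sq_nonneg _)
  have b8 : D ^ 4 * w ^ 2 ≤ D ^ 5 * w ^ 2 :=
    mul_le_mul_of_nonneg_right (pow_le_pow_right₀ hD (by norm_num)) (sq_nonneg _)
  have b9 : W ^ 2 ≤ D ^ 2 * W ^ 2 := le_mul_of_one_le_left (sq_nonneg _) hD2
  have c1 : l * y ^ 2 + l ^ 2 * (r * w ^ 2) + l ^ 2 * (g * w ^ 4) / 2 - 3 / 2 * (D * w) ^ 2 -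
      D * (y * w) ≤ S + 2 * D ^ 2 * (W ^ 2 + g * (x ^ 2 * w ^ 2)) + 2 * (e1 ^ 2 + e2 ^ 2) := by
    have p1 : 0 ≤ D ^ 2 * (g * (x ^ 2 * w ^ 2)) := by positivity
    nlinarith [sq_nonneg e1, sq_nonneg e2, sq_nonneg W]
  have c2 := mul_le_mul_of_nonneg_left c1 (by positivity : 0 ≤ 2 * D ^ 2)
  nlinarith

theorem p1_real {D r l k g x w z W e1 e2 J P V N S : ℝ} (hD : 1 ≤ D) (hr : 0 ≤ r)
    (hl : 1 ≤ l * D) (hl2 : l ≤ D) (hk : 1 ≤ k * D) (hk2 : k ≤ D) (g0 : 0 ≤ g) (g1 : g ≤ 1)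
    (hg : g = 1 ∨ 4 * r ≤ g * (x ^ 2 + w ^ 2)) (hz : 0 ≤ z) (hW : 0 ≤ W)
    (hJ : 2 * l * J = 2 * k * z ^ 2 - P) (hP : |P| ≤ 8 * D ^ 2 * (W * z))
    (hV : V ^ 2 ≤ 4 * D ^ 4 * (x ^ 2 * w ^ 2))
    (hN : -(g * (r - x ^ 2) ^ 2 + 16 * D ^ 4 * e2 ^ 2) ≤ 8 * D * ((r - x ^ 2) * N))
    (hS : S = J + (r - x ^ 2) * (k * (r - g * x ^ 2 + g * w ^ 2) - g * V + N)) :
    z ^ 2 + Bq r g x w ≤
      2 * D ^ 2 * (S + 10 * D ^ 8 * (W ^ 2 + g * (x ^ 2 * w ^ 2)) + 2 * D ^ 3 * (e1 ^ 2 + e2 ^ 2)) := by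
  have hD0 : 0 < D := by linarith
  have hl0 : 0 < l := by nlinarith
  have hk0 : 0 < k := by nlinarith
  have q0 := Bq_nonneg hr g0 g1 hg
  have q1 := Bq_ge hr g0 g1 hg
  have q2 : (r - x ^ 2) * (r - g * x ^ 2 + g * w ^ 2) = Bq r g x w - 2 * (g * (x ^ 2 * w ^ 2)) := by
    unfold Bq; ring
  generalize Bq r g x w = B at q0 q1 q2 ⊢
  have p0 : 0 ≤ g * (x ^ 2 * w ^ 2) := by positivity
  -- the gradient term
  have a1 : z ^ 2 - 16 * D ^ 10 * W ^ 2 ≤ 2 * D ^ 2 * J := by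
    have b1 := (abs_le.1 hP).2
    have b2 : l * z ^ 2 ≤ D ^ 2 * (k * z ^ 2) := by
      have c1 : l * z ^ 2 ≤ D * z ^ 2 := mul_le_mul_of_nonneg_right hl2 (sq_nonneg _)
      have c2 := mul_le_mul_of_nonneg_right hk (by positivity : 0 ≤ D * z ^ 2)
      nlinarith
    have b3 : D ^ 4 * (W * z) ≤ l * D * (D ^ 4 * (W * z)) :=
      le_mul_of_one_le_left (by positivity) hl
    have b4 : 0 ≤ l * (z - 4 * D ^ 5 * W) ^ 2 := by positivity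
    have b5 := mul_le_mul_of_nonneg_left b1 (by positivity : 0 ≤ D ^ 2)
    have b6 : l * (z ^ 2 - 16 * D ^ 10 * W ^ 2) ≤ l * (2 * D ^ 2 * J) := by
      have : l * (2 * D ^ 2 * J) = D ^ 2 * (2 * k * z ^ 2 - P) := by rw [← hJ]; ring
      rw [this]
      linarith
    exact le_of_mul_le_mul_left b6 hl0
  -- the potential term
  have a2 : B - 20 * D ^ 6 * (g * (x ^ 2 * w ^ 2)) - 4 * D ^ 4 * e2 ^ 2 ≤
      2 * D * ((r - x ^ 2) * (k * (r - g * x ^ 2 + g * w ^ 2) - g * V + N)) := by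
    have b1 : B ≤ k * D * B := le_mul_of_one_le_left q0 hk
    have b2 : k * D * (g * (x ^ 2 * w ^ 2)) ≤ D ^ 6 * (g * (x ^ 2 * w ^ 2)) := by
      refine mul_le_mul_of_nonneg_right ?_ p0
      calc k * D ≤ D ^ 2 := by nlinarith
        _ ≤ D ^ 6 := pow_le_pow_right₀ hD (by norm_num)
    have b3 : 0 ≤ g * ((r - x ^ 2) - 4 * D * V) ^ 2 := by positivity
    have b4 := mul_le_mul_of_nonneg_left hV (by positivity : 0 ≤ g * D ^ 2)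
    have b5 : 2 * D * ((r - x ^ 2) * (k * (r - g * x ^ 2 + g * w ^ 2) - g * V + N)) =
        2 * (k * D) * ((r - x ^ 2) * (r - g * x ^ 2 + g * w ^ 2)) -
          2 * (g * (D * ((r - x ^ 2) * V))) + 2 * D * ((r - x ^ 2) * N) := by ring
    rw [b5, q2]
    linarith
  have a3 := mul_le_mul_of_nonneg_left a2 hD0.le
  have a4 : B ≤ D * B := le_mul_of_one_le_left q0 hD
  have a5 : D ^ 7 * (g * (x ^ 2 * w ^ 2)) ≤ D ^ 10 * (g * (x ^ 2 * w ^ 2)) :=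
    mul_le_mul_of_nonneg_right (pow_le_pow_right₀ hD (by norm_num)) p0
  have a6 : 0 ≤ D ^ 10 * W ^ 2 := by positivity
  have a7 : 0 ≤ D ^ 5 * e1 ^ 2 := by positivity
  rw [hS]
  linarith

theorem comb_real {D r B Y Xq z w E S1 S2 S3 : ℝ} (hD : 1 ≤ D) (hr : 5120 * D ^ 20 ≤ r)
    (hB : 0 ≤ B) (hX : 0 ≤ Xq) (hE : 0 ≤ E) (hY : r * w ^ 2 ≤ Y)
    (h1 : z ^ 2 + B ≤ 2 * D ^ 2 * (S1 + 10 * D ^ 8 * Xq + 2 * D ^ 3 * E))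
    (h2 : Y ≤ 2 * D ^ 2 * (S2 + 2 * D ^ 2 * Xq + 2 * E))
    (h3 : Xq ≤ 2 * D ^ 2 * (S3 + D ^ 2 * w ^ 2 + D * (z * w) + E)) :
    r * (Y + Xq) ≤
      4 * D ^ 2 * (512 * D ^ 14 * S1 + r * S2 + 8 * D ^ 4 * r * S3 + 11 * D ^ 4 * r * E) := by
  have hD0 : 0 < D := by linarith
  have hr0 : 0 < r := lt_of_lt_of_le (by positivity) hr
  have pw : ∀ m n : ℕ, m ≤ n → D ^ m ≤ D ^ n := fun m n h => pow_le_pow_right₀ hD h
  have k1 := mul_le_mul_of_nonneg_left h1 (by positivity : 0 ≤ 1024 * D ^ 14)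
  have k2 := mul_le_mul_of_nonneg_left h2 (by positivity : 0 ≤ 2 * r)
  have k3 := mul_le_mul_of_nonneg_left h3 (by positivity : 0 ≤ 16 * D ^ 4 * r)
  have k4 := mul_le_mul_of_nonneg_left hY hr0.le
  have a1 : 0 ≤ (32 * D ^ 7 * z - r * w / 2) ^ 2 := sq_nonneg _
  have a2 : 128 * D ^ 8 * (r * w ^ 2) ≤ r * (r * w ^ 2) :=
    mul_le_mul_of_nonneg_right (by linarith [pw 8 20 (by norm_num), pow_pos hD0 20])
      (by positivity)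
  have a3 : 5120 * D ^ 20 * (D ^ 4 * Xq) ≤ r * (D ^ 4 * Xq) :=
    mul_le_mul_of_nonneg_right hr (by positivity)
  have a4 : r * Xq ≤ D ^ 4 * (r * Xq) := le_mul_of_one_le_left (by positivity) (one_le_pow₀ hD)
  have a5 : 1024 * D ^ 13 * (D ^ 6 * E) ≤ r * (D ^ 6 * E) :=
    mul_le_mul_of_nonneg_right (by linarith [pw 13 20 (by norm_num), pow_pos hD0 20])
      (by positivity)
  have a6 : D ^ 2 * (r * E) ≤ D ^ 6 * (r * E) :=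
    mul_le_mul_of_nonneg_right (pw 2 6 (by norm_num)) (by positivity)
  have a7 : 0 ≤ D ^ 14 * B := by positivity
  have a8 : 0 ≤ r * Xq := by positivity
  have a9 : 0 ≤ r * (r * w ^ 2) := by positivity
  linarith

end Vale.Agent.P247W.Es
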