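import Vale.Agent.P247E.R.Van
import Vale.Agent.P247W.EsRe

/-!
# P247W, the estimate `EST`: pointwise spinor algebra
-/

set_option linter.all false

open scoped ComplexConjugate

noncomputable section

namespace Vale.Agent.P247W.Es

open Vale.Agent.P247.H647 Vale.Agent.P247E.R

theorem dot_le (a b : Fin 3 → ℝ) : |∑ k, a k * b k| ≤ len a * len b := by
  refine abs_le_of_sq_le_sq' ?_ (mul_nonneg (len_nonneg a) (len_nonneg b)) |> abs_le.2
  rw [mul_pow, len_sq, len_sq]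
  exact Finset.sum_mul_sq_le_sq_mul_sq _ _ _

theorem len_zero : len 0 = 0 := by simp [len]

theorem alg_dir (n : Fin 3 → ℝ) (ζ : Fin 4 → ℂ) (f : Sp) :
    ‖f‖ ^ 2 * ∑ k, n k * hat (jz ζ) k = nz ζ ^ 2 * ∑ k, n k * spin f k -
      (inner ℂ (symb ζ f) (symb ζ (P3 n f))).re := by
  have h := congrArg Complex.re (alg1 ζ f (P3 n f))
  rw [Complex.re_sum, Complex.sub_re, ← nz_sq] at h
  simp only [Complex.re_ofReal_mul] at h
  have e1 : ∀ k, (inner ℂ f (pau k (P3 n f))).re = n k * ‖f‖ ^ 2 := fun k => by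
    rw [norm_sq_sp, nsq, nsq]
    fin_cases k <;>
      simp [inner_sp, pau0_apply, pau1_apply, pau2_apply, P3_fin] <;> ring
  have e2 : (inner ℂ f (P3 n f)).re = ∑ k, n k * spin f k := by
    rw [P3_apply, inner_sum, Complex.re_sum]
    exact Finset.sum_congr rfl fun k _ => by rw [inner_smul_right, Complex.re_ofReal_mul, spin]
  rw [← e2, ← h, Finset.mul_sum]
  exact Finset.sum_congr rfl fun k _ => by rw [e1]; ring

theorem hat_jzR_real (η : Fin 4 → ℂ) (t : ℝ) (k : Fin 3) :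
    hat (jzR η fun c => (t : ℂ) * η c) k = t * hat (jz η) k := by
  fin_cases k <;> simp [hat, jzR, jz] <;> ring

/-- the three pointwise inequalities -/
structure PW (D r g x w z y W E S1 S2 S3 : ℝ) : Prop where
  p0 : g = 1 ∨ 4 * r ≤ g * (x ^ 2 + w ^ 2)
  p1 : z ^ 2 + Bq r g x w ≤
    2 * D ^ 2 * (S1 + 10 * D ^ 8 * (W ^ 2 + g * (x ^ 2 * w ^ 2)) + 2 * D ^ 3 * E)
  p2 : r * (y ^ 2 + r * w ^ 2 + g * w ^ 4 + (W ^ 2 + g * (x ^ 2 * w ^ 2))) ≤
    4 * D ^ 2 * (512 * D ^ 14 * S1 + r * S2 + 8 * D ^ 4 * r * S3 + 11 * D ^ 4 * r * E)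

theorem est_pw {D r g E2 E3 : ℝ} {f zm e1 : Sp} {ν n F e2 : Fin 3 → ℝ} {α β : ℂ}
    {ζ η : Fin 4 → ℂ} (hD : 1 ≤ D) (hr : 5120 * D ^ 20 ≤ r) (hl1 : 1 ≤ len ν * D)
    (hl2 : len ν ≤ D) (hn : len n ≤ D) (hk1 : 1 ≤ (∑ k, n k * ν k) * D) (hk2 : ∑ k, n k * ν k ≤ D)
    (hf : ‖f‖ ^ 2 = 2 * len ν) (hν : ∀ k, spin f k = 2 * ν k) (hzm : ‖zm‖ ≤ D)
    (hE : symb ζ f + symb η (jf f) + β • zm = e1)
    (hF : ∀ k, F k = r * ν k - g / 2 * spin (α • f + β • jf f) k + e2 k) (g0 : 0 ≤ g) (g1 : g ≤ 1)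
    (hg : g = 1 ∨ (8 * len ν * r ≤ g * ‖α • f + β • jf f‖ ^ 2 ∧ e2 = 0))
    (hE2 : |E2| ≤ D * (nz η * ‖β‖)) (hE3 : |E3| ≤ D * (nz ζ * ‖β‖)) :
    PW D r g ‖α‖ ‖β‖ (nz ζ) (nz η) ‖symb ζ f‖ (‖e1‖ ^ 2 + len e2 ^ 2)
      ((∑ k, n k * (hat (jz ζ) k - ‖α‖ ^ 2 * F k)) + r * ∑ k, n k * F k)
      (-((∑ k, ν k * (hat (jz η) k - ‖β‖ ^ 2 * F k)) + E2))
      (∑ k, (hat (jzR ζ fun c => zz f k * η c) k - (conj α * (zz f k * β)).re * F k) + E3) := by
  have hD0 : 0 < D := by linarith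
  have hl0 : 0 < len ν := by nlinarith [len_nonneg ν]
  have hD20 : D ^ 5 ≤ D ^ 20 := pow_le_pow_right₀ hD (by norm_num)
  have hD5 : 0 < D ^ 5 := by positivity
  have hr0 : 0 ≤ r := by linarith
  set ω : ℂ := conj α * β with hw
  have hwk : ∀ k, conj α * (zz f k * β) = ω * zz f k := fun k => by rw [hw]; ring
  obtain ⟨V, hV⟩ : ∃ V : Fin 3 → ℝ, V = fun k => (ω * zz f k).re := ⟨_, rfl⟩
  have hV' : ∀ k, (ω * zz f k).re = V k := fun k => by rw [hV]
  have hFk : ∀ k, F k = (r - g * ‖α‖ ^ 2 + g * ‖β‖ ^ 2) * ν k - g * V k + e2 k := by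
    intro k; rw [hF, spin_comb, hν, hwk, hV']; ring
  have h1 : ∑ k, ν k * V k = 0 := by
    have := spin_zz f ω
    simp only [hν, mul_assoc, hV'] at this
    rw [← Finset.mul_sum] at this
    linarith
  have h2 : ∑ k, ν k ^ 2 = len ν ^ 2 := (len_sq ν).symm
  have h3 : ∑ k, V k ^ 2 = 4 * len ν ^ 2 * (‖α‖ ^ 2 * ‖β‖ ^ 2) := by
    simp only [← hV']
    rw [zz_sq, hf, hw, norm_mul, RCLike.norm_conj]; ring
  have h4 : len V = 2 * len ν * (‖α‖ * ‖β‖) := by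
    rw [len, h3, Real.sqrt_eq_iff_mul_self_eq (by positivity) (by positivity)]; ring
  have hg' : g = 1 ∨ 4 * r ≤ g * (‖α‖ ^ 2 + ‖β‖ ^ 2) := by
    refine hg.imp_right fun h => ?_
    have h := h.1
    rw [norm_comb, hf] at h
    have : 2 * len ν * (4 * r) ≤ 2 * len ν * (g * (‖α‖ ^ 2 + ‖β‖ ^ 2)) := by linarith
    exact le_of_mul_le_mul_left this (by positivity)
  have hXW : symb η (jf f) = -(symb ζ f + (β • zm - e1)) := by
    rw [← hE]; abel
  have hzb : ‖β • zm - e1‖ ≤ D * ‖β‖ + ‖e1‖ := by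
    refine (norm_sub_le _ _).trans (add_le_add_left ?_ _)
    rw [norm_smul, mul_comm]; exact mul_le_mul_of_nonneg_right hzm (norm_nonneg _)
  have a1 : ∀ (t : ℝ) (m : Fin 3 → ℝ), ∑ k, m k * (t * F k) = t * ∑ k, m k * F k := fun t m => by
    rw [Finset.mul_sum]; exact Finset.sum_congr rfl fun k _ => by ring
  have P1 := p1_real (e1 := ‖e1‖) (e2 := len e2) (V := ∑ k, n k * V k) (N := ∑ k, n k * e2 k)
    (J := ∑ k, n k * hat (jz ζ) k) (P := (inner ℂ (symb ζ f) (symb ζ (P3 n f))).re)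
    (S := (∑ k, n k * (hat (jz ζ) k - ‖α‖ ^ 2 * F k)) + r * ∑ k, n k * F k)
    hD hr0 hl1 hl2 hk1 hk2 g0 g1 hg' (nz_nonneg ζ) (norm_nonneg (symb ζ f))
    (by
      rw [← hf, alg_dir]
      simp only [hν, Fin.sum_univ_three]; ring)
    (by
      refine (Complex.abs_re_le_norm _).trans ((norm_inner_le_norm _ _).trans ?_)
      have b1 : ‖f‖ ≤ 2 * D := by nlinarith [norm_nonneg f]
      have b2 : ‖P3 n f‖ ≤ D * (2 * D) := by
        rw [norm_P3]; exact mul_le_mul hn b1 (norm_nonneg _) hD0.le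
      have b3 := (norm_symb_le ζ (P3 n f)).trans
        (mul_le_mul_of_nonneg_left b2 (by have := nz_nonneg ζ; positivity))
      exact (mul_le_mul_of_nonneg_left b3 (norm_nonneg _)).trans (le_of_eq (by ring)))
    (by
      have b1 := (dot_le n V).trans (mul_le_mul hn (h4.le.trans (mul_le_mul_of_nonneg_right
        (by linarith : 2 * len ν ≤ 2 * D) (by positivity))) (len_nonneg _) hD0.le)
      have b2 := pow_le_pow_left₀ (abs_nonneg _) b1 2
      rw [sq_abs] at b2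
      exact b2.trans (le_of_eq (by ring)))
    (by
      rcases hg with rfl | ⟨-, rfl⟩
      · have b1 := (dot_le n e2).trans (mul_le_mul_of_nonneg_right hn (len_nonneg _))
        have b2 := pow_le_pow_left₀ (abs_nonneg _) b1 2
        rw [sq_abs] at b2
        have b3 := mul_le_mul_of_nonneg_left b2 (by positivity : 0 ≤ 16 * D ^ 2)
        linarith [sq_nonneg (r - ‖α‖ ^ 2 + 4 * D * ∑ k, n k * e2 k)]
      · simp only [Pi.zero_apply, mul_zero, Finset.sum_const_zero, len_zero]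
        have : 0 ≤ g * (r - ‖α‖ ^ 2) ^ 2 := by positivity
        linarith)
    (by simp only [hFk, Fin.sum_univ_three]; ring)
  have P2 := p2_real (x := ‖α‖) (W := ‖symb ζ f‖) (X := ‖symb η (jf f)‖) (e1 := ‖e1‖)
    (e2 := len e2) (N := ∑ k, ν k * e2 k) (r := r)
    (S := -((∑ k, ν k * (hat (jz η) k - ‖β‖ ^ 2 * F k)) + E2)) hD (by linarith) hl1 hl2 g0
    (by
      rw [hXW, norm_neg]
      have b1 := (norm_add_le (symb ζ f) (β • zm - e1)).trans (add_le_add_right hzb _)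
      have b2 := pow_le_pow_left₀ (norm_nonneg _) b1 2
      linarith [sq_nonneg (‖symb ζ f‖ - D * ‖β‖), sq_nonneg (‖symb ζ f‖ - ‖e1‖),
        sq_nonneg (‖e1‖ - D * ‖β‖)])
    (by
      rcases hg with rfl | ⟨-, rfl⟩
      · have b1 := mul_le_mul_of_nonneg_left (abs_le.1 (dot_le ν e2)).1 (sq_nonneg ‖β‖)
        linarith [sq_nonneg (len ν * ‖β‖ ^ 2 - len e2)]
      · simp only [Pi.zero_apply, mul_zero, Finset.sum_const_zero, len_zero]
        have : 0 ≤ g * len ν ^ 2 * ‖β‖ ^ 4 := by positivity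
        linarith)
    hE2
    (by
      have b1 := alg_diag η (jf f)
      simp only [spin_jf, hν] at b1
      rw [norm_jf, hf] at b1
      simp only [hFk, Fin.sum_univ_three] at h1 h2 b1 ⊢
      linear_combination (1 / 2 : ℝ) * b1 + ‖β‖ ^ 2 * (r - g * ‖α‖ ^ 2 + g * ‖β‖ ^ 2) * h2 -
        ‖β‖ ^ 2 * g * h1)
  have P3 := p3_real (x := ‖α‖) (W := ‖symb ζ f‖) (e1 := ‖e1‖) (e2 := len e2)
    (P := (inner ℂ (symb ζ f) (β • zm - e1)).re) (V := ∑ k, V k * e2 k)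
    (S := ∑ k, (hat (jzR ζ fun c => zz f k * η c) k - (conj α * (zz f k * β)).re * F k) + E3)
    hD hl1 g0
    ((Complex.abs_re_le_norm _).trans ((norm_inner_le_norm _ _).trans
      (mul_le_mul_of_nonneg_left hzb (norm_nonneg _))))
    (by
      rcases hg with rfl | ⟨-, rfl⟩
      · have b1 := (abs_le.1 (dot_le V e2)).2
        rw [h4] at b1
        linarith [sq_nonneg (len ν * (‖α‖ * ‖β‖) - len e2)]
      · simp only [Pi.zero_apply, mul_zero, Finset.sum_const_zero, len_zero]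
        positivity)
    hE3
    (by
      have b1 := alg_pol ζ η f (jf f)
      rw [inner_jf, mul_zero, Complex.zero_re, zero_sub, hXW, inner_neg_right, inner_add_right,
        Complex.neg_re, neg_neg, Complex.add_re, inner_self_eq_norm_sq_to_K] at b1
      have b2 : ((RCLike.ofReal ‖symb ζ f‖ : ℂ) ^ 2).re = ‖symb ζ f‖ ^ 2 := by
        have : (((‖symb ζ f‖ : ℝ) : ℂ) ^ 2).re = ‖symb ζ f‖ ^ 2 := by norm_cast
        exact this
      rw [b2] at b1
      rw [Finset.sum_sub_distrib]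
      erw [b1]
      simp only [hwk, hV', hFk, Fin.sum_univ_three] at h1 h3 ⊢
      linear_combination (-(r - g * ‖α‖ ^ 2 + g * ‖β‖ ^ 2)) * h1 + g * h3)
  exact ⟨hg', P1, comb_real hD hr (Bq_nonneg hr0 g0 g1 hg') (by positivity) (by positivity)
    (by have : 0 ≤ g * ‖β‖ ^ 4 := by positivity
        linarith [sq_nonneg (nz η)]) P1 P2 P3⟩

/-- the same for a pair of eigenspinors -/
theorem est_pw' {D r g E2 E3 : ℝ} {f f' zm e1 : Sp} {ν n F e2 : Fin 3 → ℝ} {α β : ℂ}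
    {ζ η : Fin 4 → ℂ} (hD : 1 ≤ D) (hr : 5120 * D ^ 20 ≤ r) (hl1 : 1 ≤ len ν * D)
    (hl2 : len ν ≤ D) (hn : len n ≤ D) (hk1 : 1 ≤ (∑ k, n k * ν k) * D) (hk2 : ∑ k, n k * ν k ≤ D)
    (hf : ‖f‖ ^ 2 = 2 * len ν) (hf' : ‖f'‖ ^ 2 = 2 * len ν) (h1 : P3 ν f = (len ν : ℂ) • f)
    (h2 : P3 ν f' = -(len ν : ℂ) • f') (hzm : ‖zm‖ ≤ D)
    (hE : symb ζ f + symb η f' + β • zm = e1)
    (hF : ∀ k, F k = r * ν k - g / 2 * spin (α • f + β • f') k + e2 k) (g0 : 0 ≤ g) (g1 : g ≤ 1)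
    (hg : g = 1 ∨ (8 * len ν * r ≤ g * ‖α • f + β • f'‖ ^ 2 ∧ e2 = 0))
    (hE2 : |E2| ≤ D * (nz η * ‖β‖)) (hE3 : |E3| ≤ D * (nz ζ * ‖β‖)) :
    PW D r g ‖α‖ ‖β‖ (nz ζ) (nz η) ‖symb ζ f‖ (‖e1‖ ^ 2 + len e2 ^ 2)
      ((∑ k, n k * (hat (jz ζ) k - ‖α‖ ^ 2 * F k)) + r * ∑ k, n k * F k)
      (-(∑ k, (hat (jzR η fun c => (ν k : ℂ) * η c) k - (conj β * ((ν k : ℂ) * β)).re * F k) + E2))
      (∑ k, (hat (jzR ζ fun c => inner ℂ f (pau k f') * η c) k -
        (conj α * (inner ℂ f (pau k f') * β)).re * F k) + E3) := by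
  have hD0 : 0 < D := by linarith
  have hl0 : 0 < len ν := by nlinarith [len_nonneg ν]
  obtain ⟨c, hc, rfl⟩ := exists_phase hl0 hf hf' h1 h2
  have hcc : c * conj c = 1 := by rw [Complex.mul_conj', hc]; simp
  have hν : ∀ k, spin f k = 2 * ν k := fun k => by
    rw [spin, inner_eig hl0.ne' h1, hf]
    field_simp
  have e1' : β • c • jf f = (c * β) • jf f := by rw [smul_smul, mul_comm]
  have e2' : ∀ k, inner ℂ f (pau k (c • jf f)) = zz f k * c := fun k => by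
    rw [map_smul, inner_smul_right, zz, mul_comm]
  have e3 : ‖c * β‖ = ‖β‖ := by rw [norm_mul, hc, one_mul]
  have e4 : nz (fun a => c * η a) = nz η := by simp only [nz, norm_mul, hc, one_mul]
  have e5 : ∀ k, (conj β * ((ν k : ℂ) * β)).re = ν k * ‖β‖ ^ 2 := fun k => by
    rw [nsq]; simp; ring
  have key := est_pw (zm := conj c • zm) (α := α) (β := c * β) (ζ := ζ) (η := fun a => c * η a)
    (F := F) (g := g) (E2 := E2) (E3 := E3) (e1 := e1) (e2 := e2) hD hr hl1 hl2 hn hk1 hk2 hf hν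
    (by rw [norm_smul, RCLike.norm_conj, hc, one_mul]; exact hzm)
    (by
      rw [← hE, smul_smul, mul_right_comm, hcc, one_mul, symb_apply η,
        symb_apply (fun a => c * η a)]
      congr 2
      exact Finset.sum_congr rfl fun a _ => by rw [map_smul, smul_smul, mul_comm])
    (by rw [← e1']; exact hF) g0 g1 (by rw [← e1']; exact hg) (by rw [e3, e4]; exact hE2)
    (by rw [e3]; exact hE3)
  rw [jz_phase hc, e3, e4] at key
  simp only [e2', mul_assoc, hat_jzR_real, e5]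
  simpa only [mul_sub, mul_assoc] using key

end Vale.Agent.P247W.Es
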