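import Vale.Agent.P247W.Sta
import Vale.Agent.P247W.EsPw
import Vale.Agent.P247E.QSt1

/-!
# P247W: the main estimate `EST`
-/

set_option linter.all false

open scoped ContDiff Topology ENNReal ComplexConjugate
open Set MeasureTheory Filter

noncomputable section

namespace Vale.Agent.P247W

open Vale.Agent.P204.GX Vale.Agent.P204.T4 Vale.Agent.P247E
open Vale.Agent.P247E.R
open Vale.Agent.P247.H647 (Sp En sig pau hat len jz symb P3 nz jf len_nonneg len_sq abs_le_len)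

namespace Es

variable {X : Type} [MetricSpace X] [CompactSpace X] [ConnectedSpace X] [MeasurableSpace X]
  [BorelSpace X] {Q : QM X} {L : LBc Q.toCM} {H : Op Q.t1 Q.t0}

/-- the image of the Hodge operator is orthogonal to the triple -/
theorem nul_hod (hH : Q.IsHod H) (φ : Q.t1.H1) (j : Fin 3) :
    Nul Q.mu fun x => ∑ k, Q.T x j k * vec ((H.clm φ : X → Sp) x) k.succ := by
  have h3 := (cl_sum Finset.univ fun k => CL.bil (p := 2) (q := 2) (r := 1)
    (cl_const (Y := Q.t1.H1) ((bm_T Q j k).memLp 2)) ((cl_lp H.clm.continuous).lin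
      ((ContinuousLinearMap.proj k.succ).comp R.vecL)) (ContinuousLinearMap.mul ℝ ℝ)).int
  refine ⟨h3.1 φ, (Q.t1.H1_ind (isClosed_eq h3.2 (continuous_const (y := 0)))
    (fun φ t ht r' => ?_) φ :)⟩
  refine (integral_congr_ae ?_).trans (pr_dX ((Q.mem_t1 t).1 ht) (Q.w_mem j) (Q.w_closed j))
  filter_upwards [r'.clm_ae ht H] with x a4
  rw [Q.Q_w]
  refine Finset.sum_congr rfl fun k _ => ?_
  rw [← hH.curl t ht, ← a4]
  rfl

/-- the periods of the self-dual curvature -/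
theorem mean_Fa (hH : Q.IsHod H) (L : LBc Q.toCM) (φ : Q.t1.H1) (j : Fin 3) :
    Integrable (fun x => ∑ k, Q.T x j k * Q.Fa L H φ x k) Q.mu ∧
      ∫ x, ∑ k, Q.T x j k * Q.Fa L H φ x k ∂Q.mu = ar Q L j := by
  have h1 : Integrable (fun x => ∑ k, Q.T x j k * L.Fh x k) Q.mu :=
    integrable_finsetSum _ fun k _ => BM.int_mul (bm_T Q j k)
      (((bm_Fh BQ1 BQ2 L k).memLp 2).integrable one_le_two)
  have h2 := nul_hod hH φ j
  have h3 : (fun x => ∑ k, Q.T x j k * Q.Fa L H φ x k) = fun x => ∑ k, Q.T x j k * L.Fh x k +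
      ∑ k, Q.T x j k * vec ((H.clm φ : X → Sp) x) k.succ := by
    funext x; simp only [QM.Fa, mul_add, Finset.sum_add_distrib]
  rw [h3]
  refine ⟨h1.add h2.1, ?_⟩
  rw [integral_add h1 h2.1, h2.2, add_zero]
  exact integral_congr_ae (.of_forall fun x => (Q.Q_w j x (L.F x)).symm)

theorem mean_dir (hH : Q.IsHod H) (L : LBc Q.toCM) (φ : Q.t1.H1) (u : Fin 3 → ℝ) :
    Integrable (fun x => ∑ k, Q.nu u x k * Q.Fa L H φ x k) Q.mu ∧
      ∫ x, ∑ k, Q.nu u x k * Q.Fa L H φ x k ∂Q.mu = ∑ j, u j * ar Q L j := by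
  have h3 : (fun x => ∑ k, Q.nu u x k * Q.Fa L H φ x k) =
      fun x => ∑ j, u j * ∑ k, Q.T x j k * Q.Fa L H φ x k := by
    funext x
    simp only [QM.nu, Matrix.vecMul, dotProduct, Finset.mul_sum, Finset.sum_mul]
    rw [Finset.sum_comm]
    exact Finset.sum_congr rfl fun k _ => Finset.sum_congr rfl fun j _ => by ring
  have h1 := fun j => (mean_Fa hH L φ j).1.const_mul (u j)
  rw [h3, integral_finsetSum _ fun j _ => h1 j]
  exact ⟨integrable_finsetSum _ fun j _ => h1 j, Finset.sum_congr rfl fun j _ => by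
    rw [integral_const_mul, (mean_Fa hH L φ j).2]⟩

theorem nu_dv (Q : QM X) (u v : Fin 3 → ℝ) (x : X) :
    ∑ k, Q.nu u x k * dv Q v x k = ∑ j, u j * v j := by
  change Matrix.vecMul u (Q.T x) ⬝ᵥ (Q.T x)⁻¹.mulVec v = u ⬝ᵥ v
  rw [← Matrix.dotProduct_mulVec, Matrix.mulVec_mulVec, Matrix.mul_nonsing_inv _ (Q.det_T x).isUnit,
    Matrix.one_mulVec]

theorem dv_smul (Q : QM X) (t : ℝ) (u : Fin 3 → ℝ) (x : X) (k : Fin 3) :
    dv Q (t • u) x k = t * dv Q u x k := by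
  simp [dv, Matrix.mulVec_smul]

theorem len_nu_le {C : ℝ} {x : X} (hC : ∀ j k, |Q.T x j k| ≤ C) {u : Fin 3 → ℝ} (hu : len u = 1) :
    len (Q.nu u x) ≤ 6 * C := by
  have h0 : 0 ≤ C := (abs_nonneg _).trans (hC 0 0)
  have h1 : ∀ k, Q.nu u x k ^ 2 ≤ (3 * C) ^ 2 := fun k => by
    rw [← sq_abs]
    change |∑ j, u j * Q.T x j k| ^ 2 ≤ _
    refine pow_le_pow_left₀ (abs_nonneg _) ((Finset.abs_sum_le_sum_abs _ _).trans
      ((Finset.sum_le_sum (g := fun _ => C) fun j _ => ?_).trans ?_)) 2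
    swap
    · simp
    rw [abs_mul]
    exact (mul_le_mul ((abs_le_len u j).trans hu.le) (hC j k) (abs_nonneg _) zero_le_one).trans
      (one_mul C).le
  refine Real.sqrt_le_iff.2 ⟨by positivity, ?_⟩
  rw [Fin.sum_univ_three]
  nlinarith [h1 0, h1 1, h1 2]

/-- the Dirac equation in the eigenspinors -/
theorem dirac_eig {B : ℝ} {Z : X → En} {u : Fin 3 → ℝ} (s : EigD Q B Z u) (x : X) {ψ : Sp}
    {P : Fin 4 → Sp} (h : ∑ d, sig d (P d) + Z x ψ = 0) :
    symb (fun c => inner ℂ (s.gp x) (P c) + inner ℂ (df Q.toCM s.gp x c) ψ) (s.fp x) +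
      symb (fun c => inner ℂ (s.gm x) (P c) + inner ℂ (df Q.toCM s.gm x c) ψ) (s.fm x) +
      inner ℂ (s.gm x) ψ • ∑ d, sig d (df Q.toCM s.fm x d) = 0 := by
  have e1 : ∀ d, P d = (inner ℂ (s.gp x) (P d) + inner ℂ (df Q.toCM s.gp x d) ψ) • s.fp x +
      (inner ℂ (s.gm x) (P d) + inner ℂ (df Q.toCM s.gm x d) ψ) • s.fm x +
      inner ℂ (s.gm x) ψ • df Q.toCM s.fm x d + inner ℂ (s.gp x) ψ • df Q.toCM s.fp x d := by
    intro d
    have a1 := s.dec x (P d)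
    have a2 := s.ddec x ψ d
    rw [add_smul, add_smul]
    linear_combination (norm := module) a1 - a2
  have e2 : Z x ψ = inner ℂ (s.gp x) ψ • Z x (s.fp x) := by
    conv_lhs => rw [s.dec x ψ]
    rw [map_add, map_smul, map_smul, s.Z_fm, smul_zero, add_zero]
  have e3 : inner ℂ (s.gp x) ψ • (∑ c, sig c (df Q.toCM s.fp x c) + Z x (s.fp x)) = 0 := by
    rw [s.dir_fp, smul_zero]
  rw [e2, Finset.sum_congr rfl fun d _ => congrArg (sig d) (e1 d)] at h
  rw [P247.H647.symb_apply, P247.H647.symb_apply]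
  simp only [map_add, map_smul, Finset.sum_add_distrib, smul_add, Finset.smul_sum] at h e3 ⊢
  linear_combination (norm := abel1) h - e3

theorem dfct_eq {ν : Fin 3 → ℝ} {f : Sp} (hl : 0 < len ν) (hf : ‖f‖ ^ 2 = 2 * len ν)
    (h1 : P3 ν f = (len ν : ℂ) • f) (ζ : Fin 4 → ℂ) : dfct ν ζ = ‖symb ζ f‖ ^ 2 / 2 := by
  have hν : ∀ k, spin f k = 2 * ν k := fun k => by
    rw [spin, P247.H647.inner_eig hl.ne' h1, hf]
    field_simp
  have := alg_diag ζ f
  simp only [hν, hf, Fin.sum_univ_three] at this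
  simp only [dfct, Fin.sum_univ_three]
  linarith

theorem rem_eq {ν : Fin 3 → ℝ} {f f' : Sp} (hl : 0 < len ν) (hf : ‖f‖ ^ 2 = 2 * len ν)
    (hf' : ‖f'‖ ^ 2 = 2 * len ν) (h1 : P3 ν f = (len ν : ℂ) • f)
    (h2 : P3 ν f' = -(len ν : ℂ) • f') (r : ℝ) (α β : ℂ) :
    ∑ k, (r * ν k - 1 / 2 * spin (α • f + β • f') k - (r - ‖α‖ ^ 2) * ν k) ^ 2 =
      len ν ^ 2 * (‖β‖ ^ 4 + 4 * (‖α‖ ^ 2 * ‖β‖ ^ 2)) := by
  obtain ⟨c, hc, rfl⟩ := exists_phase hl hf hf' h1 h2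
  have hν : ∀ k, spin f k = 2 * ν k := fun k => by
    rw [spin, P247.H647.inner_eig hl.ne' h1, hf]
    field_simp
  have e3 : ‖β * c‖ = ‖β‖ := by rw [norm_mul, hc, mul_one]
  have e4 : ∀ k, conj α * (zz f k * (β * c)) = conj α * (β * c) * zz f k := fun k => by ring
  have a1 := spin_zz f (conj α * (β * c))
  have a2 := zz_sq f (conj α * (β * c))
  have a3 := len_sq ν
  rw [hf, norm_mul, RCLike.norm_conj, e3] at a2
  simp only [smul_smul, spin_comb, e3, e4, hν, Fin.sum_univ_three] at a1 a2 a3 ⊢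
  linear_combination a2 - ‖β‖ ^ 2 * a1 - ‖β‖ ^ 4 * a3

end Es

open Es

theorem est : EST_statement := by
  intro X _ _ _ _ _ Q L H B Z hH hZ
  obtain ⟨C, hC1, hC⟩ := exists_T_le Q
  have hB := hZ.pos
  obtain ⟨D, hD⟩ : ∃ D : ℝ, D = 1 + 4 * B + 72 * C * B + 6 * C := ⟨_, rfl⟩
  have hCB : 0 ≤ 72 * C * B := by positivity
  have hD1 : 1 ≤ D := by rw [hD]; linarith
  have hD0 : 0 < D := by linarith
  obtain ⟨K, hK⟩ : ∃ K : ℝ, K = 2048 * D ^ 16 * len (ar Q L) := ⟨_, rfl⟩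
  have hA := len_nonneg (ar Q L)
  have hK0 : 0 ≤ K := by rw [hK]; positivity
  refine ⟨5120 * D ^ 20, 2 * D ^ 2 * len (ar Q L) + 20 * D ^ 10 * K, fun w φ c hw hr => ?_⟩
  have hD20 : 1 ≤ D ^ 20 := one_le_pow₀ hD1
  have hr1 : 1 ≤ len c := by linarith
  have hr0 : 0 < len c := by linarith
  obtain ⟨s⟩ := hZ.eig c hr1
  set u : Fin 3 → ℝ := (len c)⁻¹ • c with hu
  have hcu : c = len c • u := by rw [hu, smul_smul, mul_inv_cancel₀ hr0.ne', one_smul]
  have hu1 : len u = 1 := by rw [hu, len_smul' (inv_pos.2 hr0).le, inv_mul_cancel₀ hr0.ne']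
  generalize len c = r at *
  have n1 := nul_dir ST1 hH w φ s.gp_sm u
  have n0 := mean_dir hH L φ u
  have n2 := nul_pol BQ1 ST1 hH w φ s.gm_sm s.gm_sm s.m_sm s.m_eq
  have n3 := nul_pol BQ1 ST1 hH w φ s.gp_sm s.gm_sm s.h_sm s.h_eq
  have t1 : ∑ j, u j * ar Q L j ≤ len (ar Q L) := (R.dot_le _ _).trans (by rw [hu1, one_mul])
  generalize hf1 : (fun x => _ : X → ℝ) = f1 at n1
  generalize hf0 : (fun x => _ : X → ℝ) = f0 at n0
  generalize hf2 : (fun x => _ : X → ℝ) = f2 at n2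
  generalize hf3 : (fun x => _ : X → ℝ) = f3 at n3
  have hl0 : ∀ x, 0 < len (dv Q u x) := fun x => (inv_pos.2 hB).trans_le (s.lam_ge x)
  have hl2 : ∀ x, len (dv Q u x) ≤ D := fun x => (s.lam_le x).trans (by rw [hD]; linarith)
  have key : ∀ᵐ x ∂Q.mu, PW D r 1 ‖inner ℂ (s.gp x) (ps w x)‖ ‖inner ℂ (s.gm x) (ps w x)‖
      (nz (zf w φ s.gp x)) (nz (zf w φ s.gm x)) ‖symb (zf w φ s.gp x) (s.fp x)‖
      (‖(0 : Sp)‖ ^ 2 + len 0 ^ 2) (f1 x + r * f0 x) (-f2 x) (f3 x) := by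
    filter_upwards [hw.dirac, hw.curv] with x hx1 hx2
    have hψ := s.dec x (ps w x)
    have k1 : ∑ k, Q.nu u x k * dv Q u x k = 1 := by
      rw [nu_dv, ← one_pow 2, ← hu1, len_sq]; simp only [sq]
    have k2 : ∀ {h : Fin 3 → X → ℂ} (f : X → Sp), (∀ j x c, ‖df Q.toCM (h j) x c‖ ≤ B) →
        |er w φ f s.gm h x| ≤ D * (nz (zf w φ f x) * ‖inner ℂ (s.gm x) (ps w x)‖) :=
      fun f hh => (er_le w φ f s.gm (hC x) fun j c => hh j x c).trans
        (mul_le_mul_of_nonneg_right (by rw [hD]; linarith)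
          (mul_nonneg (P247.H647.nz_nonneg _) (norm_nonneg _)))
    rw [← hf1, ← hf0, ← hf2, ← hf3]
    refine est_pw' (zm := ∑ d, sig d (df Q.toCM s.fm x d)) hD1 hr ?_ (hl2 x)
      ((len_nu_le (hC x) hu1).trans (by rw [hD]; linarith)) (by rw [k1]; linarith)
      (by rw [k1]; exact hD1) (s.fp_norm x) (s.fm_norm x) (s.fp_eig x) (s.fm_eig x) ?_
      (Es.dirac_eig s x hx1) (fun k => ?_) zero_le_one le_rfl (.inl rfl) (k2 _ s.dm_le)
      (k2 _ s.dh_le)
    · have := mul_le_mul (s.lam_ge x) (by rw [hD]; linarith : B ≤ D) hB.le (hl0 x).le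
      rwa [inv_mul_cancel₀ hB.ne'] at this
    · refine (norm_sum_le _ _).trans ((Finset.sum_le_sum fun d _ =>
        (P247.H647.norm_sig d _).le.trans (s.dfm_le x d)).trans ?_)
      simp only [Finset.sum_const, Finset.card_univ, Fintype.card_fin, nsmul_eq_mul]
      rw [hD]; push_cast; linarith
    · rw [← hψ, hx2 k]
      conv_lhs => rw [hcu, dv_smul]
      simp
  have i1 : Integrable (fun x => f1 x + r * f0 x) Q.mu := n1.1.add (n0.1.const_mul r)
  have j1 : ∫ x, (f1 x + r * f0 x) ∂Q.mu ≤ r * len (ar Q L) := by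
    rw [integral_add n1.1 (n0.1.const_mul r), n1.2, integral_const_mul, n0.2, zero_add]
    exact mul_le_mul_of_nonneg_left t1 hr0.le
  obtain ⟨G, hG⟩ : ∃ G : X → ℝ, G = fun x => 2048 * D ^ 16 / r * (f1 x + r * f0 x) +
    (32 * D ^ 6 * f3 x - 4 * D ^ 2 * f2 x) := ⟨_, rfl⟩
  have n4 := (n3.cmul (32 * D ^ 6)).sub (n2.cmul (4 * D ^ 2))
  have i2 : Integrable G Q.mu := hG ▸ (i1.const_mul _).add n4.1
  have j2 : ∫ x, G x ∂Q.mu ≤ K := by
    simp only [hG]
    rw [integral_add (i1.const_mul _) n4.1, n4.2, add_zero, integral_const_mul]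
    refine (mul_le_mul_of_nonneg_left j1 (by positivity)).trans (le_of_eq ?_)
    rw [hK]; field_simp
  have k2 : ∀ᵐ x ∂Q.mu, ‖inner ℂ (s.gm x) (ps w x)‖ ^ 4 + (‖symb (zf w φ s.gp x) (s.fp x)‖ ^ 2 +
      ‖inner ℂ (s.gp x) (ps w x)‖ ^ 2 * ‖inner ℂ (s.gm x) (ps w x)‖ ^ 2) ≤ G x := by
    filter_upwards [key] with x hx
    have a1 := hx.p2
    rw [norm_zero, len_zero] at a1
    refine le_of_mul_le_mul_left ?_ hr0
    have a2 : r * G x = 2048 * D ^ 16 * (f1 x + r * f0 x) +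
        r * (32 * D ^ 6 * f3 x - 4 * D ^ 2 * f2 x) := by rw [hG]; field_simp
    have a3 : 0 ≤ r * (nz (zf w φ s.gm x) ^ 2 + r * ‖inner ℂ (s.gm x) (ps w x)‖ ^ 2) := by
      positivity
    linarith
  have i3 : Integrable (fun x => 2 * D ^ 2 * (f1 x + r * f0 x) + 20 * D ^ 10 * G x) Q.mu :=
    (i1.const_mul _).add (i2.const_mul _)
  have j3 : ∫ x, (2 * D ^ 2 * (f1 x + r * f0 x) + 20 * D ^ 10 * G x) ∂Q.mu ≤
      (2 * D ^ 2 * len (ar Q L) + 20 * D ^ 10 * K) * r := by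
    rw [integral_add (i1.const_mul _) (i2.const_mul _), integral_const_mul, integral_const_mul]
    have a1 := mul_le_mul_of_nonneg_left j1 (by positivity : 0 ≤ 2 * D ^ 2)
    have a2 := mul_le_mul_of_nonneg_left (j2.trans (le_mul_of_one_le_right hK0 hr1))
      (by positivity : 0 ≤ 20 * D ^ 10)
    linarith
  have k3 : ∀ᵐ x ∂Q.mu, nz (zf w φ s.gp x) ^ 2 + (r - ‖inner ℂ (s.gp x) (ps w x)‖ ^ 2) ^ 2 ≤
      2 * D ^ 2 * (f1 x + r * f0 x) + 20 * D ^ 10 * G x := by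
    filter_upwards [key, k2] with x hx hx2
    have a1 := hx.p1
    rw [norm_zero, len_zero, Bq_one] at a1
    have a2 := mul_le_mul_of_nonneg_left ((le_add_of_nonneg_left (by positivity)).trans hx2)
      (by positivity : 0 ≤ 20 * D ^ 10)
    have a3 : 0 ≤ ‖inner ℂ (s.gp x) (ps w x)‖ ^ 2 * ‖inner ℂ (s.gm x) (ps w x)‖ ^ 2 +
      r * ‖inner ℂ (s.gm x) (ps w x)‖ ^ 2 := by positivity
    linarith
  have hD2 : D ^ 2 ≤ D ^ 10 := pow_le_pow_right₀ hD1 (by norm_num)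
  have hD3 : 1 ≤ D ^ 2 := one_le_pow₀ hD1
  have j4 : 4 * D ^ 2 * K ≤ 2 * D ^ 2 * len (ar Q L) + 20 * D ^ 10 * K := by
    have : 0 ≤ D ^ 2 * len (ar Q L) := by positivity
    nlinarith
  refine ⟨s.gp, s.gp_sm, (integral_mono_of_nonneg (.of_forall fun x => by positivity) i3
    (k3.mono fun x hx => (le_add_of_nonneg_right (sq_nonneg _)).trans hx)).trans j3,
    (integral_mono_of_nonneg (.of_forall fun x => by positivity) i3
    (k3.mono fun x hx => (le_add_of_nonneg_left (sq_nonneg _)).trans hx)).trans j3, ?_, ?_⟩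
  · simp only [fun x => dfct_eq (hl0 x) (s.fp_norm x) (s.fp_eig x)]
    refine (integral_mono_of_nonneg (.of_forall fun x => by positivity) i2
      (k2.mono fun x hx => le_trans ?_ hx)).trans (j2.trans (by nlinarith))
    have : 0 ≤ ‖inner ℂ (s.gm x) (ps w x)‖ ^ 4 +
      ‖inner ℂ (s.gp x) (ps w x)‖ ^ 2 * ‖inner ℂ (s.gm x) (ps w x)‖ ^ 2 := by positivity
    linarith [sq_nonneg ‖symb (zf w φ s.gp x) (s.fp x)‖]
  · refine (integral_mono_of_nonneg (.of_forall fun x => by positivity) (i2.const_mul (4 * D ^ 2))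
      ?_).trans ?_
    · filter_upwards [k2, hw.curv] with x hx hx2
      have a1 := rem_eq (hl0 x) (s.fp_norm x) (s.fm_norm x) (s.fp_eig x) (s.fm_eig x) r
        (inner ℂ (s.gp x) (ps w x)) (inner ℂ (s.gm x) (ps w x))
      rw [← s.dec x (ps w x)] at a1
      have a2 : ∀ k, Q.Fa L H φ x k = r * dv Q u x k - 1 / 2 * spin (ps w x) k := fun k => by
        rw [hx2 k]
        conv_lhs => rw [hcu, dv_smul]
      simp only [a2]
      rw [a1]
      refine (mul_le_mul_of_nonneg_right (pow_le_pow_left₀ (hl0 x).le (hl2 x) 2)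
        (by positivity)).trans ?_
      have a3 := mul_le_mul_of_nonneg_left hx (by positivity : 0 ≤ 4 * D ^ 2)
      have a4 : 0 ≤ D ^ 2 * ‖inner ℂ (s.gm x) (ps w x)‖ ^ 4 := by positivity
      have a5 : 0 ≤ D ^ 2 * ‖symb (zf w φ s.gp x) (s.fp x)‖ ^ 2 := by positivity
      linarith
    · rw [integral_const_mul]
      exact (mul_le_mul_of_nonneg_left j2 (by positivity)).trans j4

end Vale.Agent.P247W
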