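import Vale.Agent.P247W.ExiB
import Vale.Agent.P247W.Sta2

/-!
# P247W: the rows `EXD1` and `EXD2`
-/

set_option linter.all false

namespace Vale.Agent.P247W

theorem exd1 : EXD1_statement := Ex.exd1

theorem exd2 : EXD2_statement := by
  intro hB hQ X _ _ _ _ _ Q L H G B Z hH hG hZ C hind hne
  refine (Ex.exd2 hB hH hG hZ hind C).resolve_right fun ⟨A, c, h1, h2, h3, h4⟩ => ?_
  exact hne (hQ X Q L C A c h1 h2 h3 h4 hind)

end Vale.Agent.P247W
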