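import Vale.Agent.P247W.Ff
import Vale.Agent.P247W.Sta

/-!
# P247W: `FF`
-/

set_option linter.all false

open scoped ContDiff Topology ENNReal ComplexConjugate
open Set MeasureTheory Filter

noncomputable section

namespace Vale.Agent.P247W

open Vale.Agent.P204.GX Vale.Agent.P204.T4 Vale.Agent.P247E Vale.Agent.P247E.Solv
open Vale.Agent.P247.H647 (Sp hat jz nz)

theorem nz_sq (ζ : Fin 4 → ℂ) : nz ζ ^ 2 = ∑ c, ‖ζ c‖ ^ 2 :=
  Real.sq_sqrt (Finset.sum_nonneg fun _ _ => sq_nonneg _)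

theorem Q_le_sum (A u : L2) {K : ℝ} (h : ‖u‖ ≤ K) : |P204.T4.Q A u| ≤ K * ∑ i, |A i| := by
  have k : ∀ i j, |A i * u j| ≤ K * |A i| := fun i j => by
    rw [abs_mul, mul_comm]
    exact mul_le_mul_of_nonneg_right ((norm_le_pi_norm u j).trans h) (abs_nonneg _)
  have a0 := abs_le.1 (k 0 5)
  have a1 := abs_le.1 (k 1 4)
  have a2 := abs_le.1 (k 2 3)
  have a3 := abs_le.1 (k 3 2)
  have a4 := abs_le.1 (k 4 1)
  have a5 := abs_le.1 (k 5 0)
  rw [P204.T4.Q, Fin.sum_univ_six, abs_le]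
  constructor <;> linarith [a0.1, a0.2, a1.1, a1.2, a2.1, a2.2, a3.1, a3.2, a4.1, a4.2, a5.1, a5.2]

theorem im_le (z w : ℂ) : |(conj z * w).im| ≤ (‖z‖ ^ 2 + ‖w‖ ^ 2) / 2 := by
  refine (Complex.abs_im_le_norm _).trans ?_
  rw [norm_mul, RCLike.norm_conj]
  nlinarith [sq_nonneg (‖z‖ - ‖w‖)]

theorem sum_jz_le (ζ : Fin 4 → ℂ) : ∑ i, |ofEnt (jz ζ) i| ≤ 3 * nz ζ ^ 2 := by
  have k : ∀ a c, |jz ζ a c| ≤ ‖ζ a‖ ^ 2 + ‖ζ c‖ ^ 2 := fun a c => by
    rw [jz, abs_mul, abs_two]; linarith [im_le (ζ a) (ζ c)]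
  rw [nz_sq, Fin.sum_univ_six, Fin.sum_univ_four]
  have := k 0 1; have := k 0 2; have := k 0 3; have := k 1 2; have := k 1 3; have := k 2 3
  change |jz ζ 0 1| + |jz ζ 0 2| + |jz ζ 0 3| + |jz ζ 1 2| + |jz ζ 1 3| + |jz ζ 2 3| ≤ _
  linarith

theorem sum_mul_le {r : ℝ} (r0 : 0 < r) (t : ℝ) (F : L2) :
    ∑ i, |(t • F) i| ≤ 6 * (r * t ^ 2) + 1 / r * ∑ i, F i ^ 2 := by
  have k : ∀ i, |(t • F) i| ≤ r * t ^ 2 + 1 / r * F i ^ 2 := fun i => by
    rw [Pi.smul_apply, smul_eq_mul, abs_mul, ← sq_abs t, ← sq_abs (F i), ← sub_nonneg]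
    have : r * |t| ^ 2 + 1 / r * |F i| ^ 2 - |t| * |F i| =
        ((r * |t| - |F i|) ^ 2 + r * (|t| * |F i|)) / r := by field_simp; ring
    rw [this]; positivity
  refine (Finset.sum_le_sum fun i _ => k i).trans (le_of_eq ?_)
  rw [Finset.sum_add_distrib, ← Finset.mul_sum, ← Finset.mul_sum]
  simp; ring

variable {X : Type} [MetricSpace X] [CompactSpace X] [MeasurableSpace X] [BorelSpace X]

theorem cur_mem {M : CM X} (L : LBc M) {a : X → V4} (ha : M.Sm1 a) : cur L a ∈ M.Om :=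
  M.Om.add_mem L.F_mem (M.dX_mem_Om ha)

theorem bm_cva {M : CM X} {L : LBc M} {a : X → V4} {s : X → ℂ} (ha : M.Sm1 a) (hs : L.Sm s) :
    BM (L.cva a s) := by
  have c : Continuous fun p : ((ℂ × ((ℂ × ℂ) × (ℂ × ℂ))) × V4) => fun c =>
      ![p.1.2.1.1, p.1.2.1.2, p.1.2.2.1, p.1.2.2.2] c - Complex.I * (p.2 c : ℂ) * p.1.1 :=
    continuous_pi fun c => by fin_cases c <;> simp <;> fun_prop
  convert ((hs.bm.prod (((hs.bm_cv 0).prod (hs.bm_cv 1)).prod
    ((hs.bm_cv 2).prod (hs.bm_cv 3)))).prod (bm_Sm1 ha)).cont c using 2 with x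
  funext c
  fin_cases c <;> rfl

/-- the energy density -/
def Base.en {M : CM X} {L : LBc M} (b : Base L) (n : ℕ) (x : X) : ℝ :=
  nz (L.cva (b.a n) (b.s n) x) ^ 2 + b.r n * (1 - ‖b.s n x‖ ^ 2) ^ 2 +
    (1 / b.r n) * ∑ i, cur L (b.a n) x i ^ 2

theorem Base.int_en {M : CM X} {L : LBc M} (b : Base L) (n : ℕ) : Integrable (b.en n) M.mu := by
  have c : Continuous fun p : (((Fin 4 → ℂ) × ℂ) × L2) =>
      ∑ c, ‖p.1.1 c‖ ^ 2 + b.r n * (1 - ‖p.1.2‖ ^ 2) ^ 2 + (1 / b.r n) * ∑ i, p.2 i ^ 2 := by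
    fun_prop
  unfold Base.en
  simp only [nz_sq]
  exact memLp_one_iff_integrable.1 (((((bm_cva (b.a_sm n) (b.s_sm n)).prod (b.s_sm n).bm).prod
    (bm_Om (cur_mem L (b.a_sm n)))).cont c).memLp 1)

theorem Base.en_ge {M : CM X} {L : LBc M} (b : Base L) (n : ℕ) (x : X) :
    0 ≤ nz (L.cva (b.a n) (b.s n) x) ^ 2 ∧ 0 ≤ b.r n * (1 - ‖b.s n x‖ ^ 2) ^ 2 ∧
      0 ≤ (1 / b.r n) * ∑ i, cur L (b.a n) x i ^ 2 := by
  have := b.r_pos n
  exact ⟨by positivity, by positivity, by positivity⟩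

/-- integration by parts against a self-dual form -/
theorem pr_sd_le {Q : QM X} {h : X → Fin 3 → ℝ} (hh : SmF Q.toCM h) : ∃ K : ℝ, 0 ≤ K ∧
    ∀ β, Q.Sm1 β → ‖Q.pr (Q.dX β) (sd h)‖ ≤ K * ∫ x, ∑ c, |β x c| ∂Q.mu := by
  have hH := Hx.isHod Q
  have m : (fun x => spn (Fin.cons 0 (h x))) ∈ Q.t0.Sm := Hx.triv_sm.2 fun a =>
    spnL.contDiff.comp (contDiff_pi.2 fun c => Fin.cases contDiff_const (contDiff_pi.1 (hh a)) c)
  obtain ⟨K, hK⟩ := ((Q.t1.bm ((Hx.H Q).adj.app_mem m)).lin vecL).2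
  refine ⟨|K|, abs_nonneg _, fun β hβ => ?_⟩
  have k := key hH (φ := fun x => spn (β x)) ((Q.mem_t1 _).2 (by simpa only [vec_spn] using hβ)) m
  simp only [vec_spn, Fin.cons_zero, Fin.cons_succ, df, fderiv_fun_const, Pi.zero_apply,
    ContinuousLinearMap.zero_apply, zero_mul, Finset.sum_const_zero, integral_zero, neg_zero,
    zero_add, Hx.inner_vec] at k
  rw [CM.pr, ← k, ← integral_const_mul]
  have c : Continuous fun p : V4 => ∑ c, |p c| := by fun_prop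
  refine norm_integral_le_of_norm_le ((memLp_one_iff_integrable.1
    (((bm_Sm1 hβ).cont c).memLp 1)).const_mul _) (.of_forall fun x => ?_)
  rw [Finset.mul_sum]
  refine norm_sum_le_of_le _ fun c _ => ?_
  rw [norm_mul, mul_comm, ← vecL_apply]
  exact mul_le_mul_of_nonneg_right
    ((norm_le_pi_norm _ c).trans ((hK x).trans (le_abs_self _))) (norm_nonneg _)

/-- the curvatures are bounded in the sense of distributions -/
theorem Base.pr_bd {Q : QM X} {L : LBc Q.toCM} (b : Base L) (hb : b.En) {h : X → Fin 3 → ℝ}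
    (hh : SmF Q.toCM h) : ∃ K, ∀ n, 1 ≤ b.r n → ‖Q.pr (cur L (b.a n)) (sd h)‖ ≤ K := by
  obtain ⟨C, hC⟩ := hb
  obtain ⟨K, K0, hK⟩ := pr_sd_le hh
  have m := sd_mem hh
  obtain ⟨B, hB⟩ := (bm_Om m).2
  have B0 : ∀ x, 0 ≤ B := fun x => (norm_nonneg _).trans (hB x)
  refine ⟨|B| * 6 * C + K * (3 * Q.mu.real univ + C), fun n hn => ?_⟩
  obtain ⟨j1, j2⟩ := L.jac (b.a_sm n) (b.s_sm n)
  have m1 := cur_mem L (b.a_sm n)
  have m2 := Q.dX_mem_Om j1
  have k1 := hK _ j1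
  have k2 : ‖∫ x, (P204.T4.Q (cur L (b.a n) x) (sd h x) + P204.T4.Q (Q.dX (fun x c =>
      (conj (b.s n x) * L.cva (b.a n) (b.s n) x c).im) x) (sd h x)) ∂Q.mu‖ ≤
      ∫ x, |B| * 6 * b.en n x ∂Q.mu :=
    norm_integral_le_of_norm_le ((b.int_en n).const_mul _) (.of_forall fun x => by
      obtain ⟨e1, e2, e3⟩ := b.en_ge n x
      have a1 := Q_le_sum ((1 - ‖b.s n x‖ ^ 2) • cur L (b.a n) x) _ ((hB x).trans (le_abs_self _))
      have a2 := Q_le_sum (ofEnt (jz (L.cva (b.a n) (b.s n) x))) _ ((hB x).trans (le_abs_self _))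
      have a3 := mul_le_mul_of_nonneg_left (sum_mul_le (b.r_pos n) (1 - ‖b.s n x‖ ^ 2)
        (cur L (b.a n) x)) (abs_nonneg B)
      have a4 := mul_le_mul_of_nonneg_left (sum_jz_le (L.cva (b.a n) (b.s n) x)) (abs_nonneg B)
      rw [j2, ← Q_add_left, show cur L (b.a n) x + (ofEnt (jz (L.cva (b.a n) (b.s n) x)) -
        ‖b.s n x‖ ^ 2 • (L.F x + Q.dX (b.a n) x)) = (1 - ‖b.s n x‖ ^ 2) • cur L (b.a n) x +
        ofEnt (jz (L.cva (b.a n) (b.s n) x)) by rw [sub_smul, one_smul, cur]; abel, Q_add_left,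
        Base.en]
      refine (abs_add_le _ _).trans ?_
      nlinarith [mul_nonneg (abs_nonneg B) e1, mul_nonneg (abs_nonneg B) e3])
  have k3 : ∫ x, ∑ c, |(conj (b.s n x) * L.cva (b.a n) (b.s n) x c).im| ∂Q.mu ≤
      ∫ x, (3 + b.en n x) ∂Q.mu :=
    integral_mono_of_nonneg (.of_forall fun x => Finset.sum_nonneg fun _ _ => abs_nonneg _)
      ((integrable_const _).add (b.int_en n)) (.of_forall fun x => by
        obtain ⟨e1, e2, e3⟩ := b.en_ge n x
        refine (Finset.sum_le_sum fun c _ => im_le _ _).trans ?_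
        have a1 := mul_le_mul_of_nonneg_right hn (sq_nonneg (1 - ‖b.s n x‖ ^ 2))
        simp only [Base.en, nz_sq, Fin.sum_univ_four] at e1 ⊢
        nlinarith [sq_nonneg (2 - ‖b.s n x‖ ^ 2)])
  rw [integral_add (integrable_const _) (b.int_en n), integral_const, smul_eq_mul] at k3
  rw [integral_add (intQ m1 m) (intQ m2 m), integral_const_mul] at k2
  have k4 : ∫ x, b.en n x ∂Q.mu ≤ C := hC n
  have k5 := mul_le_mul_of_nonneg_left k4 (show 0 ≤ |B| * 6 by positivity)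
  have k6 := mul_le_mul_of_nonneg_left (k3.trans (add_le_add_right k4 _)) K0
  have k7 := norm_le_add_norm_add (Q.pr (cur L (b.a n)) (sd h)) (Q.pr (Q.dX fun x c =>
    (conj (b.s n x) * L.cva (b.a n) (b.s n) x c).im) (sd h))
  unfold CM.pr at k1 k7 ⊢
  linarith

theorem ff : FF_statement := by
  intro X _ _ _ _ _ Q L b hb χ hχ
  obtain ⟨C, hC⟩ := id hb
  let t : ℕ → ℝ := fun n => (√(b.r n))⁻¹
  have t0 : Tendsto t atTop (𝓝 0) := (Real.tendsto_sqrt_atTop.comp b.r_lim).inv_tendsto_atTop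
  have tt : ∀ n, t n * t n = 1 / b.r n := fun n => by
    rw [← mul_inv, Real.mul_self_sqrt (b.r_pos n).le, one_div]
  have s1 : ∀ n, Q.Sm1 (t n • b.a n) := fun n a => by
    rw [Q.cf1_smul]; exact (b.a_sm n a).const_smul (t n)
  have e1 : ∀ n x, Q.dX (t n • b.a n) x = t n • cur L (b.a n) x - t n • L.F x := fun n x => by
    rw [Q.dX_smul _ (b.a_sm n), cur, smul_add, add_sub_cancel_left]; rfl
  have mF := L.F_mem
  have mc := fun n => cur_mem L (b.a_sm n)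
  have md := fun n => Q.dX_mem_Om (s1 n)
  have iF := int_sq (M := Q.toCM) (bm_Om mF)
  obtain ⟨T, hT⟩ := (t0.mul t0).bddAbove_range
  have hb' : ∀ n, ∫ x, ∑ i, Q.dX (t n • b.a n) x i ^ 2 ∂Q.mu ≤
      2 * C + 2 * (T * ∫ x, ∑ i, L.F x i ^ 2 ∂Q.mu) := fun n => by
    have k : ∫ x, ∑ i, Q.dX (t n • b.a n) x i ^ 2 ∂Q.mu ≤
        ∫ x, (2 * b.en n x + 2 * (T * ∑ i, L.F x i ^ 2)) ∂Q.mu :=
      integral_mono (int_sq (bm_Om (md n))) (((b.int_en n).const_mul _).add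
        ((iF.const_mul _).const_mul _)) fun x => by
          obtain ⟨a1, a2, -⟩ := b.en_ge n x
          have a3 : ∑ i, Q.dX (t n • b.a n) x i ^ 2 ≤ ∑ i, (2 * (t n * t n *
              cur L (b.a n) x i ^ 2) + 2 * (t n * t n * L.F x i ^ 2)) :=
            Finset.sum_le_sum fun i _ => by
              rw [e1, Pi.sub_apply, Pi.smul_apply, Pi.smul_apply, smul_eq_mul, smul_eq_mul]
              nlinarith [sq_nonneg (t n * cur L (b.a n) x i + t n * L.F x i)]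
          have a4 := mul_le_mul_of_nonneg_right (hT (mem_range_self n))
            (Finset.sum_nonneg fun i _ => sq_nonneg (L.F x i) : 0 ≤ ∑ i, L.F x i ^ 2)
          simp only [Finset.sum_add_distrib, ← Finset.mul_sum] at a3
          simp only [Base.en, ← tt] at a2 ⊢
          linarith
    rw [integral_add ((b.int_en n).const_mul _) ((iF.const_mul _).const_mul _), integral_const_mul,
      integral_const_mul, integral_const_mul] at k
    have : ∫ x, b.en n x ∂Q.mu ≤ C := hC n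
    linarith
  have h1 := ff_cont s1 hb' (fun h hh => by
    obtain ⟨K, hK⟩ := b.pr_bd hb hh
    have := (bdd_le_mul_tendsto_zero' (f := fun n => Q.pr (cur L (b.a n)) (sd h)) K
      ((b.r_lim.eventually_ge_atTop 1).mono hK) t0).sub (t0.const_mul (Q.pr L.F (sd h)))
    rw [mul_zero, sub_zero] at this
    refine this.congr fun n => ?_
    simp only [CM.pr, e1, Q_sub_left, Q_smul_left]
    rw [integral_sub ((intQ (mc n) (sd_mem hh)).const_mul _) ((intQ mF (sd_mem hh)).const_mul _),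
      integral_const_mul, integral_const_mul, mul_comm, mul_comm _ (t n)]) hχ
  obtain ⟨B, hB⟩ := isCompact_univ.exists_bound_of_continuousOn hχ.continuousOn
  have B0 : 0 ≤ |B| := abs_nonneg _
  have h2 := bdd_le_mul_tendsto_zero'
    (f := fun n => ∫ x, χ x * P204.T4.Q (L.F x) (Q.dX (t n • b.a n) x) ∂Q.mu) _
    (.of_forall fun n => (norm_cQ (fun x => (hB x trivial).trans (le_abs_self B)) mF (md n)).trans
      (mul_le_mul_of_nonneg_left (div_le_div_of_nonneg_right (add_le_add_right (hb' n) _)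
        zero_le_two) B0)) t0
  have h3 := (h1.add (h2.const_mul 2)).add
    ((t0.mul t0).const_mul (∫ x, χ x * P204.T4.Q (L.F x) (L.F x) ∂Q.mu))
  simp only [mul_zero, add_zero] at h3
  refine h3.congr fun n => ?_
  have i1 := int_cQ hχ (md n) (md n)
  have i2 := ((int_cQ hχ mF (md n)).mul_const (t n)).const_mul 2
  rw [← tt, ← integral_mul_const, ← integral_mul_const, ← integral_const_mul, ← integral_const_mul,
    ← integral_add i1 i2]
  refine (integral_add (i1.add i2) ((int_cQ hχ mF mF).mul_const _)).symm.trans ?_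
  refine integral_congr_ae (.of_forall fun x => ?_)
  simp only [e1, P204.T4.Q, Pi.sub_apply, Pi.smul_apply, Pi.add_apply, smul_eq_mul]
  ring

end Vale.Agent.P247W
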