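import Vale.Agent.P247W.Sta
import Vale.Agent.P247W.Hod

/-!
# P247W: the row `GRN`
-/

set_option linter.all false

open MeasureTheory

namespace Vale.Agent.P247W

open Vale.Agent.P204.GX Vale.Agent.P204.T4 Vale.Agent.P247E Vale.Agent.P247E.Solv
open Vale.Agent.P247.H647 (Sp)

theorem grn : GRN_statement := by
  intro X _ _ _ _ _ Q _ b3 H hH
  obtain ⟨G, hG⟩ := exists_Green (IsHod.cliff hH) rfl
  refine ⟨G, fun g g1 g2 => hG.right g fun t ht => ?_⟩
  obtain ⟨c, rfl⟩ := coker b3 hH ht
  have i0 : ∀ i, Integrable (fun x => vec (g x) i) Q.mu := fun i =>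
    ((ContinuousLinearMap.proj i).comp vecL).integrable_comp ((Lp.memLp g).integrable one_le_two)
  have i1 : ∀ j, Integrable (fun x => ∑ k, Q.T x j k * vec (g x) k.succ) Q.mu := fun j =>
    integrable_finsetSum _ fun k _ => by
      obtain ⟨h1, C, h2⟩ := SmF.bm (M := Q.toCM) (f := fun x => Q.T x j k) (Q.T_smooth j k)
      exact (i0 _).bdd_mul h1.aestronglyMeasurable (.of_forall h2)
  have e : ∀ x, inner ℝ (g x) (Λ Q c x) = c.1 * vec (g x) 0 +
      ∑ j, c.2 j * ∑ k, Q.T x j k * vec (g x) k.succ := fun x => by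
    simp only [Hx.inner_vec, vec_Λ, Fin.sum_univ_succ (n := 3), Fin.cons_zero, Fin.cons_succ,
      nu_eq, Fin.sum_univ_three]
    ring
  simp only [e]
  rw [integral_add ((i0 _).const_mul _) (integrable_finsetSum _ fun j _ => (i1 j).const_mul _),
    integral_finsetSum _ fun j _ => (i1 j).const_mul _]
  simp only [integral_const_mul, g1, g2, mul_zero, Finset.sum_const_zero, add_zero]

end Vale.Agent.P247W
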