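import Vale.Agent.P247W.Ff2
import Vale.Agent.P247W.Eig
import Vale.Agent.P247E.QEigA

/-!
# P247W: `POSQ`
-/

set_option linter.all false

open scoped ContDiff Topology ENNReal ComplexConjugate
open Set MeasureTheory Filter

noncomputable section

namespace Vale.Agent.P247W.Ps

open Vale.Agent.P204.GX Vale.Agent.P204.T4 Vale.Agent.P247E
open Vale.Agent.P247E.R (spin)
open Vale.Agent.P247.H647

/-! ## Pointwise algebra -/

theorem dfct_eq {ν : Fin 3 → ℝ} (h : 0 < len ν) (ζ : Fin 4 → ℂ) : ∃ f : Sp, ‖f‖ = 1 ∧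
    P3 ((len ν)⁻¹ • ν) f = f ∧ dfct ν ζ = len ν * ‖symb ζ f‖ ^ 2 := by
  obtain ⟨f, h1, h2⟩ := QEig.exists_eig _ (QEig.len_unit h)
  refine ⟨f, h1, h2, ?_⟩
  have h3 : ∀ k, spin f k = (len ν)⁻¹ * ν k := fun k => by
    rw [spin, inner_eig (c := 1) one_ne_zero (h2.trans (by simp)) k, h1]; simp
  have h4 := R.alg_diag ζ f
  simp only [h3, h1, mul_assoc, ← Finset.mul_sum] at h4
  rw [dfct]
  field_simp at h4
  linarith

theorem dfct_nonneg {ν : Fin 3 → ℝ} (h : 0 < len ν) (ζ : Fin 4 → ℂ) : 0 ≤ dfct ν ζ := by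
  obtain ⟨f, -, -, h3⟩ := dfct_eq h ζ
  rw [h3]; positivity

theorem posA_smul {n : Fin 3 → ℝ} {φ : Fin 4 → Fin 4 → ℝ} {t : ℝ} (ht : 0 ≤ t) (h : PosA n φ) :
    PosA (t • n) φ := fun u => by
  have := mul_nonneg ht (h u)
  simp only [Finset.mul_sum] at this
  refine this.trans_eq (Finset.sum_congr rfl fun a _ => Finset.sum_congr rfl fun c _ =>
    Finset.sum_congr rfl fun d _ => Finset.sum_congr rfl fun k _ => ?_)
  simp only [Pi.smul_apply, smul_eq_mul]; ring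

theorem anti_ent (A : L2) : Anti (ent A) := fun a c => by
  fin_cases a <;> fin_cases c <;> simp [ent]

theorem Q_eq (A B : L2) : P204.T4.Q A B = wdA (ent A) (ent B) := by
  simp [P204.T4.Q, wdA, ent]

theorem ent_le (A : L2) (a c : Fin 4) : |ent A a c| ≤ ‖A‖ := by
  have h : ∀ i, |A i| ≤ ‖A‖ := norm_le_pi_norm A
  fin_cases a <;> fin_cases c <;> simp [ent, h]

theorem Q_jz (ζ : Fin 4 → ℂ) (B : L2) : P204.T4.Q (ofEnt (jz ζ)) B = wdA (jz ζ) (ent B) := by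
  simp [P204.T4.Q, wdA, ent, ofEnt]

theorem sq_L2 (A : L2) : ∑ i, A i ^ 2 = ∑ k, hat (ent A) k ^ 2 - P204.T4.Q A A := by
  simp [P204.T4.Q, hat, ent, Fin.sum_univ_succ]; ring

theorem amgm {a b θ : ℝ} (hθ : 0 < θ) : a * b ≤ θ * a ^ 2 + θ⁻¹ * b ^ 2 := by
  have h : θ * a ^ 2 + θ⁻¹ * b ^ 2 - 2 * (a * b) = θ⁻¹ * (θ * a - b) ^ 2 := by field_simp; ring
  have h1 : 0 ≤ θ⁻¹ * (θ * a - b) ^ 2 := by positivity
  have h2 : 0 ≤ θ * a ^ 2 + θ⁻¹ * b ^ 2 := by positivity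
  linarith

theorem dot_abs (a b : Fin 3 → ℝ) : |∑ k, a k * b k| ≤ len a * len b := by
  rw [← Real.sqrt_sq_eq_abs, len, len, ← Real.sqrt_mul (Finset.sum_nonneg fun _ _ => sq_nonneg _)]
  exact Real.sqrt_le_sqrt (Finset.sum_mul_sq_le_sq_mul_sq _ _ _)

/-- the weight -/
def wt (ν : Fin 3 → ℝ) (φ : L2) : ℝ := (∑ k, ν k * hat (ent φ) k) / (2 * len ν ^ 2)

theorem pwR {q r θ K E s1 s2 χ W z l FF Fφ J : ℝ} (hK : 0 < K) (hl : 0 < l) (hlK : 1 ≤ l * K)
    (hr : 0 < r) (hθ : 0 < θ) (a1 : -(24 * K * W * z) ≤ J)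
    (a2 : 1 / 2 * (2 * l * χ) * (FF - r * q * s1 - 1 / 2 * E ^ 2) ≤
      2 * (r * q * l / 2) * (Fφ - 1 / 2 * s2))
    (c2 : |χ| * l ≤ 3 * K) (c3 : |χ| ≤ 3 * K ^ 2) (c4 : |s1| ≤ E * l) (c5 : |s2| ≤ E * (6 * K)) :
    1 / r * (χ * FF) - 30 * (K + K ^ 2) * (θ * (z ^ 2 + r * q ^ 2) +
      (θ⁻¹ + 1) * (l * W ^ 2 + 1 / r * E ^ 2)) ≤ q * Fφ + J := by
  have e0 : 0 ≤ E := nonneg_of_mul_nonneg_left ((abs_nonneg _).trans c4) hl
  have d1 : 1 / r * (χ * FF) - χ * q * s1 - 1 / r * (χ * E ^ 2) / 2 + q * s2 / 2 ≤ q * Fφ := by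
    have : r * l * (1 / r * (χ * FF) - χ * q * s1 - 1 / r * (χ * E ^ 2) / 2 + q * s2 / 2) ≤
        r * l * (q * Fφ) := by
      have e1 : r * l * (1 / r * (χ * FF) - χ * q * s1 - 1 / r * (χ * E ^ 2) / 2 + q * s2 / 2) =
          l * χ * FF - r * l * χ * q * s1 - l * χ * E ^ 2 / 2 + r * l * q * s2 / 2 := by field_simp
      rw [e1]; linarith
    exact le_of_mul_le_mul_left this (by positivity)
  have d2 : |q| * E ≤ θ * (r * q ^ 2) + θ⁻¹ * (1 / r * E ^ 2) := by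
    have := amgm (a := |q|) (b := E) (mul_pos hθ hr)
    rw [sq_abs, mul_inv] at this
    rw [one_div]; linarith
  have d3 : χ * q * s1 ≤ 3 * K * (|q| * E) := by
    refine (le_abs_self _).trans ?_
    rw [abs_mul, abs_mul]
    calc _ ≤ |χ| * |q| * (E * l) := mul_le_mul_of_nonneg_left c4 (by positivity)
      _ = |χ| * l * (|q| * E) := by ring
      _ ≤ _ := mul_le_mul_of_nonneg_right c2 (by positivity)
  have d4 : -(6 * K * (|q| * E)) ≤ q * s2 := by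
    refine neg_le_of_abs_le ?_
    rw [abs_mul]
    calc _ ≤ |q| * (E * (6 * K)) := mul_le_mul_of_nonneg_left c5 (by positivity)
      _ = _ := by ring
  have d5 : 1 / r * (χ * E ^ 2) ≤ 3 * K ^ 2 * (1 / r * E ^ 2) := by
    rw [mul_left_comm]
    exact mul_le_mul_of_nonneg_right ((le_abs_self _).trans c3) (by positivity)
  have d6 : W * z ≤ θ * z ^ 2 + θ⁻¹ * W ^ 2 := by rw [mul_comm]; exact amgm hθ
  have d7 : W ^ 2 ≤ K * (l * W ^ 2) := by nlinarith [sq_nonneg W]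
  have d8 := mul_le_mul_of_nonneg_left d7 (inv_pos.2 hθ).le
  have d9 := mul_le_mul_of_nonneg_left d2 hK.le
  have d10 := mul_le_mul_of_nonneg_left (d6.trans (add_le_add_right d8 _)) hK.le
  have p1 : 0 ≤ θ * z ^ 2 := by positivity
  have p2 : 0 ≤ θ * (r * q ^ 2) := by positivity
  have p3 : 0 ≤ θ⁻¹ * (l * W ^ 2) := by positivity
  have p4 : 0 ≤ θ⁻¹ * (1 / r * E ^ 2) := by positivity
  have p5 : 0 ≤ l * W ^ 2 := by positivity
  have p6 : 0 ≤ 1 / r * E ^ 2 := by positivity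
  have k2 : 0 ≤ K ^ 2 := by positivity
  have e3 : 30 * (K + K ^ 2) * (θ * (z ^ 2 + r * q ^ 2) +
      (θ⁻¹ + 1) * (l * W ^ 2 + 1 / r * E ^ 2)) = 30 * (K * (θ * z ^ 2) + K * (θ * (r * q ^ 2)) +
      K * (θ⁻¹ * (l * W ^ 2)) + K * (θ⁻¹ * (1 / r * E ^ 2)) + K * (l * W ^ 2) +
      K * (1 / r * E ^ 2) + K ^ 2 * (θ * z ^ 2) + K ^ 2 * (θ * (r * q ^ 2)) +
      K ^ 2 * (θ⁻¹ * (l * W ^ 2)) + K ^ 2 * (θ⁻¹ * (1 / r * E ^ 2)) + K ^ 2 * (l * W ^ 2) +
      K ^ 2 * (1 / r * E ^ 2)) := by ring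
  have e4 : K * (θ * z ^ 2 + θ⁻¹ * (K * (l * W ^ 2))) =
      K * (θ * z ^ 2) + K ^ 2 * (θ⁻¹ * (l * W ^ 2)) := by ring
  have e5 : -(24 * K * W * z) = -(24 * (K * (W * z))) := by ring
  rw [e3]
  rw [e4] at d10
  rw [mul_add] at d9
  rw [e5] at a1
  linarith [mul_nonneg hK.le p1, mul_nonneg hK.le p2, mul_nonneg hK.le p3, mul_nonneg hK.le p4,
    mul_nonneg hK.le p5, mul_nonneg hK.le p6, mul_nonneg k2 p1, mul_nonneg k2 p2,
    mul_nonneg k2 p3, mul_nonneg k2 p4, mul_nonneg k2 p5, mul_nonneg k2 p6]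

theorem pw {ν : Fin 3 → ℝ} {φ F : L2} {ζ : Fin 4 → ℂ} {q r θ K : ℝ} (hK : 0 < K)
    (h1 : K⁻¹ ≤ len ν) (h2 : ‖φ‖ ≤ K) (hr : 0 < r) (hθ : 0 < θ) (hp : PosA ν (ent φ)) :
    1 / r * (wt ν φ * P204.T4.Q F F) - 30 * (K + K ^ 2) * (θ * (nz ζ ^ 2 + r * q ^ 2) +
      (θ⁻¹ + 1) * (dfct ν ζ + 1 / r * ∑ k, (hat (ent F) k - r * q * ν k) ^ 2)) ≤
      P204.T4.Q (q • F + ofEnt (jz ζ)) φ := by
  have hl : 0 < len ν := (inv_pos.2 hK).trans_le h1
  have hlK : 1 ≤ len ν * K := by rwa [inv_le_iff_one_le_mul₀ hK] at h1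
  obtain ⟨f, f1, f2, f3⟩ := dfct_eq hl ζ
  have hp' := posA_smul (inv_pos.2 hl).le hp
  have a1 := alg2 _ ζ f _ K f1 f2 (anti_ent φ) (fun a c => (ent_le φ a c).trans h2) hp'
  set e : Fin 3 → ℝ := fun k => hat (ent F) k - r * q * ν k with he
  have a2 := alg3 ((len ν)⁻¹ • ν) (ent F - (1 / 2 : ℝ) • omn e) (ent φ) (r * q * len ν / 2)
    (QEig.len_unit hl) ((anti_ent F).sub ((omn_anti e).smul _)) (anti_ent φ) (fun k => by
      rw [hat_sub, hat_smul, hat_omn, he]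
      simp only [Pi.smul_apply, smul_eq_mul]
      field_simp
      ring) hp'
  have b1 : wdA (ent F - (1 / 2 : ℝ) • omn e) (ent φ) =
      P204.T4.Q F φ - 1 / 2 * ∑ k, e k * hat (ent φ) k := by
    rw [wdA_comm, wdA_sub, wdA_smul, wdA_omn (anti_ent φ), wdA_comm, Q_eq]
  have b2 : wdA (ent F - (1 / 2 : ℝ) • omn e) (ent F - (1 / 2 : ℝ) • omn e) =
      P204.T4.Q F F - r * q * ∑ k, e k * ν k - 1 / 2 * ∑ k, e k ^ 2 := by
    rw [wdA_sub, wdA_smul, wdA_omn ((anti_ent F).sub ((omn_anti e).smul _)), wdA_comm, wdA_sub,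
      wdA_smul, wdA_omn (anti_ent F), Q_eq]
    simp only [hat_sub, hat_smul, hat_omn, show ∀ k, hat (ent F) k = e k + r * q * ν k from
      fun k => by simp [he], Fin.sum_univ_three]
    ring
  have b3 : ∑ k, ((len ν)⁻¹ • ν) k * hat (ent φ) k = 2 * len ν * wt ν φ := by
    simp only [wt, Pi.smul_apply, smul_eq_mul, mul_assoc, ← Finset.mul_sum]
    field_simp
  have b4 : P204.T4.Q (q • F + ofEnt (jz ζ)) φ = q * P204.T4.Q F φ + wdA (jz ζ) (ent φ) := by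
    rw [← Q_jz]; simp only [P204.T4.Q, Pi.add_apply, Pi.smul_apply, smul_eq_mul]; ring
  have c1 : len (hat (ent φ)) ≤ 6 * K := (len_le_sum _).trans (by
    have := fun k => hat_le (fun a c => (ent_le φ a c).trans h2) k
    rw [Fin.sum_univ_three]; linarith [this 0, this 1, this 2])
  have c2 : |wt ν φ| * len ν ≤ 3 * K := by
    rw [wt, abs_div, abs_of_pos (by positivity : 0 < 2 * len ν ^ 2), div_mul_eq_mul_div,
      div_le_iff₀ (by positivity)]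
    have := (dot_abs ν (hat (ent φ))).trans (mul_le_mul_of_nonneg_left c1 hl.le)
    nlinarith
  have c3 : |wt ν φ| ≤ 3 * K ^ 2 := by nlinarith [abs_nonneg (wt ν φ)]
  have c4 := dot_abs e ν
  have c5 := (dot_abs e (hat (ent φ))).trans (mul_le_mul_of_nonneg_left c1 (len_nonneg e))
  rw [b1, b2, b3] at a2
  rw [b4, ← len_sq e, f3]
  rw [← len_sq e] at a2
  exact pwR hK hl hlK hr hθ a1 a2 c2 c3 c4 c5

theorem en_pw {ν : Fin 3 → ℝ} {F : L2} {q r K : ℝ} (h : len ν ≤ K) (hr : 0 < r) :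
    1 / r * ∑ i, F i ^ 2 ≤ 2 * (1 / r * ∑ k, (hat (ent F) k - r * q * ν k) ^ 2) +
      2 * K ^ 2 * (r * q ^ 2) - 1 / r * P204.T4.Q F F := by
  have h1 : ∑ k, ν k ^ 2 ≤ K ^ 2 := by
    rw [← len_sq]; exact pow_le_pow_left₀ (len_nonneg _) h 2
  have h2 : ∑ k, hat (ent F) k ^ 2 ≤ 2 * ∑ k, (hat (ent F) k - r * q * ν k) ^ 2 +
      2 * (r * q) ^ 2 * ∑ k, ν k ^ 2 := by
    rw [Finset.mul_sum, Finset.mul_sum, ← Finset.sum_add_distrib]
    exact Finset.sum_le_sum fun k _ => by nlinarith [sq_nonneg (hat (ent F) k - 2 * (r * q * ν k))]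
  have h3 := mul_le_mul_of_nonneg_left (h2.trans (add_le_add_right (mul_le_mul_of_nonneg_left h1
    (by positivity : 0 ≤ 2 * (r * q) ^ 2)) _)) (by positivity : 0 ≤ 1 / r)
  have h4 : 1 / r * (2 * (r * q) ^ 2 * K ^ 2) = 2 * K ^ 2 * (r * q ^ 2) := by field_simp
  rw [mul_add, h4] at h3
  rw [sq_L2, mul_sub]
  linarith

/-! ## Integration -/

theorem cont_len : Continuous len := by unfold len; fun_prop

theorem cont_nz : Continuous nz := by unfold nz; fun_prop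

theorem cont_hat (k : Fin 3) : Continuous fun F : L2 => hat (ent F) k := by
  fin_cases k <;> simp [hat, ent] <;> fun_prop

theorem cont_jz (k : Fin 3) : Continuous fun ζ : Fin 4 → ℂ => hat (jz ζ) k := by
  fin_cases k <;> simp only [hat, jz] <;> simp <;> fun_prop

theorem cont_dfct : Continuous fun p : (Fin 3 → ℝ) × (Fin 4 → ℂ) => dfct p.1 p.2 := by
  have h1 := cont_len
  have h2 := cont_nz
  have h3 := cont_jz
  unfold dfct
  exact Continuous.sub (by fun_prop) (continuous_finset_sum _ fun k _ =>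
    Continuous.mul (by fun_prop) ((h3 k).comp continuous_snd))

theorem cont_Q : Continuous fun p : L2 × L2 => P204.T4.Q p.1 p.2 := by
  unfold P204.T4.Q; fun_prop

theorem cont_oj : Continuous fun ζ : Fin 4 → ℂ => ofEnt (jz ζ) :=
  continuous_pi fun i => by fin_cases i <;> simp [ofEnt, jz] <;> fun_prop

variable {X : Type} [MetricSpace X] [CompactSpace X] [MeasurableSpace X] [BorelSpace X]
  {Q : QM X} {L : LBc Q.toCM}

theorem cont_dv (u : Fin 3 → ℝ) : Continuous (dv Q u) :=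
  continuous_pi fun k => (Ed.dv_sm Q u k).continuous

theorem bm_cont {E : Type} [NormedAddCommGroup E] {f : X → E} (h : Continuous f) : BM f := by
  obtain ⟨B, hB⟩ := isCompact_univ.exists_bound_of_continuousOn h.continuousOn
  exact ⟨h.stronglyMeasurable, B, fun x => hB x trivial⟩

theorem intB {f : X → ℝ} (h : BM f) : Integrable f Q.mu := memLp_one_iff_integrable.1 (h.memLp 1)

theorem len_pos {u : Fin 3 → ℝ} (hu : len u = 1) (x : X) : 0 < len (dv Q u x) := by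
  refine (len_nonneg _).lt_of_ne fun h => ?_
  have h1 : ∀ k, dv Q u x k = 0 := fun k => pow_eq_zero_iff two_ne_zero |>.1
    ((Finset.sum_eq_zero_iff_of_nonneg fun _ _ => sq_nonneg _).1
      (by rw [← len_sq, ← h]; simp) k (Finset.mem_univ k))
  have h2 : ∀ j, u j = 0 := fun j => by rw [← Ed.T_dv Q u x j]; simp [h1]
  simp [len, h2] at hu

theorem dv_bd {u : Fin 3 → ℝ} (hu : len u = 1) (D : ℝ) :
    ∃ K, 0 < K ∧ D ≤ K ∧ ∀ x, K⁻¹ ≤ len (dv Q u x) ∧ len (dv Q u x) ≤ K := by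
  have c := cont_len.comp (cont_dv (Q := Q) u)
  obtain ⟨B, hB⟩ := (bm_cont c).2
  obtain ⟨B', hB'⟩ := (bm_cont (c.inv₀ fun x => (len_pos hu x).ne')).2
  have k : 0 < max 1 (max D (max B B')) := one_pos.trans_le (le_max_left _ _)
  refine ⟨_, k, by simp, fun x => ⟨?_, ((le_abs_self _).trans (hB x)).trans (by simp)⟩⟩
  exact inv_le_of_inv_le₀ (len_pos hu x) (((le_abs_self _).trans (hB' x)).trans (by simp))

theorem int_FF {a : X → V4} (ha : Q.Sm1 a) :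
    ∫ x, P204.T4.Q (cur L a x) (cur L a x) ∂Q.mu = Q.pr L.F L.F := by
  have m := Q.dX_mem_Om ha
  have e : ∀ x, P204.T4.Q (cur L a x) (cur L a x) = P204.T4.Q (L.F x) (L.F x) +
      (2 * P204.T4.Q (Q.dX a x) (L.F x) + P204.T4.Q (Q.dX a x) (Q.dX a x)) := fun x => by
    simp only [cur, P204.T4.Q, Pi.add_apply]; ring
  simp only [e]
  erw [integral_add (Solv.intQ L.F_mem L.F_mem) (((Solv.intQ m L.F_mem).const_mul 2).add
    (Solv.intQ m m)), integral_add ((Solv.intQ m L.F_mem).const_mul 2) (Solv.intQ m m),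
    integral_const_mul, Solv.stokes ha L.F_mem L.F_closed, Solv.stokes ha m (closed_dX ha)]
  simp [CM.pr]

section ints

variable {a : X → V4} {s : X → ℂ} (ha : Q.Sm1 a) (hs : L.Sm s)
include ha hs

theorem i1 : Integrable (fun x => nz (L.cva a s x) ^ 2) Q.mu :=
  intB ((bm_cva ha hs).cont (cont_nz.pow 2))

omit ha in
theorem i2 : Integrable (fun x => (1 - ‖s x‖ ^ 2) ^ 2) Q.mu :=
  intB (hs.bm.cont (F := fun z : ℂ => (1 - ‖z‖ ^ 2) ^ 2) (by fun_prop))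

theorem i3 (u : Fin 3 → ℝ) : Integrable (fun x => dfct (dv Q u x) (L.cva a s x)) Q.mu :=
  intB (((bm_cont (cont_dv u)).prod (bm_cva ha hs)).cont cont_dfct)

theorem i4 (u : Fin 3 → ℝ) (r : ℝ) : Integrable (fun x => ∑ k, (hat (ent (cur L a x)) k -
    r * (1 - ‖s x‖ ^ 2) * dv Q u x k) ^ 2) Q.mu :=
  intB ((((bm_cont (cont_dv u)).prod hs.bm).prod (bm_Om (cur_mem L ha))).cont
    (F := fun p : ((Fin 3 → ℝ) × ℂ) × L2 => ∑ k, (hat (ent p.2) k -
      r * (1 - ‖p.1.2‖ ^ 2) * p.1.1 k) ^ 2)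
    (continuous_finset_sum _ fun k _ => (((cont_hat k).comp continuous_snd).sub
      (by fun_prop)).pow 2))

theorem i5 {φ : X → L2} (h : BM φ) :
    Integrable (fun x => P204.T4.Q (jacQ L a s x) (φ x)) Q.mu :=
  intB (((((bm_cva ha hs).cont cont_oj).prod (hs.bm.prod (bm_Om (cur_mem L ha)))).cont
    (F := fun p : L2 × ℂ × L2 => (1 - ‖p.2.1‖ ^ 2) • p.2.2 + p.1) (by fun_prop)).prod h |>.cont
      cont_Q)

end ints

theorem energy {u : Fin 3 → ℝ} (hu : len u = 1) (S : SeqQ Q L u) : S.toBase.En := by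
  obtain ⟨K, -, -, hK⟩ := dv_bd (Q := Q) hu 0
  obtain ⟨C, hC⟩ := S.e1
  obtain ⟨C', hC'⟩ := S.e3.bddAbove_range
  obtain ⟨C'', hC''⟩ := ((tendsto_inv_atTop_zero.comp S.r_lim).mul_const
    (-Q.pr L.F L.F)).bddAbove_range
  refine ⟨C + C + (2 * C' + 2 * K ^ 2 * C + C''), fun n => ?_⟩
  have j1 := i1 (S.a_sm n) (S.s_sm n)
  have j2 := (i2 (S.s_sm n)).const_mul (S.r n)
  have j4 := ((i4 (S.a_sm n) (S.s_sm n) u (S.r n)).const_mul (1 / S.r n)).const_mul 2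
  have j5 := (Solv.intQ (cur_mem L (S.a_sm n)) (cur_mem L (S.a_sm n))).const_mul (1 / S.r n)
  refine (integral_mono (S.toBase.int_en n) ((j1.add j2).add ((j4.add (j2.const_mul
    (2 * K ^ 2))).sub j5)) fun x => add_le_add_right (en_pw (hK x).2 (S.r_pos n)) _).trans ?_
  have k1 := hC' ⟨n, rfl⟩
  have k2 := hC'' ⟨n, rfl⟩
  have k3 := mul_le_mul_of_nonneg_left (hC n).2 (by positivity : 0 ≤ 2 * K ^ 2)
  simp only [Function.comp, ← one_div] at k1 k2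
  erw [integral_add (j1.add j2) ((j4.add (j2.const_mul (2 * K ^ 2))).sub j5), integral_add j1 j2,
    integral_sub (j4.add (j2.const_mul (2 * K ^ 2))) j5, integral_add j4 (j2.const_mul (2 * K ^ 2))]
  simp only [integral_const_mul, int_FF (S.a_sm n)]
  linarith [(hC n).1, (hC n).2]

theorem pos_int {u : Fin 3 → ℝ} {a : X → V4} {s : X → ℂ} (ha : Q.Sm1 a) (hs : L.Sm s)
    {φ : X → L2} (h : BM φ) (hc : Continuous fun x => wt (dv Q u x) (φ x)) {r θ K : ℝ} (hK : 0 < K)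
    (h1 : ∀ x, K⁻¹ ≤ len (dv Q u x)) (h2 : ∀ x, ‖φ x‖ ≤ K) (hr : 0 < r) (hθ : 0 < θ)
    (hp : ∀ x, PosA (dv Q u x) (ent (φ x))) :
    1 / r * ∫ x, wt (dv Q u x) (φ x) * P204.T4.Q (cur L a x) (cur L a x) ∂Q.mu -
      30 * (K + K ^ 2) * (θ * (∫ x, nz (L.cva a s x) ^ 2 ∂Q.mu +
        r * ∫ x, (1 - ‖s x‖ ^ 2) ^ 2 ∂Q.mu) +
      (θ⁻¹ + 1) * (∫ x, dfct (dv Q u x) (L.cva a s x) ∂Q.mu + 1 / r * ∫ x, ∑ k,
        (hat (ent (cur L a x)) k - r * (1 - ‖s x‖ ^ 2) * dv Q u x k) ^ 2 ∂Q.mu)) ≤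
      Q.pr (jacQ L a s) φ := by
  have j0 := (int_cQ hc (cur_mem L ha) (cur_mem L ha)).const_mul (1 / r)
  have j1 := i1 ha hs
  have j2 := (i2 hs).const_mul r
  have j3 := i3 ha hs u
  have j4 := (i4 ha hs u r).const_mul (1 / r)
  have j5 := (j1.add j2).const_mul θ
  have j6 := (j3.add j4).const_mul (θ⁻¹ + 1)
  have j7 := (j5.add j6).const_mul (30 * (K + K ^ 2))
  refine le_trans (le_of_eq ?_) (integral_mono (j0.sub j7) (i5 ha hs h) fun x =>
    pw hK (h1 x) (h2 x) hr hθ (hp x))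
  erw [integral_sub j0 j7, integral_const_mul, integral_const_mul, integral_add j5 j6,
    integral_const_mul, integral_const_mul, integral_add j1 j2, integral_add j3 j4,
    integral_const_mul, integral_const_mul]

end Vale.Agent.P247W.Ps

namespace Vale.Agent.P247W

open Ps Vale.Agent.P247E Vale.Agent.P247.H647

theorem posq : POSQ_statement := by
  intro hF X _ _ _ _ _ Q L u hu S
  refine ⟨⟨S.toBase, energy hu S, fun φ h1 h2 h3 ε hε => ?_⟩⟩
  obtain ⟨D, hD⟩ := h1.2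
  obtain ⟨K, k0, k1, k2⟩ := dv_bd (Q := Q) hu D
  obtain ⟨C, hC⟩ := S.e1
  have hc : Continuous fun x => wt (dv Q u x) (φ x) :=
    (continuous_finset_sum _ fun k _ => ((continuous_apply k).comp (cont_dv u)).mul (h2 k)).div
      (continuous_const.mul ((cont_len.comp (cont_dv u)).pow 2)) fun x => by
        have := len_pos (Q := Q) hu x
        positivity
  set M := 30 * (K + K ^ 2) with hM
  have M0 : 0 < M := by positivity
  set θ := ε / (6 * M * (|C| + 1)) with hθ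
  have θ0 : 0 < θ := by positivity
  set δ := ε / (6 * M * (θ⁻¹ + 1)) with hδ
  have δ0 : 0 < δ := by positivity
  filter_upwards [(hF X Q L S.toBase (energy hu S) _ hc).eventually
    (lt_mem_nhds (show -(ε / 3) < 0 by linarith)), S.e2 δ δ0, S.e3.eventually (gt_mem_nhds δ0)]
    with n a1 a2 a3
  refine le_trans ?_ (pos_int (S.a_sm n) (S.s_sm n) h1 hc k0 (fun x => (k2 x).1)
    (fun x => (hD x).trans k1) (S.r_pos n) θ0 h3)
  have b1 := mul_le_mul_of_nonneg_left (add_le_add ((hC n).1.trans (le_abs_self C))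
    ((hC n).2.trans (le_abs_self C))) θ0.le
  have b2 := mul_le_mul_of_nonneg_left (add_le_add a2 a3.le) (by positivity : 0 ≤ θ⁻¹ + 1)
  have b3 := mul_le_mul_of_nonneg_left (add_le_add b1 b2) M0.le
  have b4 : M * ((θ⁻¹ + 1) * (δ + δ)) = ε / 3 := by rw [hδ]; field_simp; ring
  have b5 : M * (θ * (|C| + 1 + (|C| + 1))) = ε / 3 := by rw [hθ]; field_simp; ring
  have b6 : 0 ≤ M * θ := by positivity
  rw [← hM]
  nlinarith

end Vale.Agent.P247W
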