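import Vale.Agent.P247W.Sta
import Vale.Agent.P247E.QSt1

/-!
# P247W: the row `SEQ`
-/

set_option linter.all false

open scoped ContDiff Topology ENNReal ComplexConjugate
open Set MeasureTheory Filter

noncomputable section

namespace Vale.Agent.P247W

open Vale.Agent.P204.GX Vale.Agent.P204.T4 Vale.Agent.P247E
open Vale.Agent.P247E.R (zf ps)
open Vale.Agent.P247.H647 (Sp hat len jz nz nz_sq len_sq cov)

namespace Sq

attribute [local instance] fact4 holder442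

theorem len_eq (v : Fin 3 → ℝ) : len v = ‖(WithLp.toLp 2 v : EuclideanSpace ℝ (Fin 3))‖ := by
  simp [len, EuclideanSpace.norm_eq]

theorem cont_len : Continuous len := by unfold len; fun_prop

theorem cont_dfct : Continuous fun p : (Fin 3 → ℝ) × (Fin 4 → ℂ) => dfct p.1 p.2 := by
  simp only [dfct, len, nz, hat, jz, Fin.sum_univ_three, Matrix.cons_val]
  fun_prop

theorem dfct_le (n n' : Fin 3 → ℝ) (ζ : Fin 4 → ℂ) {δ : ℝ} (h : ∑ k, |n' k - n k| ≤ δ) :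
    dfct n' ζ ≤ dfct n ζ + 5 * δ * nz ζ ^ 2 := by
  have h1 : len n' - len n ≤ δ := by
    rw [len_eq, len_eq]
    refine (norm_sub_norm_le _ _).trans ?_
    rw [← WithLp.toLp_sub, ← len_eq]
    exact (P247.H647.len_le_sum _).trans h
  have h2 : ∀ k, (n k - n' k) * hat (jz ζ) k ≤ |n' k - n k| * (4 * nz ζ ^ 2) := fun k => by
    refine (le_abs_self _).trans ?_
    rw [abs_mul, abs_sub_comm]
    refine mul_le_mul_of_nonneg_left ?_ (abs_nonneg _)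
    fin_cases k <;> exact (abs_add_le _ _).trans ((add_le_add (P247.H647.jz_le ζ _ _)
      (P247.H647.jz_le ζ _ _)).trans_eq (by ring))
  have h3 := Finset.sum_le_sum fun k (_ : k ∈ Finset.univ) => h2 k
  simp only [sub_mul, Finset.sum_sub_distrib, ← Finset.sum_mul] at h3
  unfold dfct
  nlinarith [sq_nonneg (nz ζ)]

theorem sq_le (F n n' : Fin 3 → ℝ) (β : ℝ) {δ : ℝ} (h : ∑ k, |n' k - n k| ≤ δ) :
    ∑ k, (F k - β * n' k) ^ 2 ≤ 2 * ∑ k, (F k - β * n k) ^ 2 + 2 * δ ^ 2 * β ^ 2 := by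
  have h1 : ∑ k, (n' k - n k) ^ 2 ≤ δ ^ 2 := by
    simp only [← sq_abs (n' _ - n _)]
    exact (Finset.sum_sq_le_sq_sum_of_nonneg fun _ _ => abs_nonneg _).trans
      (pow_le_pow_left₀ (by positivity) h 2)
  have h2 := Finset.sum_le_sum fun k (_ : k ∈ Finset.univ) => show (F k - β * n' k) ^ 2 ≤
    2 * (F k - β * n k) ^ 2 + 2 * β ^ 2 * (n' k - n k) ^ 2 by
      nlinarith [sq_nonneg (F k - β * n k + β * (n' k - n k))]
  simp only [Finset.sum_add_distrib, ← Finset.mul_sum] at h2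
  nlinarith [sq_nonneg β]

theorem nz_smul (t : ℝ) (ζ : Fin 4 → ℂ) : nz (t • ζ) ^ 2 = t ^ 2 * nz ζ ^ 2 := by
  simp [nz_sq, mul_pow, Finset.mul_sum]

theorem dfct_smul (n : Fin 3 → ℝ) (t : ℝ) (ζ : Fin 4 → ℂ) :
    dfct n (t • ζ) = t ^ 2 * dfct n ζ := by
  simp [dfct, nz_smul, hat, jz, Fin.sum_univ_three]
  ring

variable {X : Type} [MetricSpace X] [CompactSpace X] [MeasurableSpace X] [BorelSpace X]
  {Q : QM X} {L : LBc Q.toCM} {H : Op Q.t1 Q.t0}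

theorem lo_smul (t : ℝ) (s : X → ℂ) (b : Q.A) : L.lo b (t • s) = fun y => t • L.lo b s y :=
  funext fun y => smul_comm (conj (L.γ b y)) t _

theorem sm_smul (t : ℝ) {s : X → ℂ} (hs : L.Sm s) : L.Sm (t • s) := fun b => by
  rw [lo_smul]; exact (hs b).const_smul t

theorem cva_smul (t : ℝ) {s : X → ℂ} (hs : L.Sm s) (a : X → V4) (x : X) :
    L.cva a (t • s) x = t • L.cva a s x := by
  funext c
  simp only [Pi.smul_apply, LBc.cva, LBc.cv, cov, lo_smul,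
    fderiv_fun_const_smul ((hs _).differentiable (by simp) _) t]
  simp
  ring

theorem bm_dv (Q : QM X) (u : Fin 3 → ℝ) : BM (dv Q u) := SmF.bm (M := Q.toCM) fun a =>
  contDiff_pi.2 fun k => ContDiff.sum (s := Finset.univ) (f := fun j y => (Q.T (Q.ψ a y))⁻¹ k j * u j)
    fun j _ => (Q.sm_inv k j a).mul contDiff_const

theorem dv_lip (Q : QM X) : ∃ K : ℝ, ∀ u u' x, ∑ k, |dv Q u' x k - dv Q u x k| ≤ K * ‖u' - u‖ := by
  choose C hC using fun k j => (Q.sm_inv k j).bm.2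
  refine ⟨∑ k, ∑ j, C k j, fun u u' x => ?_⟩
  rw [Finset.sum_mul]
  refine Finset.sum_le_sum fun k _ => ?_
  rw [dv, dv, ← Pi.sub_apply, ← Matrix.mulVec_sub, Finset.sum_mul]
  refine (Finset.abs_sum_le_sum_abs (fun j => (Q.T x)⁻¹ k j * (u' - u) j) .univ).trans
    (Finset.sum_le_sum fun j _ => ?_)
  rw [abs_mul]
  exact mul_le_mul (hC k j x) (norm_le_pi_norm (u' - u) j) (abs_nonneg _)
    ((norm_nonneg _).trans (hC k j x))

theorem bm_cva {a : X → V4} {s : X → ℂ} (ha : Q.Sm1 a) (hs : L.Sm s) : BM (L.cva a s) := by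
  convert bm_sum Finset.univ fun c => (((bm_Sm1 ha).prod hs.bm).prod (hs.bm_cv c)).cont
    (F := fun p => Pi.single (M := fun _ => ℂ) c (p.2 - Complex.I * (p.1.1 c : ℂ) * p.1.2))
    ((continuous_single c).comp (by fun_prop)) using 2 with x
  exact (Finset.univ_sum_single _).symm

theorem BM.int {f : X → ℝ} (h : BM f) : Integrable f Q.mu :=
  memLp_one_iff_integrable.1 (h.memLp 1)

theorem cont4 (H : Op Q.t1 Q.t0) (r : ℝ) (u : Fin 3 → ℝ) {g : X → Sp} (hg : SmF Q.toCM g) :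
    (Continuous fun y : L.bp.H1 × Q.t1.H1 => ∫ x, nz (zf y.1 y.2 g x) ^ 2 ∂Q.mu) ∧
    (Continuous fun y : L.bp.H1 × Q.t1.H1 =>
      ∫ x, (r - ‖inner ℂ (g x) (ps y.1 x)‖ ^ 2) ^ 2 ∂Q.mu) ∧
    (Continuous fun y : L.bp.H1 × Q.t1.H1 => ∫ x, dfct (dv Q u x) (zf y.1 y.2 g x) ∂Q.mu) ∧
    Continuous fun y : L.bp.H1 × Q.t1.H1 => ∫ x, ∑ k, (Q.Fa L H y.2 x k -
      (r - ‖inner ℂ (g x) (ps y.1 x)‖ ^ 2) * dv Q u x k) ^ 2 ∂Q.mu := by
  have ha : CL Q.mu 4 fun y : L.bp.H1 × Q.t1.H1 => Q.av y.2 :=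
    (Q.t1.cl4.comp continuous_snd).lin vecL
  have f0 : CL Q.mu ⊤ fun _ : L.bp.H1 × Q.t1.H1 => g := cl_const (hg.bm.memLp ⊤)
  have hz : ∀ c, CL Q.mu 2 fun (y : L.bp.H1 × Q.t1.H1) x => zf y.1 y.2 g x c := fun c =>
    (f0.bil (L.cl_nabA continuous_fst ha c) (inB ℂ Sp)).add ((cl_const ((hg.bm_df c).memLp ⊤)).bil
      (cl_lp (L.bp.J.continuous.comp continuous_fst)) (inB ℂ Sp))
  have hσ : CL Q.mu 4 _ := f0.bil (L.bp.cl4.comp continuous_fst) (inB ℂ Sp)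
  have h1 : CL Q.mu 1 fun (y : L.bp.H1 × Q.t1.H1) x => nz (zf y.1 y.2 g x) ^ 2 :=
    (cl_sum _ fun c => (hz c).bil (hz c) (inB ℝ ℂ)).congr fun y => .of_forall fun x =>
      (Finset.sum_congr rfl fun c _ => real_inner_self_eq_norm_sq (F := ℂ) _).trans (nz_sq _).symm
  have hβ : CL Q.mu 2 fun (y : L.bp.H1 × Q.t1.H1) x => r - ‖inner ℂ (g x) (ps y.1 x)‖ ^ 2 :=
    (cl_const ((bm_const r).memLp 2)).sub ((hσ.bil hσ (inB ℝ ℂ)).congr fun y =>
      .of_forall fun x => real_inner_self_eq_norm_sq (F := ℂ) _)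
  have sq : ∀ {f : L.bp.H1 × Q.t1.H1 → X → ℝ}, CL Q.mu 2 f → CL Q.mu 1 fun y x => f y x ^ 2 :=
    fun k => (k.bil k (ContinuousLinearMap.mul ℝ ℝ)).congr fun y => .of_forall fun x => (sq _).symm
  have hd : ∀ k, CL Q.mu ⊤ fun (_ : L.bp.H1 × Q.t1.H1) x => dv Q u x k := fun k =>
    cl_const (((bm_dv Q u).cont (continuous_apply k)).memLp ⊤)
  have h3 : CL Q.mu 1 fun (y : L.bp.H1 × Q.t1.H1) x => dfct (dv Q u x) (zf y.1 y.2 g x) :=
    ((cl_const (((bm_dv Q u).cont cont_len).memLp ⊤)).bil h1 (ContinuousLinearMap.mul ℝ ℝ)).sub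
      (cl_sum _ fun k => (hd k).bil (cl_jz hz k) (ContinuousLinearMap.mul ℝ ℝ))
  have h4 : ∀ k, CL Q.mu 2 fun (y : L.bp.H1 × Q.t1.H1) x => Q.Fa L H y.2 x k := fun k =>
    (cl_const (((bm_Om L.F_mem).cont (cont_hat k)).memLp 2)).add
      ((cl_lp (H.clm.continuous.comp continuous_snd)).lin
        ((ContinuousLinearMap.proj k.succ).comp vecL))
  exact ⟨h1.int.2, (sq hβ).int.2, h3.int.2, (cl_sum _ fun k =>
    sq ((h4 k).sub (hβ.bil (hd k) (ContinuousLinearMap.mul ℝ ℝ)))).int.2⟩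

theorem near4 {Y : Type} [TopologicalSpace Y] {D : Set Y} (hD : Dense D) {f1 f2 f3 f4 : Y → ℝ}
    (h : Continuous f1 ∧ Continuous f2 ∧ Continuous f3 ∧ Continuous f4) (y : Y) :
    ∃ z ∈ D, f1 z < f1 y + 1 ∧ f2 z < f2 y + 1 ∧ f3 z < f3 y + 1 ∧ f4 z < f4 y + 1 :=
  hD.exists_mem_open ((isOpen_lt h.1 continuous_const).inter ((isOpen_lt h.2.1
    continuous_const).inter ((isOpen_lt h.2.2.1 continuous_const).inter
      (isOpen_lt h.2.2.2 continuous_const))))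
    ⟨y, lt_add_one _, lt_add_one _, lt_add_one _, lt_add_one _⟩

/-- smoothing -/
theorem smooth (hH : Q.IsHod H) {C r : ℝ} {u : Fin 3 → ℝ} {w : L.bp.H1} {φ : Q.t1.H1} {g : X → Sp}
    (h : Est Q L H C r u w φ g) : ∃ (a : X → V4) (s : X → ℂ), Q.Sm1 a ∧ L.Sm s ∧
      ∫ x, nz (L.cva a s x) ^ 2 ∂Q.mu < C * r + 1 ∧ ∫ x, (r - ‖s x‖ ^ 2) ^ 2 ∂Q.mu < C * r + 1 ∧
      ∫ x, dfct (dv Q u x) (L.cva a s x) ∂Q.mu < C + 1 ∧
      ∫ x, ∑ k, (hat (ent (cur L a x)) k - (r - ‖s x‖ ^ 2) * dv Q u x k) ^ 2 ∂Q.mu < C + 1 := by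
  obtain ⟨⟨w', φ'⟩, ⟨⟨s, hs, e⟩, t, ht, e'⟩, k1, k2, k3, k4⟩ :=
    near4 (L.bp.dense_rep.prod Q.t1.dense_rep) (cont4 H r u h.sm) (w, φ)
  have z : ∀ᵐ x ∂Q.mu, L.cva (fun x => vec (t x)) (fun x => inner ℂ (g x) (s x)) x = zf w' φ' g x ∧
      s x = ps w' x ∧ ∀ k, hat (ent (cur L (fun x => vec (t x)) x)) k = Q.Fa L H φ' x k := by
    filter_upwards [e.J_ae, e'.J_ae, eventually_all.2 (L.nabH_rep hs e), e'.clm_ae ht H]
      with x a1 a2 a3 a4
    refine ⟨funext fun c => ?_, a1.symm, fun k => ?_⟩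
    · simp only [zf, LBc.nabA, QM.av, a1, a2, a3, LBc.cva, LBc.cv_inner h.sm hs, inner_sub_right,
        inner_smul_right]
      ring
    · rw [QM.Fa, a4, hH.curl t ht, LBc.Fh, cur]
      fin_cases k <;> simp [hat, ent] <;> ring
  refine ⟨_, _, (Q.mem_t1 t).1 ht, LBc.Sm.inner h.sm hs,
    (integral_congr_ae ?_).trans_lt (k1.trans_le (add_le_add_left h.a 1)),
    (integral_congr_ae ?_).trans_lt (k2.trans_le (add_le_add_left h.b 1)),
    (integral_congr_ae ?_).trans_lt (k3.trans_le (add_le_add_left h.c 1)),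
    (integral_congr_ae ?_).trans_lt (k4.trans_le (add_le_add_left h.d 1))⟩ <;>
  filter_upwards [z] with x ⟨a1, a2, a3⟩
  · rw [a1]
  · rw [a2]
  · rw [a1]
  · simp only [a2, a3]

/-- rescaling -/
theorem one (hH : Q.IsHod H) {C r : ℝ} {u : Fin 3 → ℝ} {w : L.bp.H1} {φ : Q.t1.H1} {g : X → Sp}
    (h : Est Q L H C r u w φ g) (hr : 1 ≤ r) : ∃ (a : X → V4) (s : X → ℂ), Q.Sm1 a ∧ L.Sm s ∧
      (∫ x, nz (L.cva a s x) ^ 2 ∂Q.mu ≤ C + 1 ∧ r * ∫ x, (1 - ‖s x‖ ^ 2) ^ 2 ∂Q.mu ≤ C + 1) ∧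
      ∀ u' δ, 0 ≤ δ → (∀ x, ∑ k, |dv Q u' x k - dv Q u x k| ≤ δ) →
        ∫ x, dfct (dv Q u' x) (L.cva a s x) ∂Q.mu ≤ (C + 1) * (r⁻¹ + 5 * δ) ∧
        (1 / r) * ∫ x, ∑ k, (hat (ent (cur L a x)) k - r * (1 - ‖s x‖ ^ 2) * dv Q u' x k) ^ 2
          ∂Q.mu ≤ 2 * (C + 1) * (r⁻¹ + δ ^ 2) := by
  obtain ⟨a, s, ha, hs, k1, k2, k3, k4⟩ := smooth hH h
  have r0 : 0 < r := one_pos.trans_le hr
  have ri : 0 < r⁻¹ := inv_pos.2 r0
  have r1 : r⁻¹ ≤ 1 := inv_le_one_of_one_le₀ hr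
  have rr : r⁻¹ * r = 1 := inv_mul_cancel₀ r0.ne'
  have t2 : √r⁻¹ ^ 2 = r⁻¹ := Real.sq_sqrt ri.le
  have n2 : ∀ x, r * (1 - ‖(√r⁻¹ • s) x‖ ^ 2) = r - ‖s x‖ ^ 2 := fun x => by
    rw [Pi.smul_apply, norm_smul, mul_pow, Real.norm_eq_abs, sq_abs, t2]
    linear_combination -‖s x‖ ^ 2 * rr
  have n3 : ∀ x, (1 - ‖(√r⁻¹ • s) x‖ ^ 2) ^ 2 = r⁻¹ ^ 2 * (r - ‖s x‖ ^ 2) ^ 2 := fun x => by
    rw [← n2, ← mul_pow, ← mul_assoc, rr, one_mul]
  have k5 : ∀ {I}, I < C * r + 1 → r⁻¹ * I ≤ C + 1 := fun k =>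
    (mul_le_mul_of_nonneg_left k.le ri.le).trans (by linear_combination C * rr + r1)
  have bz := bm_cva ha hs
  have i1 := BM.int (Q := Q) (bz.cont (F := fun ζ => nz ζ ^ 2) (by unfold nz; fun_prop))
  have i2 := BM.int (Q := Q) (hs.bm.cont (F := fun z => (r - ‖z‖ ^ 2) ^ 2) (by fun_prop))
  have i3 := fun u => BM.int (Q := Q) (((bm_dv Q u).prod bz).cont cont_dfct)
  have i4 : ∀ u, Integrable (fun x => ∑ k, (hat (ent (cur L a x)) k -
      (r - ‖s x‖ ^ 2) * dv Q u x k) ^ 2) Q.mu := fun u => integrable_finsetSum _ fun k _ =>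
    BM.int ((((((bm_Om L.F_mem).add (bm_Om (Q.dX_mem_Om ha))).cont (cont_hat k)).prod hs.bm).prod
      (bm_dv Q u)).cont (F := fun p => (p.1.1 - (r - ‖p.1.2‖ ^ 2) * p.2 k) ^ 2) (by fun_prop))
  refine ⟨a, √r⁻¹ • s, ha, sm_smul _ hs, ⟨?_, ?_⟩, fun u' δ δ0 hδ => ⟨?_, ?_⟩⟩
  · simpa only [cva_smul _ hs, nz_smul, t2, integral_const_mul] using k5 k1
  · simp only [n3, integral_const_mul]
    rw [← mul_assoc, sq r⁻¹, ← mul_assoc, mul_comm r, rr, one_mul]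
    exact k5 k2
  · have := integral_mono (i3 u') ((i3 u).add (i1.const_mul (5 * δ))) fun x => dfct_le _ _ _ (hδ x)
    simp only [Pi.add_apply] at this
    rw [integral_add (i3 u) (i1.const_mul _), integral_const_mul] at this
    simp only [cva_smul _ hs, dfct_smul, t2, integral_const_mul]
    nlinarith [mul_le_mul_of_nonneg_left this ri.le, mul_le_mul_of_nonneg_left k3.le ri.le,
      mul_le_mul_of_nonneg_left (k5 k1) δ0]
  · have := integral_mono (i4 u') (((i4 u).const_mul 2).add (i2.const_mul (2 * δ ^ 2)))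
      fun x => sq_le _ _ _ _ (hδ x)
    simp only [Pi.add_apply] at this
    rw [integral_add ((i4 u).const_mul _) (i2.const_mul _), integral_const_mul,
      integral_const_mul] at this
    simp only [n2, one_div]
    nlinarith [mul_le_mul_of_nonneg_left this ri.le, mul_le_mul_of_nonneg_left k4.le ri.le,
      mul_le_mul_of_nonneg_left (k5 k2) (sq_nonneg δ)]

end Sq

theorem seq : SEQ_statement := by
  intro X _ _ _ _ _ Q L H hH C h
  choose r u w φ g h1 h2 h3 using fun n => h (n + 1)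
  have r1 : ∀ n, 1 ≤ r n := fun n =>
    (h1 n).le.trans' (by push_cast; linarith [n.cast_nonneg (α := ℝ)])
  choose a s ha hs k1 k2 using fun n => Sq.one hH (h3 n) (r1 n)
  obtain ⟨K, hK⟩ := Sq.dv_lip Q
  obtain ⟨v, -, ι, hι, lim⟩ := (isCompact_closedBall (0 : Fin 3 → ℝ) 1).tendsto_subseq
    (x := u) fun n => mem_closedBall_zero_iff.2 ((pi_norm_le_iff_of_nonneg zero_le_one).2 fun k =>
      h2 n ▸ P247.H647.abs_le_len _ k)
  have rl : Tendsto (fun n => r (ι n)) atTop atTop := tendsto_atTop_mono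
    (fun n => (h1 (ι n)).le.trans' (Nat.cast_le.2 (hι.le_apply.trans (Nat.le_succ _))))
    tendsto_natCast_atTop_atTop
  have dl : Tendsto (fun n => |K| * ‖v - u (ι n)‖) atTop (𝓝 0) := by
    simpa using ((tendsto_const_nhds (x := v)).sub lim).norm.const_mul |K|
  have k3 := fun n => k2 (ι n) v _ (by positivity) fun x =>
    (hK _ v x).trans (mul_le_mul_of_nonneg_right (le_abs_self K) (norm_nonneg _))
  refine ⟨v, tendsto_nhds_unique ((Sq.cont_len.tendsto v).comp lim)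
    (tendsto_const_nhds.congr fun n => (h2 _).symm),
    ⟨⟨⟨_, fun n => a (ι n), fun n => s (ι n), fun n => one_pos.trans_le (r1 _), rl, fun n => ha _,
      fun n => hs _⟩, ⟨_, fun n => k1 _⟩, fun ε ε0 => ?_, squeeze_zero (fun n => mul_nonneg
        (one_div_pos.2 (one_pos.trans_le (r1 _))).le (integral_nonneg fun x => by positivity))
      (fun n => (k3 n).2) ?_⟩⟩⟩
  · have := (rl.inv_tendsto_atTop.add (dl.const_mul 5)).const_mul (C + 1)
    simp only [mul_zero, add_zero] at this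
    exact (this.eventually (ge_mem_nhds ε0)).mono fun n k => (k3 n).1.trans k
  · simpa using (rl.inv_tendsto_atTop.add (dl.pow 2)).const_mul (2 * (C + 1))

end Vale.Agent.P247W
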