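import Vale.Agent.P247W.Sta
import Vale.Agent.P247E.Bq2

/-!
# P247W: removal of the truncation (`UNTR`)
-/

set_option linter.all false

open scoped ContDiff Topology ENNReal ComplexConjugate
open Set MeasureTheory Filter Metric

noncomputable section

namespace Vale.Agent.P247W

open Vale.Agent.P204.GX Vale.Agent.P204.T4 Vale.Agent.P247E
open Vale.Agent.P247E.R (spin zf ps cl cl_apply)
open Vale.Agent.P247.H647 (Sp En sig pau hat len jz P3 nz PosA)

namespace Un

/-- weak limits along ultrafilters -/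
theorem wk {H : Type*} [NormedAddCommGroup H] [InnerProductSpace ℝ H] [CompleteSpace H]
    (U : Ultrafilter ℕ) {w : ℕ → H} {M : ℝ} (h : ∀ n, ‖w n‖ ≤ M) :
    ∃ v, ∀ f : H →L[ℝ] ℝ, Tendsto (fun n => f (w n)) U (𝓝 (f v)) := by
  obtain ⟨l, -, hl⟩ := (WeakDual.isCompact_closedBall (0 : StrongDual ℝ H) M).ultrafilter_le_nhds
    (U.map fun n => StrongDual.toWeakDual (InnerProductSpace.toDual ℝ H (w n))) (by
      rw [Ultrafilter.coe_map, le_principal_iff, mem_map]
      refine univ_mem' fun n => ?_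
      show InnerProductSpace.toDual ℝ H (w n) ∈ closedBall 0 M
      rw [mem_closedBall_zero_iff, LinearIsometryEquiv.norm_map]
      exact h n)
  refine ⟨(InnerProductSpace.toDual ℝ H).symm (WeakDual.toStrongDual l), fun f => ?_⟩
  obtain ⟨u, rfl⟩ := (InnerProductSpace.toDual ℝ H).surjective f
  have h1 := ((WeakDual.eval_continuous u).tendsto l).comp hl
  simp only [InnerProductSpace.toDual_apply_apply]
  rw [real_inner_comm, InnerProductSpace.toDual_symm_apply]
  exact h1.congr fun n => real_inner_comm _ _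

variable {X E : Type*} [MeasurableSpace X] {μ : Measure X} [IsFiniteMeasure μ]
  [NormedAddCommGroup E] [InnerProductSpace ℝ E] {U : Filter ℕ} [U.NeBot]

theorem wa0 (hU : U ≤ atTop) {A : ℕ → Lp E 2 μ} {B : X → E}
    (hw : ∀ g, Tendsto (fun n => inner ℝ g (A n)) U (𝓝 0))
    (hB : ∀ᵐ x ∂μ, Tendsto (fun n => A n x) atTop (𝓝 (B x))) : ∀ᵐ x ∂μ, B x = 0 := by
  have mB : AEStronglyMeasurable B μ :=
    aestronglyMeasurable_of_tendsto_ae atTop (fun n => Lp.aestronglyMeasurable (A n)) hB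
  have key : ∀ N : ℕ, ∀ᵐ x ∂μ, (∀ n, ‖A n x‖ ≤ N) → B x = 0 := by
    intro N
    set S : Set X := {x | ∀ n, ‖A n x‖ ≤ N} with hS
    have mS : MeasurableSet S := by
      rw [hS, setOf_forall]
      exact MeasurableSet.iInter fun n =>
        measurableSet_le (Lp.stronglyMeasurable (A n)).norm.measurable measurable_const
    have bg : ∀ᵐ x ∂μ, ‖S.indicator B x‖ ≤ N := by
      filter_upwards [hB] with x hx
      by_cases h : x ∈ S
      · rw [indicator_of_mem h]; exact le_of_tendsto' hx.norm h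
      · rw [indicator_of_notMem h, norm_zero]; positivity
    have mg : MemLp (S.indicator B) 2 μ := MemLp.of_bound (mB.indicator mS) _ bg
    have h1 : Tendsto (fun n => ∫ x, inner ℝ (S.indicator B x) (A n x) ∂μ) atTop
        (𝓝 (∫ x, ‖S.indicator B x‖ ^ 2 ∂μ)) := by
      refine tendsto_integral_of_dominated_convergence (fun _ => (N : ℝ) * N)
        (fun n => mg.1.inner (Lp.aestronglyMeasurable _)) (integrable_const _) (fun n => ?_) ?_
      · filter_upwards [bg] with x hx
        by_cases h : x ∈ S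
        · exact (norm_inner_le_norm _ _).trans (mul_le_mul hx (h n) (norm_nonneg _) (by positivity))
        · rw [indicator_of_notMem h, inner_zero_left, norm_zero]; positivity
      · filter_upwards [hB] with x hx
        by_cases h : x ∈ S
        · rw [indicator_of_mem h, ← real_inner_self_eq_norm_sq]
          exact tendsto_const_nhds.inner hx
        · simp only [indicator_of_notMem h, inner_zero_left, norm_zero]
          simpa using tendsto_const_nhds
    have h2 : ∫ x, ‖S.indicator B x‖ ^ 2 ∂μ = 0 := by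
      refine tendsto_nhds_unique (h1.mono_left hU) ((hw mg.toLp).congr fun n => ?_)
      rw [L2.inner_def]
      refine integral_congr_ae ?_
      filter_upwards [mg.coeFn_toLp] with x hx
      rw [hx]
    rw [integral_eq_zero_iff_of_nonneg (fun x => by positivity)
      ((memLp_two_iff_integrable_sq_norm mg.1).1 mg)] at h2
    filter_upwards [h2] with x hx h
    have h' : x ∈ S := h
    rw [indicator_of_mem h'] at hx
    simpa using hx
  filter_upwards [ae_all_iff.2 key, hB] with x hx hx'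
  obtain ⟨C, hC⟩ := hx'.norm.bddAbove_range
  obtain ⟨N, hN⟩ := exists_nat_ge C
  exact hx N fun n => (hC ⟨n, rfl⟩).trans hN

/-- weak and pointwise limits agree -/
theorem wa {H : Type*} [NormedAddCommGroup H] [NormedSpace ℝ H] (hU : U ≤ atTop)
    (T : H →L[ℝ] Lp E 2 μ) {w : ℕ → H} {v : H} {B : X → E}
    (hw : ∀ f : H →L[ℝ] ℝ, Tendsto (fun n => f (w n)) U (𝓝 (f v)))
    (hB : ∀ᵐ x ∂μ, Tendsto (fun n => T (w n) x) atTop (𝓝 (B x))) : ∀ᵐ x ∂μ, T v x = B x := by
  have h := wa0 (A := fun n => T (w n) - T v) (B := fun x => B x - T v x) hU (fun g => ?_) ?_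
  · filter_upwards [h] with x hx
    exact (sub_eq_zero.1 hx).symm
  · have := (hw ((innerSL ℝ g).comp T)).sub_const (inner ℝ g (T v))
    simpa [inner_sub_right] using this
  · filter_upwards [hB, ae_all_iff.2 fun n => Lp.coeFn_sub (T (w n)) (T v)] with x h1 h2
    simp only [h2, Pi.sub_apply]
    exact h1.sub_const _

/-- pointwise convergent subsequences -/
theorem sub {H : Type*} [NormedAddCommGroup H] [NormedSpace ℝ H] {T : H →L[ℝ] Lp E 2 μ}
    (hT : IsCompactOperator T) {w : ℕ → H} {M : ℝ} (h : ∀ n, ‖w n‖ ≤ M) :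
    ∃ (t : ℕ → ℕ) (B : X → E), StrictMono t ∧
      ∀ᵐ x ∂μ, Tendsto (fun n => T (w (t n)) x) atTop (𝓝 (B x)) := by
  obtain ⟨K, hK, hK'⟩ := IsCompactOperator.image_closedBall_subset_compact
    (f := (T : H →ₗ[ℝ] Lp E 2 μ)) hT M
  obtain ⟨B, -, t, ht, hB⟩ := hK.tendsto_subseq (x := fun n => T (w n))
    fun n => hK' ⟨w n, mem_closedBall_zero_iff.2 (h n), rfl⟩
  obtain ⟨s, hs, hs'⟩ := (tendstoInMeasure_of_tendsto_Lp hB).exists_seq_tendsto_ae
  exact ⟨t ∘ s, B, ht.comp hs, hs'⟩

theorem len_cont : Continuous len := by unfold len; fun_prop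

theorem norm_le_len (c : Fin 3 → ℝ) : ‖c‖ ≤ len c :=
  (pi_norm_le_iff_of_nonneg (Real.sqrt_nonneg _)).2 fun k => Real.abs_le_sqrt
    (Finset.single_le_sum (f := fun k => c k ^ 2) (fun _ _ => sq_nonneg _) (Finset.mem_univ k))

theorem qT_lim {R : ℕ → ℝ} (hR : Tendsto R atTop atTop) {ψ : ℕ → Sp} {χ : Sp}
    (h : Tendsto ψ atTop (𝓝 χ)) (k : Fin 3) :
    Tendsto (fun n => qT (R n) (ψ n) k) atTop (𝓝 (spin χ k)) := by
  have h1 : Tendsto (fun n => spin (ψ n) k) atTop (𝓝 (spin χ k)) :=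
    (Complex.continuous_re.tendsto _).comp (h.inner (((pau k).continuous.tendsto _).comp h))
  refine h1.congr' ?_
  filter_upwards [hR.eventually_ge_atTop (‖χ‖ + 1),
    h.norm.eventually (eventually_lt_nhds (lt_add_one ‖χ‖))] with n h2 h3
  have h4 : 0 < R n := by linarith [norm_nonneg χ]
  rw [qT, gq, max_eq_right (pow_le_pow_left₀ (norm_nonneg _) (h3.le.trans h2) 2),
    div_self (by positivity), one_mul, spin]

end Un

open Un in
theorem untr : UNTR_statement := by
  intro X _ _ _ _ _ Q L H B Z _ hZ M r₀ h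
  obtain ⟨-, -, -, -, -, -, -, -, -, -, -, hD⟩ := BQ2 X Q L
  choose R w φ c hR hS hw hφ hc hc' using h
  obtain ⟨t1, ψ, a1, b1⟩ := sub (rel X Q.toCM Sp Sp L.bp L.bp) hw
  obtain ⟨t2, η, a2, b2⟩ := sub (rel X Q.toCM Sp Sp Q.t1 Q.t1) fun n => hφ (t1 n)
  obtain ⟨c₀, -, t3, a3, b3⟩ := (isCompact_closedBall (0 : Fin 3 → ℝ) M).tendsto_subseq
    (x := fun n => c (t1 (t2 n))) fun n => mem_closedBall_zero_iff.2 ((norm_le_len _).trans (hc' _))
  set t : ℕ → ℕ := fun n => t1 (t2 (t3 n)) with ht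
  have a4 : Tendsto t atTop atTop := (a1.comp (a2.comp a3)).tendsto_atTop
  have c1 : ∀ᵐ x ∂Q.mu, Tendsto (fun n => ps (w (t n)) x) atTop (𝓝 (ψ x)) :=
    b1.mono fun x hx => hx.comp (a2.comp a3).tendsto_atTop
  have c2 : ∀ᵐ x ∂Q.mu, Tendsto (fun n => (Q.t1.J (φ (t n)) : X → Sp) x) atTop (𝓝 (η x)) :=
    b2.mono fun x hx => hx.comp a3.tendsto_atTop
  have c3 : Tendsto (fun n => c (t n)) atTop (𝓝 c₀) := b3
  have c4 : Tendsto (fun n => R (t n)) atTop atTop :=
    (tendsto_atTop_mono (fun n => (hR n).le) tendsto_natCast_atTop_atTop).comp a4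
  have hU : (Ultrafilter.of (atTop : Filter ℕ) : Filter ℕ) ≤ atTop := Ultrafilter.of_le _
  obtain ⟨w₀, d1⟩ := wk (Ultrafilter.of atTop) fun n => hw (t n)
  obtain ⟨φ₀, d2⟩ := wk (Ultrafilter.of atTop) fun n => hφ (t n)
  have e1 := wa hU L.bp.J d1 c1
  have e2 := wa hU Q.t1.J d2 c2
  have id : ∀ (w : L.bp.H1) (φ : Q.t1.H1), ∀ᵐ x ∂Q.mu, ∑ d, sig d (L.nabA w (Q.av φ) x d) =
      ((Q.dirac L).clm w : X → Sp) x + cl ((Q.t1.J φ : X → Sp) x) (ps w x) := fun w φ => by
    filter_upwards [hD w] with x hx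
    rw [hx, cl_apply]
    simp only [LBc.nabA, QM.av, map_sub, Finset.sum_sub_distrib]
    rw [sub_eq_add_neg]
  refine ⟨w₀, φ₀, c₀, ⟨?_, ae_all_iff.2 fun k => ?_⟩,
    ge_of_tendsto' ((len_cont.tendsto _).comp c3) fun n => hc _⟩
  · have e3 := wa (B := fun x => -(cl (η x) (ψ x) + Z c₀ x (ψ x))) hU (Q.dirac L).clm d1 ?_
    · filter_upwards [e1, e2, e3, id w₀ φ₀] with x h1 h2 h3 h4
      rw [h4, h3, ps, h1, h2]
      abel
    · filter_upwards [c1, c2, ae_all_iff.2 fun n => (hS (t n)).dirac,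
        ae_all_iff.2 fun n => id (w (t n)) (φ (t n))] with x h1 h2 h3 h4
      have h5 : Tendsto (fun n => Z (c (t n)) x) atTop (𝓝 (Z c₀ x)) :=
        Metric.tendsto_nhds.2 fun ε hε => (c3.eventually (hZ.cont c₀ _ (half_pos hε))).mono
          fun n hn => by rw [dist_eq_norm]; exact (hn x).trans_lt (half_lt_self hε)
      refine (((cl.continuous₂.tendsto (η x, ψ x)).comp (h2.prodMk_nhds h1)).add
        ((isBoundedBilinearMap_apply.continuous.tendsto (Z c₀ x, ψ x)).comp
          (h5.prodMk_nhds h1))).neg.congr fun n => ?_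
      have := h3 n
      rw [h4 n, add_assoc, add_eq_zero_iff_eq_neg] at this
      exact this.symm
  · let T : Sp →L[ℝ] ℝ := (ContinuousLinearMap.proj k.succ : V4 →L[ℝ] ℝ).comp P247E.R.vecL
    have hT : ∀ φ : Q.t1.H1, ∀ᵐ x ∂Q.mu, ((T.compLpL 2 Q.mu).comp H.clm φ : X → ℝ) x =
        Q.Fa L H φ x k - L.Fh x k := fun φ => by
      filter_upwards [T.coeFn_compLpL (H.clm φ)] with x hx
      rw [QM.Fa, add_sub_cancel_left]
      exact hx
    have e3 := wa (B := fun x => dv Q c₀ x k - (1 / 2) * spin (ψ x) k - L.Fh x k) hU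
      ((T.compLpL 2 Q.mu).comp H.clm) d2 ?_
    · filter_upwards [e1, e3, hT φ₀] with x h1 h3 h4
      rw [ps, h1]
      linarith
    · filter_upwards [c1, ae_all_iff.2 fun n => (hS (t n)).curv,
        ae_all_iff.2 fun n => hT (φ (t n))] with x h1 h3 h4
      simp only [h4, h3]
      refine (Tendsto.sub ?_ ((qT_lim c4 h1 k).const_mul _)).sub_const _
      have : Continuous fun u => dv Q u x k := by
        unfold dv Matrix.mulVec dotProduct; fun_prop
      exact (this.tendsto _).comp c3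

end Vale.Agent.P247W
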