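import Vale.Agent.P247W.Pos
import Vale.Agent.P247W.Dirq
import Vale.Agent.P247W.Apd
import Vale.Agent.P247W.Est
import Vale.Agent.P247W.Seq
import Vale.Agent.P247W.Grn
import Vale.Agent.P247W.Exi
import Vale.Agent.P247A.Dic6
import Vale.Agent.P247A.Red5
import Vale.Agent.P247A.Fdb

/-!
# P247W: assembly of the Seiberg-Witten block
-/

namespace Vale.Agent.P247W

open Vale.Agent.P247A

theorem hig0 (hU : UNTR_statement) : HIG_statement := hig_of aprd hU est seq ff posq dirq

theorem swh0 (hC : CNT_statement) (hU : UNTR_statement) (hQ : QUANT_statement) : SWH_statement :=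
  swh_of (swq_of eigd grn exd1 (exd2 (fbb_of (fdb hC)) hQ) (hig0 hU))

end Vale.Agent.P247W
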