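import Vale.Agent.P247E.R.Apr
import Vale.Agent.P247E.Bq2
import Vale.Agent.P247E.QSt1
import Vale.Agent.P247E.QKato

/-!
# P247W: a priori bounds for truncated systems with an arbitrary bounded perturbation
-/

set_option linter.all false

open scoped ContDiff Topology ENNReal NNReal ComplexConjugate
open Set MeasureTheory Filter Metric

noncomputable section

namespace Vale.Agent.P247W.Apd

open Vale.Agent.P204.GX Vale.Agent.P204.T4 Vale.Agent.P247E Vale.Agent.P247E.R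
open Vale.Agent.P247.H647 (Sp En sig pau len len_sq len_nonneg)

variable {X : Type} [MetricSpace X] [CompactSpace X] [ConnectedSpace X] [MeasurableSpace X]
  [BorelSpace X] {Q : QM X} {L : LBc Q.toCM} {H : Op Q.t1 Q.t0}

/-- solutions of a truncated system with zero order terms bounded by `B` and `r` -/
structure GS (Q : QM X) (L : LBc Q.toCM) (H : Op Q.t1 Q.t0) (B r R : ℝ) (w : L.bp.H1)
    (φ : Q.t1.H1) : Prop where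
  dirac : ∀ᵐ x ∂Q.mu, ‖∑ d, sig d (L.nabA w (Q.av φ) x d)‖ ≤ B * ‖ps w x‖
  curv : ∀ᵐ x ∂Q.mu, len (fun k => Q.Fa L H φ x k + 1 / 2 * qT R (ps w x) k) ≤ r

theorem apr_int (hH : Q.IsHod H) (L : LBc Q.toCM) (B r : ℝ) : ∃ M R₀ : ℝ,
    ∀ R w φ (hR : 0 < R), R₀ ≤ R → GS Q L H B r R w φ →
      ‖L.bp.J w‖ ≤ M ∧ ‖nq Q hR (L.bp.J w)‖ ≤ M ∧ ‖J4 L.bp w‖ ≤ M := by
  obtain ⟨K, hK1⟩ := nul_weitz ST1 hH L
  obtain ⟨CK, hCK0, hCK⟩ := KATO X Q L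
  obtain ⟨l, hl⟩ : ∃ l, l = 4 * (B ^ 2 + r + K ^ 2 / 2 + 1) := ⟨_, rfl⟩
  obtain ⟨M, hM⟩ : ∃ M, M = 1 + l ^ 2 * Q.mu.real univ := ⟨_, rfl⟩
  have hV : 0 ≤ l ^ 2 * Q.mu.real univ := by positivity
  have hM1 : 1 ≤ M := by linarith
  refine ⟨M + CK * M, |l| + 1, fun R w φ hR hRl hw => ?_⟩
  obtain ⟨E, hE, n0⟩ := hK1 w φ
  have ha : MemLp (Q.av φ) 4 Q.mu := P247E.R.vecL.comp_memLp' (memLp4 Q.t1 φ)
  obtain ⟨k1, k2⟩ := hCK w (Q.av φ) ha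
  have i1 : Integrable (fun x => ∑ c, ‖L.nabA w (Q.av φ) x c‖ ^ 2) Q.mu :=
    integrable_finsetSum _ fun c _ => (k1 c).norm.integrable_sq
  have i2 := int_sq (nq Q hR (L.bp.J w))
  have i3 := int_sq (L.bp.J w)
  have j1 : Integrable (fun x => (∑ c, ‖L.nabA w (Q.av φ) x c‖ ^ 2) / 2 +
    ‖(nq Q hR (L.bp.J w) : X → Sp) x‖ ^ 2 / 4) Q.mu := (i1.div_const _).add (i2.div_const _)
  have j2 : Integrable (fun x => (∑ c, ‖L.nabA w (Q.av φ) x c‖ ^ 2) / 2 +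
    ‖(nq Q hR (L.bp.J w) : X → Sp) x‖ ^ 2 / 4 + ‖ps w x‖ ^ 2) Q.mu := j1.add i3
  have hlR : l ≤ R ^ 2 := by nlinarith [le_abs_self l, abs_nonneg l]
  have k3 : ∫ x, ((∑ c, ‖L.nabA w (Q.av φ) x c‖ ^ 2) / 2 +
      ‖(nq Q hR (L.bp.J w) : X → Sp) x‖ ^ 2 / 4 + ‖ps w x‖ ^ 2 - l ^ 2 / 16) ∂Q.mu ≤ 0 := by
    rw [← n0.2]
    refine integral_mono_ae (j2.sub (integrable_const _)) n0.1 ?_
    filter_upwards [hw.dirac, hw.curv, nq_ae hR (L.bp.J w)] with x a1 a2 a3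
    rw [a3]
    exact apr_pw hR hlR ((norm_neg _).trans_le a1) (add_neg_cancel _) a2
      (fun k => (add_sub_cancel_right _ _).symm) (hE x) hl
  rw [integral_sub j2 (integrable_const _), integral_add j1 i3,
    integral_add (i1.div_const _) (i2.div_const _), integral_div, integral_div, integral_const,
    ← norm_sq_L2, ← norm_sq_L2, smul_eq_mul] at k3
  have p1 : 0 ≤ ∫ x, ∑ c, ‖L.nabA w (Q.av φ) x c‖ ^ 2 ∂Q.mu :=
    integral_nonneg fun x => Finset.sum_nonneg fun _ _ => sq_nonneg _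
  have p2 := sq_nonneg ‖nq Q hR (L.bp.J w)‖
  have p3 := sq_nonneg ‖L.bp.J w‖
  have p4 : 0 ≤ CK * M := by positivity
  have p5 : M ≤ M ^ 2 := by nlinarith
  have b1 : ‖L.bp.J w‖ ≤ M := le_of_sq hM1 (by linarith)
  have b2 : ‖nq Q hR (L.bp.J w)‖ ≤ M := le_of_sq hM1 (by linarith)
  have b3 : ‖J4 L.bp w‖ ≤ CK * M := by
    rw [norm_J4]
    refine ENNReal.toReal_le_of_le_ofReal p4 (k2 M (by linarith) ?_)
    rw [integral_add i1 i3, ← norm_sq_L2]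
    linarith
  exact ⟨by linarith, by linarith, by linarith⟩

theorem dirac_ae (w : L.bp.H1) (φ : Q.t1.H1) :
    (((Q.dirac L).clm w + K1 Q.t1 L.bp φ w : LL2 Q.toCM Sp) : X → Sp) =ᵐ[Q.mu]
      fun x => ∑ d, sig d (L.nabA w (Q.av φ) x d) := by
  obtain ⟨-, -, -, -, -, -, -, -, -, -, -, hD⟩ := BQ2 X Q L
  filter_upwards [Lp.coeFn_add ((Q.dirac L).clm w) (K1 Q.t1 L.bp φ w), hD w,
    K1_ae Q.t1 L.bp φ w] with x a1 a2 a3
  rw [a1, Pi.add_apply, a2, a3, cl_apply]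
  simp only [LBc.nabA, QM.av, map_sub, Finset.sum_sub_distrib]
  rw [← sub_eq_add_neg]

theorem GS.dirac_le {B r R : ℝ} {w : L.bp.H1} {φ : Q.t1.H1} (hw : GS Q L H B r R w φ) :
    ‖(Q.dirac L).clm w + K1 Q.t1 L.bp φ w‖ ≤ B * ‖L.bp.J w‖ := by
  refine Lp.norm_le_mul_norm_of_ae_le_mul ?_
  filter_upwards [dirac_ae w φ, hw.dirac] with x a1 a2
  rwa [a1]

theorem norm_E3 (v : Fin 3 → ℝ) : ‖E3 v‖ = len v := by
  rw [← sq_eq_sq₀ (norm_nonneg _) (len_nonneg _), norm_E3_sq, len_sq]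

/-- the bound for the curvature -/
theorem GS.hod_le {B r R : ℝ} (hR : 0 < R) {w : L.bp.H1} {φ : Q.t1.H1}
    (hw : GS Q L H B r R w φ) (hd : ∀ᵐ x ∂Q.mu, vec ((H.clm φ : X → Sp) x) 0 = 0) :
    ‖H.clm φ‖ ≤ |r| * ‖(Lp.const 2 Q.mu (1 : ℝ))‖ + ‖nq Q hR (L.bp.J w)‖ + ‖F0 BQ2 L‖ := by
  have h1 : ‖H.clm φ + (1 / 2 : ℝ) • nq Q hR (L.bp.J w) + F0 BQ2 L‖ ≤
      |r| * ‖(Lp.const 2 Q.mu (1 : ℝ))‖ := by
    refine Lp.norm_le_mul_norm_of_ae_le_mul ?_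
    filter_upwards [Lp.coeFn_add (H.clm φ + (1 / 2 : ℝ) • nq Q hR (L.bp.J w)) (F0 BQ2 L),
      Lp.coeFn_add (H.clm φ) ((1 / 2 : ℝ) • nq Q hR (L.bp.J w)), F0_ae BQ2 L,
      Lp.coeFn_smul (1 / 2 : ℝ) (nq Q hR (L.bp.J w)), nq_ae hR (L.bp.J w), hd, hw.curv,
      Lp.coeFn_const 2 Q.mu (1 : ℝ)] with x a1 a2 a3 a4 a5 a6 a7 a8
    have e : (H.clm φ : X → Sp) x = E3 fun k => vec ((H.clm φ : X → Sp) x) k.succ :=
      vec_ext fun d => Fin.cases (by rw [a6, vec_E3_zero]) (fun k => by rw [vec_E3_succ]) d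
    rw [a1, Pi.add_apply, a2, Pi.add_apply, a3, a4, Pi.smul_apply, a5, e, ← map_smul, ← map_add,
      ← map_add, norm_E3, a8]
    refine le_trans (le_of_eq (congrArg len (funext fun k => ?_))) (a7.trans ?_)
    · simp only [QM.Fa, Pi.add_apply, Pi.smul_apply, smul_eq_mul]
      ring
    · simpa using le_abs_self r
  have h2 : H.clm φ = (H.clm φ + (1 / 2 : ℝ) • nq Q hR (L.bp.J w) + F0 BQ2 L) -
      (1 / 2 : ℝ) • nq Q hR (L.bp.J w) - F0 BQ2 L := by abel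
  rw [h2]
  refine (norm_sub_le _ _).trans (add_le_add_left ((norm_sub_le _ _).trans (add_le_add h1 ?_)) _)
  rw [norm_smul, Real.norm_of_nonneg (by norm_num)]
  linarith [norm_nonneg (nq Q hR (L.bp.J w))]

/-- the bound in `H¹` from a bound for the connection -/
theorem norm_le (hH : Q.IsHod H) (L : LBc Q.toCM) (B r N : ℝ) : ∃ ρ₀ R₀ : ℝ,
    ∀ R w φ, 0 < R → R₀ ≤ R → GS Q L H B r R w φ → ‖φ‖ ≤ N → ‖w‖ ≤ ρ₀ := by
  obtain ⟨M, R₀, hM⟩ := apr_int hH L B r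
  obtain ⟨CG, hCG0, hCG⟩ := gar X Q.toCM Sp Sp L.bp (Q.bm L) (Q.dirac L)
    (BQ2 X Q L).2.2.2.2.2.2.2.2.2.1.gar
  refine ⟨CG * (|B| * M + ‖cl‖ * (‖J4 Q.t1‖ * N) * M + M), R₀, fun R w φ hR hRl hw hφ => ?_⟩
  obtain ⟨b1, b2, b3⟩ := hM R w φ hR hRl hw
  have b5 : ‖J4 Q.t1 φ‖ ≤ ‖J4 Q.t1‖ * N := (J4 Q.t1).le_opNorm_of_le hφ
  generalize ‖J4 Q.t1‖ * N = N' at b5 ⊢
  have b6 : ‖K1 Q.t1 L.bp φ w‖ ≤ ‖cl‖ * N' * M :=
    (norm_K1_le _ _ _ _).trans (mul_le_mul (mul_le_mul_of_nonneg_left b5 cl.opNorm_nonneg) b3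
      (norm_nonneg _) (mul_nonneg cl.opNorm_nonneg ((norm_nonneg _).trans b5)))
  have b8 : ‖(Q.dirac L).clm w‖ ≤ ‖(Q.dirac L).clm w + K1 Q.t1 L.bp φ w‖ + ‖K1 Q.t1 L.bp φ w‖ :=
    norm_le_add_norm_add _ _
  have b9 : B * ‖L.bp.J w‖ ≤ |B| * M :=
    (mul_le_mul_of_nonneg_right (le_abs_self B) (norm_nonneg _)).trans
      (mul_le_mul_of_nonneg_left b1 (abs_nonneg B))
  exact (hCG w).trans (mul_le_mul_of_nonneg_left
    (add_le_add (b8.trans (add_le_add (hw.dirac_le.trans b9) b6)) b1) hCG0.le)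

/-- **a priori bound**, for connections with `‖φ‖ ≤ N + C ‖H φ‖` -/
theorem apr (hH : Q.IsHod H) (L : LBc Q.toCM) (B r N C : ℝ) : ∃ ρ₀ R₀ : ℝ,
    ∀ R w φ, 0 < R → R₀ ≤ R → GS Q L H B r R w φ →
      (∀ᵐ x ∂Q.mu, vec ((H.clm φ : X → Sp) x) 0 = 0) → ‖φ‖ ≤ N + C * ‖H.clm φ‖ →
      ‖w‖ ≤ ρ₀ ∧ ‖φ‖ ≤ ρ₀ := by
  obtain ⟨M, R₀, hM⟩ := apr_int hH L B r
  obtain ⟨ρ, R₁, h1⟩ := norm_le hH L B r
    (N + |C| * (|r| * ‖(Lp.const 2 Q.mu (1 : ℝ))‖ + M + ‖F0 BQ2 L‖))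
  refine ⟨max ρ (N + |C| * (|r| * ‖(Lp.const 2 Q.mu (1 : ℝ))‖ + M + ‖F0 BQ2 L‖)), max R₀ R₁,
    fun R w φ hR hRl hw hd hφ => ?_⟩
  have h2 := hφ.trans (add_le_add_right ((mul_le_mul_of_nonneg_right (le_abs_self C)
    (norm_nonneg _)).trans (mul_le_mul_of_nonneg_left ((hw.hod_le hR hd).trans (add_le_add_left
      (add_le_add_right (hM R w φ hR ((le_max_left _ _).trans hRl) hw).2.1 _) _)) (abs_nonneg C))) N)
  exact ⟨(h1 R w φ hR ((le_max_right _ _).trans hRl) hw h2).trans (le_max_left _ _),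
    h2.trans (le_max_right _ _)⟩

end Vale.Agent.P247W.Apd
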