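import Vale.Agent.P247W.Hod
import Vale.Agent.P247E.Jac

/-!
# P247W: circle valued functions, an integral basis of the harmonic one-forms
-/

set_option linter.all false

open scoped ContDiff Topology ENNReal ComplexConjugate
open Set MeasureTheory Filter

noncomputable section

namespace Vale.Agent.P247W

open Vale.Agent.P204.GX Vale.Agent.P204.T4 Vale.Agent.P247E Vale.Agent.P247E.Solv
open Vale.Agent.P247.H647 (Sp hat cov)

variable {X : Type} [MetricSpace X]

section lg

variable {M : CM X} {u v : X → ℂ} {η ξ : X → V4}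

theorem df_mul (hu : SmF M u) (hv : SmF M v) (x : X) (c : Fin 4) :
    df M (fun x => u x * v x) x c = df M u x c * v x + u x * df M v x c := by
  unfold df
  rw [fderiv_fun_mul ((hu _).differentiable (by simp) _) ((hv _).differentiable (by simp) _)]
  simp [M.ψ_cy, add_comm, mul_comm]

theorem df_clm {E F : Type} [NormedAddCommGroup E] [NormedSpace ℝ E] [NormedAddCommGroup F]
    [NormedSpace ℝ F] (T : E →L[ℝ] F) {f : X → E} (hf : SmF M f) (x : X) (c : Fin 4) :
    df M (fun x => T (f x)) x c = T (df M f x c) :=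
  congrArg (fun A : V4 →L[ℝ] F => A _)
    (T.hasFDerivAt.comp _ ((hf _).differentiable (by simp) _).hasFDerivAt).fderiv

theorem df_plus {f g : X → ℝ} (hf : M.Sm0 f) (hg : M.Sm0 g) :
    df M (fun x => f x + g x) = df M f + df M g := by
  funext x c
  unfold df
  rw [fderiv_fun_add ((hf _).differentiable (by simp) _) ((hg _).differentiable (by simp) _)]
  rfl

theorem df_cmul (t : ℝ) {f : X → ℝ} (hf : M.Sm0 f) : df M (fun x => t * f x) = t • df M f :=
  funext fun x => funext fun c => df_clm (ContinuousLinearMap.mul ℝ ℝ t) hf x c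

theorem df_sum {ι : Type} (s : Finset ι) {f : ι → X → ℝ} (hf : ∀ i, M.Sm0 (f i)) (x : X)
    (c : Fin 4) : df M (fun x => ∑ i ∈ s, f i x) x c = ∑ i ∈ s, df M (f i) x c := by
  unfold df
  rw [fderiv_fun_sum fun i _ => (hf i _).differentiable (by simp) _]
  simp

/-- the angular form `d arg g` -/
def darg (M : CM X) (g : X → ℂ) : X → V4 := fun x c => (conj (g x) * df M g x c).im

/-- `u` is a smooth circle valued function with `d u = i η u` -/
structure Lg (M : CM X) (u : X → ℂ) (η : X → V4) : Prop where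
  sm : SmF M u
  nm : ∀ x, ‖u x‖ = 1
  der : ∀ x c, df M u x c = Complex.I * η x c * u x

theorem conj_mul_unit {z : ℂ} (h : ‖z‖ = 1) : conj z * z = 1 := by
  rw [Complex.conj_mul', h]; simp

theorem Lg.darg_eq (h : Lg M u η) : darg M u = η := by
  funext x c
  rw [darg, h.der, mul_left_comm, conj_mul_unit (h.nm x)]
  simp

theorem triv_lo (a : M.A) (u : X → ℂ) : (LBc.triv M).lo a u = fun y => u (M.ψ a y) :=
  funext fun y => by simp [LBc.lo, LBc.triv]

theorem triv_cva (u : X → ℂ) (x : X) (c : Fin 4) : (LBc.triv M).cva 0 u x c = df M u x c := by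
  rw [LBc.cva, LBc.cv, cov, triv_lo]
  simp [LBc.triv, df]

theorem triv_sm (hu : SmF M u) : (LBc.triv M).Sm u := fun a => by rw [triv_lo]; exact hu a

theorem lg_darg (hu : SmF M u) (h1 : ∀ x, ‖u x‖ = 1) : Lg M u (darg M u) := ⟨hu, h1, fun x c => by
  have h := (LBc.triv M).re_cva (triv_sm hu) h1 x c
  rw [triv_cva] at h
  have k : Complex.I * darg M u x c = conj (u x) * df M u x c :=
    Complex.ext (by simp [h, -Complex.mul_re]; simp) (by simp [darg, -Complex.mul_im]; simp)
  rw [k, mul_right_comm, conj_mul_unit (h1 x), one_mul]⟩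

theorem Lg.closed (h : Lg M u η) : M.Sm1 η ∧ M.dX η = 0 := by
  have h0 : M.Sm1 0 := fun b => by rw [M.cf1_zero]; exact contDiff_const
  obtain ⟨h2, h3⟩ := (LBc.triv M).jac h0 (triv_sm h.sm)
  have h4 := M.dX_smul 0 h0
  have h5 := fun x => jz_unit (h.nm x) ((LBc.triv M).re_cva (triv_sm h.sm) h.nm x)
  rw [zero_smul, zero_smul] at h4
  simp only [h5, h4, LBc.triv_F] at h3
  simp only [triv_cva] at h2 h3
  rw [← h.darg_eq]
  exact ⟨h2, funext fun x => (h3 x).trans (by simp)⟩

theorem Lg.congr (h : Lg M u η) (k : ∀ x, u x = v x) (k' : ∀ x c, η x c = ξ x c) : Lg M v ξ := by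
  rwa [← show u = v from funext k, ← show η = ξ from funext fun x => funext (k' x)]

theorem lg_const (M : CM X) {z : ℂ} (h : ‖z‖ = 1) : Lg M (fun _ => z) 0 :=
  ⟨fun _ => contDiff_const, fun _ => h, fun x c => by simp [df]⟩

theorem Lg.mul (h : Lg M u η) (k : Lg M v ξ) : Lg M (fun x => u x * v x) (η + ξ) :=
  ⟨fun a => (h.sm a).mul (k.sm a), fun x => by rw [norm_mul, h.nm, k.nm, one_mul], fun x c => by
    rw [df_mul h.sm k.sm, h.der, k.der, Pi.add_apply, Pi.add_apply]; push_cast; ring⟩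

theorem Lg.conj (h : Lg M u η) : Lg M (fun x => conj (u x)) (-η) :=
  ⟨fun a => cd_conj (h.sm a), fun x => by rw [RCLike.norm_conj, h.nm], fun x c =>
    (df_clm (Complex.conjCLE : ℂ →L[ℝ] ℂ) h.sm x c).trans (by simp [h.der])⟩

theorem lg_exp {f : X → ℝ} (hf : M.Sm0 f) :
    Lg M (fun x => Complex.exp (Complex.I * f x)) (df M f) := by
  have s : SmF M fun x => Complex.I * f x :=
    fun a => contDiff_const.mul (Complex.ofRealCLM.contDiff.comp (hf a))
  refine ⟨fun a => (s a).cexp, fun x => Complex.norm_exp_I_mul_ofReal _, fun x c => ?_⟩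
  have := df_clm ((ContinuousLinearMap.mul ℝ ℂ Complex.I).comp Complex.ofRealCLM) hf x c
  refine (congrArg (fun A : V4 →L[ℝ] ℂ => A _)
    (((s _).differentiable (by simp) _).hasFDerivAt.cexp).fderiv).trans ?_
  rw [mul_comm, M.ψ_cy]
  exact congrArg (Complex.exp (Complex.I * f x) * ·) this

theorem Lg.pow (h : Lg M u η) (n : ℕ) : Lg M (fun x => u x ^ n) ((n : ℝ) • η) := by
  induction n with
  | zero => exact (lg_const M norm_one).congr (by simp) (by simp)
  | succ n ih => exact (ih.mul h).congr (by simp [pow_succ]) (by simp [add_mul])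

theorem Lg.zpow (h : Lg M u η) (n : ℤ) : Lg M (fun x => u x ^ n) ((n : ℝ) • η) := by
  obtain ⟨n, rfl | rfl⟩ := n.eq_nat_or_neg
  · exact (h.pow n).congr (by simp) (by simp)
  · exact (h.pow n).conj.congr (fun x => by
      rw [zpow_neg, zpow_natCast, Complex.inv_eq_conj ((h.pow n).nm x)]) (by simp)

theorem lg_prod {ι : Type} (s : Finset ι) {u : ι → X → ℂ} {η : ι → X → V4}
    (h : ∀ i, Lg M (u i) (η i)) : Lg M (fun x => ∏ i ∈ s, u i x) (∑ i ∈ s, η i) := by
  classical
  induction s using Finset.induction_on with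
  | empty => exact (lg_const M norm_one).congr (by simp) (by simp)
  | insert i s hi ih =>
    exact ((h i).mul ih).congr (by simp [Finset.prod_insert hi]) (by simp [Finset.sum_insert hi])

/-- the functions with the same angular form -/
theorem Lg.uniq [CompactSpace X] [MeasurableSpace X] [BorelSpace X] [ConnectedSpace X]
    (h : Lg M u η) (k : Lg M v η) : ∃ z : ℂ, ‖z‖ = 1 ∧ ∀ x, u x = z * v x := by
  have l := h.mul k.conj
  have d : ∀ T : ℂ →L[ℝ] ℝ, ∃ c, ∀ x, T (u x * conj (v x)) = c := fun T =>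
    const_of_df (fun a => T.contDiff.comp (l.sm a)) (funext fun x => funext fun c =>
      (df_clm T l.sm x c).trans (by simp [l.der]))
  obtain ⟨a, ha⟩ := d Complex.reCLM
  obtain ⟨b, hb⟩ := d Complex.imCLM
  have e : ∀ x, u x * conj (v x) = ⟨a, b⟩ := fun x => Complex.ext (ha x) (hb x)
  exact ⟨_, e (Classical.arbitrary X) ▸ l.nm _, fun x => by
    rw [← e x, mul_assoc, conj_mul_unit (k.nm x), mul_one]⟩

end lg

/-- an integral basis of the first cohomology -/
structure H1Q (M : CM X) (b : ℕ) where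
  g : Fin b → X → ℂ
  sm : ∀ i, SmF M (g i)
  nm : ∀ i x, ‖g i x‖ = 1
  span : ∀ η : X → V4, M.Sm1 η → M.dX η = 0 → ∃ (h : Fin b → ℝ) (f : X → ℝ), M.Sm0 f ∧
    ∀ x c, η x c = ∑ i, h i * darg M (g i) x c + df M f x c
  indep : ∀ (h : Fin b → ℝ) (f : X → ℝ), M.Sm0 f →
    (∀ x c, ∑ i, h i * darg M (g i) x c = df M f x c) → h = 0
  lat : ∀ u : X → ℂ, SmF M u → (∀ x, ‖u x‖ = 1) → ∃ (m : Fin b → ℤ) (f : X → ℝ), M.Sm0 f ∧
    ∀ x c, darg M u x c = ∑ i, (m i : ℝ) * darg M (g i) x c + df M f x c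

namespace H1Q

variable {M : CM X} {b : ℕ} (B : H1Q M b)

/-- the closed form with periods `2 π h` -/
def form (h : Fin b → ℝ) : X → V4 := fun x c => ∑ i, h i * darg M (B.g i) x c

/-- the gauge transformations -/
def gl (l : Fin b → ℤ) (x : X) : ℂ := ∏ i, B.g i x ^ l i

theorem lg (i : Fin b) : Lg M (B.g i) (darg M (B.g i)) := lg_darg (B.sm i) (B.nm i)

theorem form_eq (h : Fin b → ℝ) : B.form h = ∑ i, h i • darg M (B.g i) := by
  funext x c; simp [form]

theorem lg_gl (l : Fin b → ℤ) : Lg M (B.gl l) (B.form fun i => l i) :=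
  B.form_eq _ ▸ lg_prod _ fun i => (B.lg i).zpow (l i)

theorem gl_zero (x : X) : B.gl 0 x = 1 := by simp [gl]

theorem gl_add (l m : Fin b → ℤ) (x : X) : B.gl (l + m) x = B.gl l x * B.gl m x := by
  simp only [gl, Pi.add_apply, ← Finset.prod_mul_distrib]
  exact Finset.prod_congr rfl fun i _ =>
    zpow_add₀ (norm_ne_zero_iff.1 (by rw [B.nm]; exact one_ne_zero)) _ _

theorem form_sub (h k : Fin b → ℝ) : B.form (h - k) = B.form h - B.form k := by
  simp [form_eq, sub_smul]

theorem form_add (h k : Fin b → ℝ) : B.form (h + k) = B.form h + B.form k := by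
  simp [form_eq, add_smul, Finset.sum_add_distrib]

theorem form_smul (t : ℝ) (h : Fin b → ℝ) : B.form (t • h) = t • B.form h := by
  simp [form_eq, mul_smul, Finset.smul_sum]

theorem form_closed (h : Fin b → ℝ) : M.Sm1 (B.form h) ∧ M.dX (B.form h) = 0 :=
  B.form_eq h ▸ Finset.sum_induction _ (fun η => M.Sm1 η ∧ M.dX η = 0)
    (fun _ _ k l => ⟨fun a => by rw [M.cf1_add]; exact (k.1 a).add (l.1 a),
      by rw [M.dX_add k.1 l.1, k.2, l.2, add_zero]⟩) (lg_const M norm_one).closed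
    fun i _ => ⟨fun a => by rw [M.cf1_smul]; exact ((B.lg i).closed.1 a).const_smul (h i),
      by rw [M.dX_smul _ (B.lg i).closed.1, (B.lg i).closed.2, smul_zero]⟩

theorem form_inj {h k : Fin b → ℝ} (e : B.form h = B.form k) : h = k :=
  sub_eq_zero.1 (B.indep _ (fun _ => 0) (fun _ => contDiff_const) fun x c =>
    (congrFun (congrFun ((B.form_sub h k).trans (sub_eq_zero.2 e)) x) c).trans (by simp [df]))

/-- every smooth circle valued function is a product of powers of the basis, up to an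
exponential -/
theorem gen [CompactSpace X] [MeasurableSpace X] [BorelSpace X] [ConnectedSpace X] {u : X → ℂ}
    (hu : SmF M u) (h1 : ∀ x, ‖u x‖ = 1) : ∃ (z : ℂ) (m : Fin b → ℤ) (f : X → ℝ), ‖z‖ = 1 ∧
      M.Sm0 f ∧ ∀ x, u x = z * (B.gl m x * Complex.exp (Complex.I * f x)) := by
  obtain ⟨m, f, hf, e⟩ := B.lat u hu h1
  obtain ⟨z, h⟩ := ((lg_darg hu h1).congr (fun _ => rfl) e).uniq ((B.lg_gl m).mul (lg_exp hf))
  exact ⟨z, m, f, h.1, hf, h.2⟩

end H1Q

variable [CompactSpace X] [MeasurableSpace X] [BorelSpace X] {Q : QM X} {H : Op Q.t1 Q.t0} {b : ℕ}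

theorem harm_zero : Harm Q 0 :=
  ⟨fun b => by rw [Q.cf1_zero]; exact contDiff_const,
    (lg_const Q.toCM norm_one).closed.2, fun _ _ => by simp⟩

theorem Harm.sub {η ξ : X → V4} (h : Harm Q η) (k : Harm Q ξ) : Harm Q (η - ξ) := by
  simpa only [neg_smul, one_smul, ← sub_eq_add_neg] using h.add (k.smul (-1))

/-- an integral basis of the first cohomology by harmonic maps to the circle -/
structure HQ (Q : QM X) (b : ℕ) extends H1Q Q.toCM b where
  harm : ∀ i, Harm Q (darg Q.toCM (g i))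

theorem exists_HQ [ConnectedSpace X] (B : H1Q Q.toCM b) : Nonempty (HQ Q b) := by
  choose f hf hh using fun i => hodge (B.lg i).closed.1 (B.lg i).closed.2
  have l := fun i => (B.lg i).mul (lg_exp (hf i))
  have s : ∀ t (h : Fin b → ℝ), Q.Sm0 fun x => t * ∑ i, h i * f i x := fun t h a =>
    contDiff_const.mul (ContDiff.sum fun i _ => contDiff_const.mul (hf i a))
  have d : ∀ t (h : Fin b → ℝ) x c, df Q.toCM (fun x => t * ∑ i, h i * f i x) x c =
      t * ∑ i, h i * df Q.toCM (f i) x c := fun t h x c => by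
    rw [df_cmul t (by simpa only [one_mul] using s 1 h), Pi.smul_apply, Pi.smul_apply,
      df_sum (f := fun i x => h i * f i x) _ fun i a => contDiff_const.mul (hf i a)]
    simp [df_cmul _ (hf _)]
  have ad : ∀ {p q : X → ℝ}, Q.Sm0 p → Q.Sm0 q → Q.Sm0 fun x => p x + q x :=
    fun hp hq a => (hp a).add (hq a)
  refine ⟨⟨⟨_, fun i => (l i).sm, fun i => (l i).nm, fun η h1 h2 => ?_, fun h p hp e => ?_,
    fun u h1 h2 => ?_⟩, fun i => (l i).darg_eq ▸ hh i⟩⟩
  · obtain ⟨h, p, hp, e⟩ := B.span η h1 h2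
    refine ⟨h, _, ad hp (s (-1) h), fun x c => ?_⟩
    rw [df_plus hp (s _ _), Pi.add_apply, Pi.add_apply, d]
    simp only [(l _).darg_eq, e, mul_add, Finset.sum_add_distrib, Pi.add_apply]
    ring
  · refine B.indep h _ (ad hp (s (-1) h)) fun x c => ?_
    rw [df_plus hp (s _ _), Pi.add_apply, Pi.add_apply, d, ← e]
    simp [(l _).darg_eq, mul_add, Finset.sum_add_distrib]
  · obtain ⟨m, p, hp, e⟩ := B.lat u h1 h2
    refine ⟨m, _, ad hp (s (-1) fun i => m i), fun x c => ?_⟩
    rw [df_plus hp (s _ _), Pi.add_apply, Pi.add_apply, d]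
    simp only [(l _).darg_eq, e, mul_add, Finset.sum_add_distrib, Pi.add_apply]
    ring

namespace HQ

variable (B : HQ Q b)

theorem harm_form (h : Fin b → ℝ) : Harm Q (B.form h) :=
  B.form_eq h ▸ Finset.sum_induction _ _ (fun _ _ => Harm.add) harm_zero
    fun i _ => (B.harm i).smul _

theorem of_add {η : X → V4} (h : Harm Q η) {k : Fin b → ℝ} {f : X → ℝ} (hf : Q.Sm0 f)
    (e : ∀ x c, η x c = B.form k x c + df Q.toCM f x c) : η = B.form k := by
  have e' : df Q.toCM f = η - B.form k := funext fun x => funext fun c => by simp [e]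
  rw [← sub_eq_zero, ← e']
  exact Harm.of_df hf (e' ▸ h.sub (B.harm_form k))

/-- the harmonic forms -/
theorem exists_form {η : X → V4} (h : Harm Q η) : ∃ k, η = B.form k := by
  obtain ⟨k, f, hf, e⟩ := B.span η h.sm h.cl
  exact ⟨k, B.of_add h hf e⟩

/-- the harmonic maps to the circle -/
theorem gen_harm [ConnectedSpace X] {u : X → ℂ} {η : X → V4} (hu : Lg Q.toCM u η) (h : Harm Q η) :
    ∃ (z : ℂ) (m : Fin b → ℤ), ‖z‖ = 1 ∧ η = B.form (fun i => m i) ∧ ∀ x, u x = z * B.gl m x := by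
  obtain ⟨m, f, hf, e⟩ := B.lat u hu.sm hu.nm
  rw [hu.darg_eq] at e
  obtain rfl := B.of_add h hf e
  obtain ⟨z, k⟩ := hu.uniq (B.lg_gl m)
  exact ⟨z, m, k.1, rfl, k.2⟩

theorem mem_t1 (h : Fin b → ℝ) : (fun x => spn (B.form h x)) ∈ Q.t1.Sm :=
  (Q.mem_t1 _).2 (by simpa only [vec_spn] using (B.harm_form h).sm)

/-- the harmonic forms as elements of `H¹` -/
def al (h : Fin b → ℝ) : Q.t1.H1 := Q.t1.jw (B.mem_t1 h)

theorem rep_al (h : Fin b → ℝ) : Q.t1.Rep (B.al h) fun x => spn (B.form h x) := Q.t1.rep_jw _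

theorem al_add (h k : Fin b → ℝ) : B.al (h + k) = B.al h + B.al k :=
  (B.rep_al _).unique (by
    convert (B.rep_al h).add (B.rep_al k) (B.mem_t1 h) (B.mem_t1 k) using 2 with x
    simp [B.form_add, ← spnL_apply])

theorem al_smul (t : ℝ) (h : Fin b → ℝ) : B.al (t • h) = t • B.al h :=
  (B.rep_al _).unique (by
    convert (B.rep_al h).smul t (B.mem_t1 h) using 2 with x
    simp [B.form_smul, ← spnL_apply])

variable [ConnectedSpace X]

theorem mem_kerS (hH : Q.IsHod H) {φ : X → Sp} :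
    φ ∈ H.kerS ↔ ∃ h, φ = fun x => spn (B.form h x) :=
  ⟨fun k => (B.exists_form ((mem_ker hH).1 k)).imp fun h e => by simp only [← e, spn_vec],
    fun ⟨h, e⟩ => e ▸ (B.harm_form h).spn hH⟩

/-- the kernel of the Hodge operator in `H¹` -/
theorem clm_eq_zero (hH : Q.IsHod H) {w : Q.t1.H1} : H.clm w = 0 ↔ ∃ h, w = B.al h := by
  refine ⟨fun k => ?_, fun ⟨h, e⟩ => Lp.ext ?_⟩
  · obtain ⟨s, hs, r, e⟩ := (REG X _ _ _ _ _ H (IsHod.cliff hH).gar w).2 0 Q.t0.Sm.zero_mem
      (k ▸ Lp.coeFn_zero _ _ _)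
    obtain ⟨h, rfl⟩ := (B.mem_kerS hH).1 (show s ∈ H.kerS from ⟨hs, congrFun e⟩)
    exact ⟨h, r.unique (B.rep_al h)⟩
  · filter_upwards [(B.rep_al h).clm_ae (B.mem_t1 h) H, Lp.coeFn_zero Sp 2 Q.mu] with x a1 a2
    rw [e, a1, ((B.harm_form h).spn hH).2, a2]
    rfl

/-- the harmonic forms as sections -/
def kerL : (Fin b → ℝ) →ₗ[ℝ] X → Sp where
  toFun h x := spn (B.form h x)
  map_add' h k := by funext x; simp [B.form_add, ← spnL_apply]
  map_smul' t h := by funext x; simp [B.form_smul, ← spnL_apply]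

theorem kerL_inj : Function.Injective B.kerL := fun h k e => B.form_inj (funext fun x => by
  have : spn (B.form h x) = spn (B.form k x) := congrFun e x
  rw [← vec_spn (B.form h x), this, vec_spn])

include B in
theorem finrank_ker (hH : Q.IsHod H) : Module.finrank ℝ (Submodule.span ℝ H.kerS) = b := by
  have e : H.kerS = LinearMap.range B.kerL := Set.ext fun φ =>
    (B.mem_kerS hH).trans (exists_congr fun _ => eq_comm)
  rw [e, Submodule.span_eq, LinearMap.finrank_range_of_inj B.kerL_inj]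
  simp

end HQ

end Vale.Agent.P247W
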