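import Vale.Agent.P247W.Fam
import Vale.Agent.P247W.HQ

/-!
# P247W: the gauge lattice of a family of circle valued functions
-/

set_option linter.all false

noncomputable section

namespace Vale.Agent.P247W

open Vale.Agent.P204.GX Vale.Agent.P204.T4 Vale.Agent.P247E Vale.Agent.P247A

variable {X : Type} [MetricSpace X] {M : CM X} {b : ℕ}

theorem lg_mon {g : Fin b → X → ℂ} (sm : ∀ i, SmF M (g i)) (nm : ∀ i x, ‖g i x‖ = 1)
    (l : Fin b → ℤ) :
    Lg M (fun x => ∏ i, g i x ^ l i) fun x c => ∑ i, (l i : ℝ) * darg M (g i) x c :=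
  (lg_prod _ fun i => (lg_darg (sm i) (nm i)).zpow (l i)).congr (fun _ => rfl) (by simp)

/-- the lattice generated by smooth circle valued functions -/
def Gau.of (g : Fin b → X → ℂ) (sm : ∀ i, SmF M (g i)) (nm : ∀ i x, ‖g i x‖ = 1) : Gau M b where
  a i := darg M (g i)
  a_sm i := (lg_darg (sm i) (nm i)).closed.1
  gl l x := ∏ i, g i x ^ l i
  gl_sm l := (lg_mon sm nm l).sm
  gl_nm l := (lg_mon sm nm l).nm
  gl_zero x := by simp
  gl_add l m x := by
    simp only [Pi.add_apply, ← Finset.prod_mul_distrib]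
    exact Finset.prod_congr rfl fun i _ =>
      zpow_add₀ (norm_ne_zero_iff.1 (by rw [nm]; exact one_ne_zero)) _ _
  gl_df l := (lg_mon sm nm l).der

/-- the lattice of an integral basis -/
def H1Q.gau (B : H1Q M b) : Gau M b := Gau.of B.g B.sm B.nm

theorem H1Q.gau_gl (B : H1Q M b) : B.gau.gl = B.gl := rfl

theorem H1Q.gau_form (B : H1Q M b) (h : Rv b) : B.gau.form h = B.form h := (B.form_eq h).symm

theorem Gau.lg (C : Gau M b) (l : Fin b → ℤ) : Lg M (C.gl l) (C.form fun i => l i) :=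
  ⟨C.gl_sm l, C.gl_nm l, fun x c => by rw [C.gl_df, C.form_apply]⟩

/-- the forms of a gauge lattice are closed -/
theorem Gau.a_closed (C : Gau M b) (i : Fin b) : M.dX (C.a i) = 0 := by
  simpa [Gau.form, Pi.single_apply] using (C.lg (Pi.single i 1)).closed.2

theorem Gau.form_closed (C : Gau M b) (h : Rv b) : M.dX (C.form h) = 0 := by
  rw [Gau.form, (M.dX_sum _ fun i _ a => by
    rw [M.cf1_smul]; exact (C.a_sm i a).const_smul (h i)).2]
  simp [M.dX_smul _ (C.a_sm _), C.a_closed]

end Vale.Agent.P247W
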