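import Vale.Agent.P247W.Fam0

/-!
# P247W: homogeneous extension of maps given on a sphere
-/

set_option linter.all false

open scoped ContDiff Topology
open Set Filter Metric

noncomputable section

namespace Vale.Agent.P247W

open Vale.Agent.P247A

variable {b : ℕ} {V H W : Type} [NormedAddCommGroup V] [InnerProductSpace ℂ V]
  [NormedAddCommGroup H] [InnerProductSpace ℂ H] [NormedAddCommGroup W] [InnerProductSpace ℂ W]
  [NormedSpace ℝ V] [IsScalarTower ℝ ℂ V] [NormedSpace ℝ W] [IsScalarTower ℝ ℂ W]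

/-- invariant norms -/
structure INorm (F : Fam b V H W) (N : V × Rv b → ℝ) : Prop where
  cont : Continuous N
  smul : ∀ (z : ℂ) v h, N (z • v, h) = ‖z‖ * N (v, h)
  inv : ∀ l v h, N (F.gV l v, sh h l) = N (v, h)
  equiv : ∀ R : ℝ, ∃ c : ℝ, 0 < c ∧ ∀ v h, ‖h‖ ≤ R → ‖v‖ ≤ c * N (v, h) ∧ N (v, h) ≤ c * ‖v‖

/-- compact maps which are equivariant for the circle and the lattice -/
structure SMap (F : Fam b V H W) {p n : ℕ} (Φ : V × Rv b → W × Cv p × Rv n) : Prop where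
  cont : Continuous Φ
  hom : ∀ (z : ℂ) v h, ‖z‖ = 1 →
    Φ (z • v, h) = (z • (Φ (v, h)).1, z • (Φ (v, h)).2.1, (Φ (v, h)).2.2)
  inv : ∀ l v h, Φ (F.gV l v, sh h l) = (F.gW l (Φ (v, h)).1, (Φ (v, h)).2)
  cpt : ∀ R : ℝ, ∃ S, IsCompact S ∧ ∀ v h, ‖v‖ ≤ R → ‖h‖ ≤ R → Φ (v, h) ∈ S

variable {F : Fam b V H W} {N : V × Rv b → ℝ} {p n : ℕ} {Φ : V × Rv b → W × Cv p × Rv n} {ρ : ℝ}

/-- the homogeneous extension -/
def hext (N : V × Rv b → ℝ) (ρ : ℝ) (Φ : V × Rv b → W × Cv p × Rv n) (q : V × Rv b) :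
    W × Cv p × Rv n := (N q / ρ) • Φ ((ρ / N q) • q.1, q.2)

theorem INorm.rsmul (hN : INorm F N) (t : ℝ) (v : V) (h : Rv b) : N (t • v, h) = |t| * N (v, h) := by
  rw [← algebraMap_smul ℂ t v, hN.smul]; simp

theorem INorm.zero (hN : INorm F N) (h : Rv b) : N (0, h) = 0 := by
  simpa using hN.smul 0 0 h

theorem INorm.pos (hN : INorm F N) {v : V} (hv : v ≠ 0) (h : Rv b) : 0 < N (v, h) := by
  obtain ⟨c, hc, k⟩ := hN.equiv ‖h‖
  exact (pos_iff_pos_of_mul_pos ((norm_pos_iff.2 hv).trans_le (k v h le_rfl).1)).1 hc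

theorem INorm.nonneg (hN : INorm F N) (q : V × Rv b) : 0 ≤ N q := by
  rcases eq_or_ne q.1 0 with h | h
  · rw [show q = (0, q.2) from Prod.ext h rfl, hN.zero]
  · exact (hN.pos h q.2).le

theorem INorm.sph (hN : INorm F N) (hρ : 0 < ρ) {v : V} (hv : v ≠ 0) (h : Rv b) :
    N ((ρ / N (v, h)) • v, h) = ρ := by
  have := hN.pos hv h
  rw [hN.rsmul, abs_of_pos (by positivity), div_mul_cancel₀ _ this.ne']

theorem INorm.bd (hN : INorm F N) (hΦ : SMap F Φ) (hρ : 0 < ρ) (R : ℝ) : ∃ (c : ℝ) (S : Set _),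
    0 < c ∧ IsCompact S ∧ ∀ v h, ‖h‖ ≤ R → N (v, h) ≤ c * ‖v‖ ∧ Φ ((ρ / N (v, h)) • v, h) ∈ S := by
  obtain ⟨c, hc, k⟩ := hN.equiv R
  obtain ⟨S, hS, k'⟩ := hΦ.cpt (max R (c * ρ))
  refine ⟨c, S, hc, hS, fun v h hh => ⟨(k v h hh).2, k' _ _ (le_max_of_le_right ?_)
    (le_max_of_le_left hh)⟩⟩
  rcases eq_or_ne v 0 with rfl | hv
  · rw [smul_zero, norm_zero]; positivity
  · exact (k _ h hh).1.trans_eq (by rw [hN.sph hρ hv])

theorem kmap_of (hN : INorm F N) (hΦ : SMap F Φ) (hρ : 0 < ρ) : KMap F (hext N ρ Φ) := by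
  refine ⟨continuous_iff_continuousAt.2 fun q => ?_, fun z v h => ?_, fun l v h => ?_, fun R => ?_⟩
  · rcases eq_or_ne q.1 0 with h0 | h0
    · obtain ⟨c, S, hc, hS, k⟩ := hN.bd hΦ hρ (‖q.2‖ + 1)
      obtain ⟨M, hM⟩ := hS.isBounded.exists_norm_le
      have e0 : N q = 0 := by rw [show q = (0, q.2) from Prod.ext h0 rfl, hN.zero]
      have t1 : Tendsto (fun q' => N q' / ρ) (𝓝 q) (𝓝 0) := by
        simpa [e0] using (hN.cont.div_const ρ).tendsto q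
      rw [ContinuousAt, show hext N ρ Φ q = 0 by simp [hext, e0]]
      refine t1.zero_smul_isBoundedUnder_le (isBoundedUnder_of_eventually_le (a := M) ?_)
      filter_upwards [(continuous_snd.norm.tendsto q).eventually
        (gt_mem_nhds (lt_add_one ‖q.2‖))] with q' hq'
      exact hM _ (k q'.1 q'.2 hq'.le).2
    · have := (hN.pos h0 q.2).ne'
      exact (hN.cont.div_const ρ).continuousAt.smul (hΦ.cont.continuousAt.comp
        (((continuousAt_const.div hN.cont.continuousAt this).smul continuousAt_fst).prodMk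
          continuousAt_snd))
  · rcases eq_or_ne z 0 with rfl | hz
    · simp [hext, hN.zero, Prod.ext_iff]
    rcases eq_or_ne v 0 with rfl | hv
    · simp [hext, hN.zero, Prod.ext_iff]
    have h1 := (hN.pos hv h).ne'
    have h2 : ‖z‖ ≠ 0 := norm_ne_zero_iff.2 hz
    have h3 : ((‖z‖ : ℝ) : ℂ) ≠ 0 := by exact_mod_cast h2
    have e1 : (ρ / (‖z‖ * N (v, h))) • z • v = (z / ‖z‖) • (ρ / N (v, h)) • v := by
      rw [← algebraMap_smul ℂ (ρ / (‖z‖ * N (v, h))), ← algebraMap_smul ℂ (ρ / N (v, h)),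
        smul_smul, smul_smul]
      congr 1
      simp only [Complex.coe_algebraMap]
      push_cast
      field_simp
    have e2 : ∀ (Y : Type) [AddCommGroup Y] [Module ℂ Y] [Module ℝ Y] [IsScalarTower ℝ ℂ Y] (y : Y),
        (‖z‖ * N (v, h) / ρ) • (z / ‖z‖) • y = z • (N (v, h) / ρ) • y := fun Y _ _ _ _ y => by
      rw [← algebraMap_smul ℂ (‖z‖ * N (v, h) / ρ), ← algebraMap_smul ℂ (N (v, h) / ρ),
        smul_smul, smul_smul]
      congr 1
      simp only [Complex.coe_algebraMap]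
      push_cast
      field_simp
    simp only [hext, hN.smul, e1]
    rw [hΦ.hom _ _ _ (by rw [norm_div, Complex.norm_real, norm_norm, div_self h2])]
    refine Prod.ext (e2 _ _) (Prod.ext (e2 _ _) ?_)
    simp only [Prod.smul_snd, smul_smul, mul_div_assoc]
  · simp only [hext, hN.inv]
    rw [← ContinuousLinearMap.map_smul_of_tower, hΦ.inv]
    exact Prod.ext ((F.gW l).map_smul_of_tower _ _).symm rfl
  · obtain ⟨c, S, hc, hS, k⟩ := hN.bd hΦ hρ R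
    refine ⟨(fun y : ℝ × (W × Cv p × Rv n) => y.1 • y.2) '' (Icc 0 (c * R / ρ) ×ˢ S),
      (isCompact_Icc.prod hS).image (continuous_fst.smul continuous_snd), fun v h h1 h2 =>
      ⟨(N (v, h) / ρ, _), ⟨⟨div_nonneg (hN.nonneg _) hρ.le, ?_⟩, (k v h h2).2⟩, rfl⟩⟩
    exact div_le_div_of_nonneg_right ((k v h h2).1.trans
      (mul_le_mul_of_nonneg_left h1 hc.le)) hρ.le

theorem tot_hext (hN : INorm F N) (hρ : 0 < ρ) {q : V × Rv b} (hq : q.1 ≠ 0) :
    F.tot (hext N ρ Φ) q = (N q / ρ) • F.tot Φ ((ρ / N q) • q.1, q.2) := by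
  have := (hN.pos hq q.2).ne'
  refine Prod.ext ?_ rfl
  simp only [Fam.tot, hext, Prod.smul_fst, smul_add]
  rw [ContinuousLinearMap.map_smul_of_tower, smul_smul,
    show N q / ρ * (ρ / N q) = 1 by field_simp, one_smul]

theorem zero_hext (hN : INorm F N) (hρ : 0 < ρ) {v : V} {h : Rv b} (hv : v ≠ 0)
    (k : F.tot (hext N ρ Φ) (v, h) = 0) : F.tot Φ ((ρ / N (v, h)) • v, h) = 0 := by
  rw [tot_hext hN hρ hv] at k
  exact (smul_eq_zero.1 k).resolve_left (div_pos (hN.pos hv h) hρ).ne'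

variable [CompleteSpace V] [CompleteSpace H] [CompleteSpace W]

/-- `FBA` for maps on the sphere -/
theorem fba_sph (hA : FBA_statement) (hN : INorm F N) (hΦ : SMap F Φ) (hn : 1 ≤ n)
    (hi : 2 * (F.D 0 : V →ₗ[ℂ] W).index + b = 2 * p + n + 2) {v₀ : V} {h₀ : Rv b} (h0 : v₀ ≠ 0)
    (h1 : F.tot Φ (v₀, h₀) = 0) (h2 : ∀ v h, N (v, h) = N (v₀, h₀) → F.tot Φ (v, h) = 0 →
      ∃ (l : Fin b → ℤ) (z : ℂ), h = sh h₀ l ∧ v = z • F.gV l v₀)
    (hd : DifferentiableAt ℝ N (v₀, h₀)) {L : V × Rv b →L[ℝ] W × Cv p × Rv n}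
    (h3 : HasFDerivAt (F.tot Φ) L (v₀, h₀)) (h4 : ∀ q, L q = 0 → ∃ z : ℂ, q = (z • v₀, 0)) :
    False := by
  have hρ := hN.pos h0 h₀
  set ρ := N (v₀, h₀) with eρ
  have e1 : ((ρ / N (v₀, h₀)) • v₀, h₀) = (v₀, h₀) := by rw [← eρ, div_self hρ.ne', one_smul]
  have d1 : HasFDerivAt (fun q => ρ / N q) _ (v₀, h₀) :=
    DifferentiableAt.hasFDerivAt (by
      simp only [div_eq_mul_inv]; exact (hd.fun_inv hρ.ne').const_mul ρ)
  have d2 := (d1.smul (hasFDerivAt_fst (p := (v₀, h₀)))).prodMk (hasFDerivAt_snd (p := (v₀, h₀)))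
  have d3 := (hd.hasFDerivAt.const_mul ρ⁻¹).smul (HasFDerivAt.comp (v₀, h₀) (e1.symm ▸ h3) d2)
  refine fba_real hA F (kmap_of hN hΦ hρ) hn hi h0 (by rw [tot_hext hN hρ h0, e1, h1, smul_zero])
    (fun v h hv k => ?_) (d3.congr_of_eventuallyEq ?_) fun q k => ?_
  · obtain ⟨l, z, a1, a2⟩ := h2 _ h (hN.sph hρ hv h) (zero_hext hN hρ hv k)
    refine ⟨l, ((N (v, h) / ρ : ℝ) : ℂ) * z, a1, ?_⟩
    have := (hN.pos hv h).ne'
    rw [mul_smul, ← a2, ← Complex.coe_algebraMap, algebraMap_smul, smul_smul,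
      show N (v, h) / ρ * (ρ / N (v, h)) = 1 by field_simp, one_smul]
  · filter_upwards [(isOpen_ne.preimage continuous_fst).mem_nhds (show (v₀, h₀).1 ≠ 0 from h0)]
      with q hq
    rw [tot_hext hN hρ hq, div_eq_inv_mul]
    rfl
  · simp only [Function.comp_apply, Pi.smul_apply', e1, h1, ← eρ, inv_mul_cancel₀ hρ.ne',
      div_self hρ.ne', one_smul, ContinuousLinearMap.add_apply, ContinuousLinearMap.smulRight_apply,
      smul_zero, add_zero, ContinuousLinearMap.comp_apply, ContinuousLinearMap.prod_apply,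
      ContinuousLinearMap.coe_fst', ContinuousLinearMap.coe_snd'] at k
    obtain ⟨z, hz⟩ := h4 _ k
    generalize fderiv ℝ (fun q => ρ / N q) (v₀, h₀) q = κ at hz
    refine ⟨z - κ, Prod.ext ?_ (Prod.ext_iff.1 hz).2⟩
    rw [sub_smul, ← Complex.coe_algebraMap, algebraMap_smul]
    exact eq_sub_of_add_eq (Prod.ext_iff.1 hz).1

/-- `FBB` for maps on the sphere -/
theorem fbb_sph (hB : FBB_statement) {F : Fam 2 V H W} {N : V × Rv 2 → ℝ}
    {Φ : V × Rv 2 → W × Cv 0 × Rv 0} (hN : INorm F N) (hΦ : SMap F Φ) (hρ : 0 < ρ)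
    (hi : (F.D 0 : V →ₗ[ℂ] W).index = 0) (h0 : ∀ v h, N (v, h) = ρ → F.tot Φ (v, h) ≠ 0) :
    ∃ (A : Rv 2 → H →L[ℂ] W) (c : ℝ), Continuous A ∧ 0 < c ∧
      (∀ l h y, A (sh h l) (F.gH l y) = F.gW l (A h y)) ∧
      ∀ h v, c * ‖F.J v‖ ≤ ‖F.D h v + A h (F.J v)‖ :=
  hB V H W F _ (kmap_of hN hΦ hρ) hi fun v h hv k => h0 _ h (hN.sph hρ hv h) (zero_hext hN hρ hv k)

end Vale.Agent.P247W
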