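import Vale.Agent.P247E.Root
import Vale.Agent.P247W.Gau
import Vale.Agent.P247W.Hom

/-!
# P247W, block BP: eigenspinors with a positivity property, pointwise algebra
-/

set_option linter.all false

open scoped ContDiff Topology ENNReal ComplexConjugate
open Set MeasureTheory Filter

noncomputable section

namespace Vale.Agent.P247W.Bp

open Vale.Agent.P204.GX Vale.Agent.P204.T4 Vale.Agent.P247E Vale.Agent.P247E.QEig
open Vale.Agent.P247E.R
open Vale.Agent.P247.H647 (Sp En sig pau len P3 jf hat jz symb nz len_sq len_nonneg P3_fin P3_symm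
  P3_sq norm_P3 nz_nonneg)

/-- the base direction -/
def u0 : Fin 3 → ℝ := Pi.single 2 1

theorem len_u0 : len u0 = 1 := by rw [len, Fin.sum_univ_three]; simp [u0]

/-- the complex constraint -/
def lam (c : Fin 3 → ℝ) (y : Sp) : ℂ := (c 0 + c 1 * Complex.I) * y 0 + (len c - c 2 : ℝ) * y 1

theorem lam_zero {u : Fin 3 → ℝ} {r : ℝ} {s y : Sp} (hr : 0 < r) (hu : len u = 1)
    (hs : P3 u s = s) (hy : inner ℂ s y ≠ 0) (h : lam (r • u) y = 0) : u = u0 := by
  have h1 : (∑ k, u k ^ 2 : ℝ) = 1 := by rw [← len_sq, hu, one_pow]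
  have e1 : P3 u (y + P3 u y) = y + P3 u y := by
    rw [map_add, P3_sq, h1, Complex.ofReal_one, one_smul, add_comm]
  have e2 : (y + P3 u y) 1 = 0 := by
    have : (r : ℂ) * (y + P3 u y) 1 = 0 := by
      rw [← h, lam, len_smul' hr.le, hu, PiLp.add_apply, P3_fin]
      simp
      ring
    exact (mul_eq_zero.1 this).resolve_left (by exact_mod_cast hr.ne')
  have e3 : inner ℂ s (y + P3 u y) ≠ 0 := by
    rw [inner_add_right, P3_symm, hs, ← two_mul]
    exact mul_ne_zero two_ne_zero hy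
  generalize y + P3 u y = p at e1 e2 e3
  have e4 : p 0 ≠ 0 := fun h0 => e3 (by rw [P247.H647.inner_sp, h0, e2]; simp)
  have a0 := congrArg (fun v : Sp => v 0) e1
  have a1 := congrArg (fun v : Sp => v 1) e1
  simp only [P3_fin, e2, mul_zero, add_zero, sub_zero, Matrix.cons_val_zero, Matrix.cons_val_one]
    at a0 a1
  have b0 : (u 2 : ℂ) = 1 := mul_right_cancel₀ e4 (a0.trans (one_mul _).symm)
  have b1 := (mul_eq_zero.1 a1).resolve_right e4
  have b2 := congrArg Complex.re b1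
  have b3 := congrArg Complex.im b1
  simp at b2 b3
  funext k
  fin_cases k
  · simpa [u0] using b2
  · simpa [u0] using b3
  · simpa [u0] using b0

theorem dot_spin (ν : Fin 3 → ℝ) (ψ : Sp) :
    ∑ k, ν k * spin ψ k = (inner ℂ ψ (P3 ν ψ)).re := by
  rw [P247.H647.P3_apply, inner_sum, Complex.re_sum]
  exact Finset.sum_congr rfl fun k _ => by rw [inner_smul_right, Complex.re_ofReal_mul, spin]

theorem eig_of_F {R : ℝ} (hR : 0 < R) {ν : Fin 3 → ℝ} {ψ : Sp} (h1 : 2 * len ν < R ^ 2)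
    (h : ∀ k, ν k - 1 / 2 * qT R ψ k = 0) : ‖ψ‖ ^ 2 = 2 * len ν ∧ P3 ν ψ = (len ν : ℂ) • ψ := by
  have g0 := gq_pos hR (‖ψ‖ ^ 2)
  have e1 : ν = (gq R (‖ψ‖ ^ 2) / 2) • spin ψ := funext fun k => by
    have := h k
    rw [qT] at this
    rw [Pi.smul_apply, smul_eq_mul, spin]
    linarith
  have e2 : len ν = gq R (‖ψ‖ ^ 2) / 2 * ‖ψ‖ ^ 2 := by
    conv_lhs => rw [e1, len_smul' (by positivity), len_spin]
  have e3 : gq R (‖ψ‖ ^ 2) = 1 := by
    rcases gq_cases hR (‖ψ‖ ^ 2) with k | k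
    · exact k.2
    · linarith [k.2]
  rw [e3] at e1 e2
  refine ⟨by linarith, ?_⟩
  have e4 : (inner ℂ ψ (P3 ν ψ)).re = len ν * ‖ψ‖ ^ 2 := by
    rw [← dot_spin, e2]
    conv_lhs => rw [e1]
    rw [mul_assoc, ← sq, ← spin_sq, Finset.mul_sum]
    exact Finset.sum_congr rfl fun k _ => by rw [Pi.smul_apply, smul_eq_mul]; ring
  have e5 : ‖(len ν : ℂ) • ψ - P3 ν ψ‖ ^ 2 = 0 := by
    rw [@norm_sub_sq ℂ, inner_smul_left, norm_smul, norm_P3, Complex.conj_ofReal,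
      Complex.norm_real, Real.norm_of_nonneg (len_nonneg _)]
    simp only [RCLike.re_to_complex, Complex.re_ofReal_mul, e4]
    ring
  exact (sub_eq_zero.1 (norm_eq_zero.1 (pow_eq_zero_iff two_ne_zero |>.1 e5))).symm

theorem inner_eig_zero {ν : Fin 3 → ℝ} {l : ℝ} (hl : l ≠ 0) {f g : Sp} (h1 : P3 ν f = (l : ℂ) • f)
    (h2 : P3 ν g = -(l : ℂ) • g) : inner ℂ g f = 0 := by
  have h3 := P3_symm ν g f
  rw [h1, h2, inner_smul_left, inner_smul_right, map_neg, Complex.conj_ofReal] at h3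
  have h4 : (2 * l : ℂ) * inner ℂ g f = 0 := by linear_combination h3
  exact (mul_eq_zero.1 h4).resolve_left (mul_ne_zero two_ne_zero (by exact_mod_cast hl))

theorem sgm_inj {t : V4} {f : Sp} (hf : f ≠ 0) (h : sgm t f = 0) : t = 0 := by
  have k := norm_sgm_sq t f
  rw [h, norm_zero, zero_pow two_ne_zero] at k
  have k1 := (mul_eq_zero.1 k.symm).resolve_right (pow_ne_zero _ (norm_ne_zero_iff.2 hf))
  exact funext fun c => pow_eq_zero_iff two_ne_zero |>.1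
    ((Finset.sum_eq_zero_iff_of_nonneg fun _ _ => sq_nonneg _).1 k1 c (Finset.mem_univ c))

theorem symb_real (z : ℂ) (t : V4) (f : Sp) : symb (fun c => z * (t c : ℂ)) f = z • sgm t f := by
  rw [P247.H647.symb_apply, sgm_apply, Finset.smul_sum]
  exact Finset.sum_congr rfl fun c _ => mul_smul _ _ _

theorem lin_real {B r l a w z y W X P E S : ℝ} (hB : 1 ≤ B) (hr : 200 * B ^ 7 ≤ r)
    (hl1 : 1 / B ≤ l) (hw : 0 ≤ w) (hz : 0 ≤ z) (hX : X ^ 2 ≤ 2 * W ^ 2 + 2 * (B * w) ^ 2)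
    (hP : |P| ≤ 8 * B ^ 2 * (z * w)) (hE : |E| ≤ B * (z * w))
    (hS : S = (l * z ^ 2 - W ^ 2 / 2 + 4 * r * l ^ 2 * a ^ 2) + (l * y ^ 2 - X ^ 2 / 2) +
      3 / 2 * (W ^ 2 + P + 4 * r * l ^ 2 * w ^ 2 + E)) : 0 ≤ S ∧ (S = 0 → a = 0 ∧ w = 0) := by
  have hB0 : 0 < B := by linarith
  have hl0 : 0 < l := lt_of_lt_of_le (by positivity) hl1
  have hr0 : 0 < r := lt_of_lt_of_le (by positivity) hr
  have hlB : 1 ≤ l * B := by rwa [div_le_iff₀ hB0] at hl1
  have e2 : 3 / 2 * (9 * B ^ 2 * (z * w)) ≤ l * z ^ 2 / 2 + 100 * B ^ 5 * w ^ 2 := by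
    have a0 : 0 ≤ (z - 14 * B ^ 3 * w) ^ 2 / (2 * B) := by positivity
    have a1 : (z - 14 * B ^ 3 * w) ^ 2 / (2 * B) =
      1 / B * z ^ 2 / 2 + 98 * B ^ 5 * w ^ 2 - 14 * B ^ 2 * (z * w) := by field_simp; ring
    have a2 : 1 / B * z ^ 2 ≤ l * z ^ 2 := mul_le_mul_of_nonneg_right hl1 (sq_nonneg _)
    have a3 : 0 ≤ B ^ 2 * (z * w) := by positivity
    have a4 : 0 ≤ B ^ 5 * w ^ 2 := by positivity
    linarith
  have e3 : -(9 * B ^ 2 * (z * w)) ≤ P + E := by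
    have a3 : B * (z * w) ≤ B ^ 2 * (z * w) :=
      mul_le_mul_of_nonneg_right (by nlinarith) (by positivity)
    linarith [(abs_le.1 hP).1, (abs_le.1 hE).1]
  have e4 : 200 * B ^ 5 * w ^ 2 ≤ r * l ^ 2 * w ^ 2 := by
    refine mul_le_mul_of_nonneg_right ?_ (sq_nonneg w)
    have a1 : 1 * (200 * B ^ 5) ≤ (l * B) ^ 2 * (200 * B ^ 5) :=
      mul_le_mul_of_nonneg_right (one_le_pow₀ hlB) (by positivity)
    have a3 := mul_le_mul_of_nonneg_right hr (sq_nonneg l)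
    linarith
  have e5 : (B * w) ^ 2 ≤ B ^ 5 * w ^ 2 := by
    rw [mul_pow]
    exact mul_le_mul_of_nonneg_right (pow_le_pow_right₀ hB (by norm_num)) (sq_nonneg _)
  have p1 : 0 ≤ l * z ^ 2 := by positivity
  have p2 : 0 ≤ l * y ^ 2 := by positivity
  have p3 : 0 ≤ r * l ^ 2 * a ^ 2 := by positivity
  have p4 : 0 ≤ r * l ^ 2 * w ^ 2 := by positivity
  have p5 : 0 ≤ B ^ 5 * w ^ 2 := by positivity
  have key : r * l ^ 2 * a ^ 2 + r * l ^ 2 * w ^ 2 ≤ S := by linarith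
  have p6 : r * l ^ 2 ≠ 0 := by positivity
  refine ⟨by linarith, fun h0 => ⟨?_, ?_⟩⟩
  · exact pow_eq_zero_iff two_ne_zero |>.1 ((mul_eq_zero.1
      (by linarith : r * l ^ 2 * a ^ 2 = 0)).resolve_left p6)
  · exact pow_eq_zero_iff two_ne_zero |>.1 ((mul_eq_zero.1
      (by linarith : r * l ^ 2 * w ^ 2 = 0)).resolve_left p6)

/-- the linearised vanishing inequality; `t = √r` -/
theorem lin_pw {B t E : ℝ} {f f' zm : Sp} {ν F : Fin 3 → ℝ} {α β : ℂ} {ζ η : Fin 4 → ℂ}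
    (hB : 1 ≤ B) (hr : 200 * B ^ 7 ≤ t ^ 2) (hl1 : 1 / B ≤ len ν) (hl2 : len ν ≤ B)
    (hf : ‖f‖ ^ 2 = 2 * len ν) (hf' : ‖f'‖ ^ 2 = 2 * len ν) (h1 : P3 ν f = (len ν : ℂ) • f)
    (h2 : P3 ν f' = -(len ν : ℂ) • f') (hzm : ‖zm‖ ≤ B)
    (hD : symb ζ f + symb η f' + β • zm = 0)
    (hF : ∀ k, F k = -(t * (inner ℂ f (pau k (α • f + β • f'))).re))
    (hE : |E| ≤ B * (nz ζ * ‖β‖)) (S : ℝ)
    (hS : S = (∑ k, ν k * (hat (jz ζ) k - 2 * t * α.re * F k)) - (∑ k, ν k * hat (jz η) k) +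
      3 / 2 * (∑ k, (hat (jzR ζ fun c => inner ℂ f (pau k f') * η c) k -
        t * (inner ℂ f (pau k f') * β).re * F k) + E)) :
    0 ≤ S ∧ (S = 0 → α.re = 0 ∧ β = 0) := by
  have hB0 : 0 < B := by linarith
  have hl0 : 0 < len ν := lt_of_lt_of_le (by positivity) hl1
  have hν : ∀ k, spin f k = 2 * ν k := fun k => by
    rw [spin, P247.H647.inner_eig hl0.ne' h1, hf]
    field_simp
  obtain ⟨c, hc, rfl⟩ := exists_phase hl0 hf hf' h1 h2
  have e2 : ∀ k, inner ℂ f (pau k (c • jf f)) * β = (c * β) * zz f k := fun k => by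
    rw [map_smul, inner_smul_right, zz]; ring
  have e3 : ∀ k, (inner ℂ f (pau k f)).im = 0 := fun k => by
    fin_cases k <;> simp [P247.H647.inner_sp, P247.H647.pau0_apply, P247.H647.pau1_apply,
      P247.H647.pau2_apply] <;> ring
  have hFk : ∀ k, F k = -(t * (2 * α.re * ν k + ((c * β) * zz f k).re)) := fun k => by
    rw [hF, map_add, map_smul, map_smul (pau k) β, inner_add_right, inner_smul_right,
      inner_smul_right, mul_comm β, e2, Complex.add_re, Complex.mul_re α, e3, ← spin, hν]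
    ring
  have g1 : ∑ k, ν k * ((c * β) * zz f k).re = 0 := by
    have := spin_zz f (c * β)
    simp only [hν, mul_assoc (2 : ℝ)] at this
    rw [← Finset.mul_sum] at this
    linarith
  have g2 : ∑ k, ν k ^ 2 = len ν ^ 2 := (len_sq ν).symm
  have g3 : ∑ k, ((c * β) * zz f k).re ^ 2 = 4 * len ν ^ 2 * ‖β‖ ^ 2 := by
    rw [zz_sq, hf, norm_mul, hc]; ring
  have hN1 : ∑ k, ν k * hat (jz ζ) k = len ν * nz ζ ^ 2 - ‖symb ζ f‖ ^ 2 / 2 := by
    have := alg_diag ζ f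
    simp only [hν, mul_assoc] at this
    rw [← Finset.mul_sum, hf] at this
    linarith
  have hN2 : ∑ k, ν k * hat (jz η) k = -(len ν * nz η ^ 2 - ‖symb η (c • jf f)‖ ^ 2 / 2) := by
    have := alg_diag η (c • jf f)
    have e4 : ∀ k, spin (c • jf f) k = -(2 * ν k) := fun k => by
      have := spin_comb f 0 c k
      simp only [zero_smul, zero_add, hc, hν, norm_zero, map_zero, zero_mul] at this
      rw [this]; simp
    simp only [e4, neg_mul, mul_assoc] at this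
    rw [Finset.sum_neg_distrib, ← Finset.mul_sum, hf'] at this
    linarith
  have hXW : symb η (c • jf f) = -(symb ζ f + β • zm) := by
    rw [eq_neg_iff_add_eq_zero, ← hD]; abel
  have hN3 : ∑ k, hat (jzR ζ fun d => inner ℂ f (pau k (c • jf f)) * η d) k =
      ‖symb ζ f‖ ^ 2 + (inner ℂ (symb ζ f) (β • zm)).re := by
    have := alg_pol ζ η f (c • jf f)
    rw [inner_smul_right, inner_jf, mul_zero, mul_zero, Complex.zero_re, zero_sub, hXW,
      inner_neg_right, inner_add_right, Complex.neg_re, neg_neg, Complex.add_re,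
      inner_self_eq_norm_sq_to_K] at this
    refine this.trans ?_
    congr 1
    have : (((‖symb ζ f‖ : ℝ) : ℂ) ^ 2).re = ‖symb ζ f‖ ^ 2 := by norm_cast
    exact this
  have hzb : ‖β • zm‖ ≤ B * ‖β‖ := by
    rw [norm_smul, mul_comm]; exact mul_le_mul_of_nonneg_right hzm (norm_nonneg _)
  have hX : ‖symb η (c • jf f)‖ ^ 2 ≤ 2 * ‖symb ζ f‖ ^ 2 + 2 * (B * ‖β‖) ^ 2 := by
    rw [hXW, norm_neg]
    have a1 := (norm_add_le (symb ζ f) (β • zm)).trans (add_le_add_right hzb _)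
    have a2 := pow_le_pow_left₀ (norm_nonneg _) a1 2
    nlinarith [sq_nonneg (‖symb ζ f‖ - B * ‖β‖)]
  have hP : |(inner ℂ (symb ζ f) (β • zm)).re| ≤ 8 * B ^ 2 * (nz ζ * ‖β‖) := by
    refine (Complex.abs_re_le_norm _).trans ((norm_inner_le_norm _ _).trans ?_)
    have a1 : ‖f‖ ≤ 2 * B := by nlinarith [norm_nonneg f]
    have a2 : ‖symb ζ f‖ ≤ 4 * nz ζ * (2 * B) := (P247.H647.norm_symb_le ζ f).trans
      (mul_le_mul_of_nonneg_left a1 (by have := nz_nonneg ζ; positivity))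
    calc _ ≤ (4 * nz ζ * (2 * B)) * (B * ‖β‖) :=
          mul_le_mul a2 hzb (norm_nonneg _) (by have := nz_nonneg ζ; positivity)
      _ = _ := by ring
  have key := lin_real (a := α.re) (y := nz η) (S := S) hB hr hl1 (norm_nonneg β) (nz_nonneg ζ) hX
    hP hE (by
      rw [hS]
      simp only [mul_sub, Finset.sum_sub_distrib, hN1, hN2, hN3, e2, hFk]
      rw [Fin.sum_univ_three] at g1 g2 g3
      rw [Fin.sum_univ_three, Fin.sum_univ_three]
      linear_combination (4 * t ^ 2 * α.re ^ 2) * g2 + (5 * t ^ 2 * α.re) * g1 +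
        (3 / 2 * t ^ 2) * g3)
  exact ⟨key.1, fun h => ⟨(key.2 h).1, norm_eq_zero.1 (key.2 h).2⟩⟩

variable {X : Type} [MetricSpace X] [CompactSpace X] [MeasurableSpace X] [BorelSpace X] (Q : QM X)

theorem eig' : ∃ C, ∀ B, C ≤ B → ∀ u, len u = 1 → ∃ (E : Eig Q B (Zu Q u) u) (s : Sp),
    P3 u s = s ∧ ∀ x, 0 < (inner ℂ s (E.fp x)).re := by
  have hK := isCompact_sph.prod (isCompact_closedBall (0 : Sp) 1)
  have hτ := tau_sm Q
  obtain ⟨C₁, h1⟩ := bd_of hτ hK (Φ := lamU) fun p hp x => cd_lamU (good Q hp.1 x)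
  obtain ⟨C₂, h2⟩ := bd_of hτ hK (Φ := fun w => (lamU w)⁻¹) fun p hp x => cd_inv (good Q hp.1 x)
  obtain ⟨C₃, h3⟩ := bd_of hτ hK (Φ := fmU) fun p hp x => cd_fmU (good Q hp.1 x)
  choose C₄ h4 using fun j => bd_of hτ hK (Φ := hU j) fun p hp x => cd_hU j (good Q hp.1 x)
  obtain ⟨C₅, h5⟩ := (Set.finite_range C₄).bddAbove
  refine ⟨max (max C₁ C₂) (max C₃ C₅), fun B hB u hu => ?_⟩
  simp only [max_le_iff] at hB
  obtain ⟨s, hs1, hs⟩ := exists_eig u hu
  have hp : (u, s) ∈ {u : R3 | len u = 1} ×ˢ Metric.closedBall (0 : Sp) 1 :=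
    ⟨hu, mem_closedBall_zero_iff.2 hs1.le⟩
  have g := good Q hu
  have fp_sm : SmF Q.toCM fun x => fpU ((u, s), tau Q x) := smF_of hτ fun x => cd_fpU (g x)
  have fm_sm : SmF Q.toCM fun x => fmU ((u, s), tau Q x) := smF_of hτ fun x => cd_fmU (g x)
  have gp_sm : SmF Q.toCM fun x => gpU ((u, s), tau Q x) := smF_of hτ fun x => cd_gpU (g x)
  have gm_sm : SmF Q.toCM fun x => gmU ((u, s), tau Q x) := smF_of hτ fun x => cd_gmU (g x)
  have fp_norm : ∀ x, ‖fpU ((u, s), tau Q x)‖ ^ 2 = 2 * len (Q.nu u x) := fun x =>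
    norm_NN hs hs1 rfl (g x).2
  have fp_eig : ∀ x, P3 (Q.nu u x) (fpU ((u, s), tau Q x)) =
      (len (Q.nu u x) : ℂ) • fpU ((u, s), tau Q x) := fun x => P3_NN _ _ _
  have dec : ∀ x (ψ : Sp), ψ = inner ℂ (gpU ((u, s), tau Q x)) ψ • fpU ((u, s), tau Q x) +
      inner ℂ (gmU ((u, s), tau Q x)) ψ • fmU ((u, s), tau Q x) := by
    intro x ψ
    have h0 : (2 * len (Q.nu u x) : ℝ) ≠ 0 := (mul_pos two_pos (g x).1).ne'
    rw [gpU, gmU, rsmul, rsmul, inner_smul_left, inner_smul_left, mul_smul, mul_smul, ← smul_add,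
      fmU, QEig.dec_jf, fp_norm, smul_smul, Complex.conj_ofReal, ← Complex.ofReal_mul]
    erw [inv_mul_cancel₀ h0]
    rw [Complex.ofReal_one, one_smul]
  refine ⟨{
    fp := fun x => fpU ((u, s), tau Q x)
    fm := fun x => fmU ((u, s), tau Q x)
    gp := fun x => gpU ((u, s), tau Q x)
    gm := fun x => gmU ((u, s), tau Q x)
    h := fun j x => hU j ((u, s), tau Q x)
    fp_sm := fp_sm
    fm_sm := fm_sm
    gp_sm := gp_sm
    gm_sm := gm_sm
    h_sm := fun j => smF_of hτ fun x => cd_hU j (g x)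
    lam_ge := fun x => inv_le_of_inv_le₀ (g x).1
      ((le_abs_self _).trans (h2 B hB.1.2 _ hp x 0).1)
    lam_le := fun x => (le_abs_self _).trans (h1 B hB.1.1 _ hp x 0).1
    fp_norm := fp_norm
    fm_norm := fun x => (norm_jf_sq _).trans (fp_norm x)
    fp_eig := fp_eig
    fm_eig := fun x => P3_jf (fp_eig x)
    gp_eq := fun x => rsmul _ _
    gm_eq := fun x => rsmul _ _
    dec := dec
    ddec := fun x ψ c => df_dec fp_sm gp_sm fm_sm gm_sm ψ (fun x => dec x ψ) x c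
    dir_fp := fun x => ?_
    Z_fm := fun x => ?_
    dfm_le := fun x c => (h3 B hB.2.1 _ hp x c).2
    h_eq := fun x k => ?_
    dh_le := fun j x c => (h4 j B ((h5 ⟨j, rfl⟩).trans hB.2.2) _ hp x c).2 }, s, hs, fun x => ?_⟩
  · have hN : SmF Q.toCM fun x => NU (u, tau Q x) := smF_of hτ fun x => cd_NU (g x)
    have e1 : RU (u, tau Q x) (fpU ((u, s), tau Q x)) = -s := RR_NN hs rfl (g x).2 (g x).1
    rw [Zu, GU, ContinuousLinearMap.sum_apply, ← Finset.sum_add_distrib]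
    refine Finset.sum_eq_zero fun c _ => ?_
    have e2 : df Q.toCM (fun x => fpU ((u, s), tau Q x)) x c =
        fderiv ℝ NU (u, tau Q x) (0, df Q.toCM (tau Q) x c) s := by
      rw [← df_of hτ fun x => cd_NU (g x)]
      exact df_app hN s x c
    rw [e2, ContinuousLinearMap.mul_apply, ContinuousLinearMap.mul_apply, e1, map_neg, map_neg,
      add_neg_cancel]
  · have e1 : RU (u, tau Q x) (fmU ((u, s), tau Q x)) = 0 := RR_neg _ _ _ (P3_jf (fp_eig x))
    rw [Zu, GU, ContinuousLinearMap.sum_apply]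
    refine Finset.sum_eq_zero fun c _ => ?_
    rw [ContinuousLinearMap.mul_apply, ContinuousLinearMap.mul_apply, e1, map_zero, map_zero]
  · simp only [hU, Finset.sum_mul, mul_assoc]
    rw [Finset.sum_comm]
    have e1 : ∀ k', ∑ j, (((tau Q x).2 k' j : ℝ) : ℂ) * (Q.T x j k : ℂ) =
        if k' = k then 1 else 0 := fun k' => by
      have := congrArg (fun r : ℝ => (r : ℂ)) (Q.inv_T x k' k)
      simp only [Complex.ofReal_sum, Complex.ofReal_mul] at this
      refine Eq.trans this ?_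
      split_ifs <;> simp
    simp only [← Finset.mul_sum, e1, mul_ite, mul_one, mul_zero, Finset.sum_ite_eq',
      Finset.mem_univ, if_true]
  · show 0 < (inner ℂ s (QEig.NN (Q.nu u x) (dU u (tau Q x)) s)).re
    rw [NN_apply, inner_smul_right, inner_add_right, inner_smul_right, inner_P3 hs hs1,
      inner_self_eq_norm_sq_to_K, hs1, Complex.re_ofReal_mul]
    refine mul_pos (inv_pos.2 (Real.sqrt_pos.2 (g x).2)) ?_
    have := (g x).2
    simpa [dU, nu_eq] using this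

/-- the family of zero order terms, with positive eigenspinors -/
structure ZPos (B : ℝ) (Z : (Fin 3 → ℝ) → X → En) : Prop extends ZFam Q B Z where
  ray : ∀ t : ℝ, 1 ≤ t → Z (t • u0) = Z u0
  eigp : ∀ c, 1 ≤ len c → ∃ (E : Eig Q B (Z c) ((len c)⁻¹ • c)) (s : Sp),
    P3 ((len c)⁻¹ • c) s = s ∧ ∀ x, 0 < (inner ℂ s (E.fp x)).re

theorem zpos : ∃ B Z, ZPos Q B Z := by
  obtain ⟨C₁, h1⟩ := eig' Q
  obtain ⟨C₂, h0, h2⟩ := ZZ_bd Q
  have h3 : ∀ c, 1 ≤ len c → ZZ Q c = Zu Q ((len c)⁻¹ • c) := fun c hc => funext fun x => by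
    rw [ZZ, min_eq_right hc, one_smul]
  have h4 : ∀ c, 1 ≤ len c → ∃ (E : Eig Q (max (max C₁ C₂) 1) (ZZ Q c) ((len c)⁻¹ • c)) (s : Sp),
      P3 ((len c)⁻¹ • c) s = s ∧ ∀ x, 0 < (inner ℂ s (E.fp x)).re := fun c hc => by
    rw [h3 c hc]
    exact h1 _ ((le_max_left _ _).trans (le_max_left _ _)) _ (len_unit (one_pos.trans_le hc))
  refine ⟨max (max C₁ C₂) 1, ZZ Q, ⟨lt_of_lt_of_le one_pos (le_max_right _ _), ZZ_hom Q,
    fun c x => (h2 c x).trans ?_, ZZ_cont Q, fun c hc => ⟨(h4 c hc).choose⟩⟩, fun t ht => ?_, h4⟩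
  · exact (mul_le_of_le_one_left h0 (min_le_right _ _)).trans
      ((le_max_right _ _).trans (le_max_left _ _))
  · have e1 : len (t • u0) = t := by rw [len_smul' (by linarith), len_u0, mul_one]
    rw [h3 _ (by rwa [e1]), h3 _ len_u0.ge, e1, len_u0, smul_smul, inv_mul_cancel₀ (by linarith),
      inv_one]

end Vale.Agent.P247W.Bp
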