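import Vale.Agent.P247W.BSmap
import Vale.Agent.P247W.BApb
import Vale.Agent.P247W.BRge
import Vale.Agent.P247W.BUnq
import Vale.Agent.P247W.BNq
import Vale.Agent.P247W.BBse
import Vale.Agent.P247W.BDif
import Vale.Agent.P247W.BKr1

/-!
# P247W, block BP: the row `BPQ`
-/

set_option linter.all false

namespace Vale.Agent.P247W

theorem bpq : BPQ_statement :=
  Bp.bpq_of Bp.smap Bp.sol Bp.apb Bp.rge Bp.unq Bp.nqd Bp.bse Bp.dif Bp.kr1 Bp.kr2 Bp.nnd

end Vale.Agent.P247W
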