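import Vale.Agent.P247W.Mod4

/-!
# P247W: coordinates on the cokernel of the Hodge operator
-/

set_option linter.all false

open scoped ContDiff Topology ComplexConjugate
open Set MeasureTheory Module

noncomputable section

namespace Vale.Agent.P247W

open Vale.Agent.P204.GX Vale.Agent.P204.T4 Vale.Agent.P247E Vale.Agent.P247E.Solv
open Vale.Agent.P247.H647 (Sp hat)

variable {X : Type} [MetricSpace X] [CompactSpace X] [MeasurableSpace X] [BorelSpace X]
  [ConnectedSpace X] {Q : QM X} {H : Op Q.t1 Q.t0} {b : ℕ}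

namespace Ck

theorem Q_nonpos {A : L2} (h : Hx.hc A = 0) : P204.T4.Q A A ≤ 0 := by
  have k0 : A 0 + A 5 = 0 := congrFun h 1
  have k1 : A 1 - A 4 = 0 := congrFun h 2
  have k2 : A 2 + A 3 = 0 := congrFun h 3
  rw [P204.T4.Q, show A 5 = -A 0 by linarith, show A 4 = A 1 by linarith,
    show A 3 = -A 2 by linarith]
  nlinarith [sq_nonneg (A 0), sq_nonneg (A 1), sq_nonneg (A 2)]

theorem hc_mem {u : X → L2} (h : u ∈ Q.Om) : (fun x => spn (Hx.hc (u x))) ∈ Q.t0.Sm :=
  Hx.triv_sm.2 fun a => by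
    simpa only [Q.eq_pull_m' u a, Hx.hc_m', Function.comp_def, spnL_apply] using spnL.contDiff.comp
      (Hx.hc.contDiff.comp (contDiff_pull.comp ((Q.n'_smooth a).prodMk (h a))))

/-- if the cokernel is minimal then `b⁺ ≤ 3` -/
theorem bp3_of (hH : Q.IsHod H) (h : H.adj.kerS ⊆ LinearMap.range (Λ Q)) : BP3 Q.toCM := by
  rintro ⟨c, h1, h2⟩
  have k : ∀ i, ∃ (η : X → V4) (a : Fin 3 → ℝ), Q.Sm1 η ∧
      ∀ x (k : Fin 3), Hx.hc (c i x - Q.dX η x) k.succ = Q.nu a x k := fun i => by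
    obtain ⟨s, hs, t, ht, e⟩ := sm_dec H.isAdj_adj (IsHod.cliff hH).gar (IsHod.cliff' hH).gar
      (hc_mem (h1 i).1)
    obtain ⟨a, rfl⟩ := h ht
    refine ⟨_, a.2, (Q.mem_t1 s).1 hs, fun x k => ?_⟩
    have := congrArg (fun z => vecL z k.succ) (congrFun e x)
    simp only [Pi.add_apply, map_add, vecL_apply, vec_spn, vec_Λ, Fin.cons_succ, hH.curl s hs,
      ← Hx.hc_succ] at this
    rw [map_sub, Pi.sub_apply, this, add_sub_cancel_left]
  choose η a s e using k
  obtain ⟨v, hv, i, v0⟩ := Fintype.not_linearIndependent_iff.1 fun l : LinearIndependent ℝ a => by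
    simpa using l.fintype_card_le_finrank
  have m : ∀ i, c i - Q.dX (η i) ∈ Q.Om := fun i => Q.Om.sub_mem (h1 i).1 (Q.dX_mem_Om (s i))
  have p : ∀ i j, Q.pr (c i) (c j) =
      ∫ x, P204.T4.Q ((c i - Q.dX (η i)) x) ((c j - Q.dX (η j)) x) ∂Q.mu := fun i j => by
    have d := fun i => Q.dX_mem_Om (s i)
    have e1 : ∀ x, P204.T4.Q ((c i - Q.dX (η i)) x) ((c j - Q.dX (η j)) x) =
        P204.T4.Q (c i x) (c j x) - P204.T4.Q (Q.dX (η j) x) (c i x) -
          P204.T4.Q (Q.dX (η i) x) (c j x) + P204.T4.Q (Q.dX (η i) x) (Q.dX (η j) x) := fun x => by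
      simp only [P204.T4.Q, Pi.sub_apply]
      ring
    have i1 := intQ (h1 i).1 (h1 j).1
    have i2 := intQ (d j) (h1 i).1
    have i3 := intQ (d i) (h1 j).1
    simp only [e1]
    rw [integral_add (by exact (i1.sub i2).sub i3) (intQ (d i) (d j)),
      integral_sub (by exact i1.sub i2) i3, integral_sub i1 i2, stokes (s j) (h1 i).1 (h1 i).2, stokes (s i) (h1 j).1 (h1 j).2,
      stokes (s i) (d j) (closed_dX (s j))]
    simp [CM.pr]
  have i1 := fun i j => (intQ (m i) (m j)).const_mul (v i * v j)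
  refine (h2.dotProduct_mulVec_pos (x := v) fun h => v0 (congrFun h i)).not_ge ?_
  calc _ = ∑ i, ∑ j, ∫ x, v i * v j *
        P204.T4.Q ((c i - Q.dX (η i)) x) ((c j - Q.dX (η j)) x) ∂Q.mu := by
        simp only [dotProduct, Matrix.mulVec, integral_const_mul, Finset.mul_sum, star_trivial,
          Matrix.of_apply, p, mul_assoc, mul_comm, mul_left_comm]
    _ = ∫ x, P204.T4.Q (∑ i, v i • (c i - Q.dX (η i)) x) (∑ i, v i • (c i - Q.dX (η i)) x)
        ∂Q.mu := by
        simp only [← integral_finsetSum _ fun j _ => i1 _ j]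
        rw [← integral_finsetSum _ fun i _ => integrable_finsetSum _ fun j _ => i1 i j]
        congr 1
        funext x
        simp only [Fin.sum_univ_four, P204.T4.Q, Pi.add_apply, Pi.smul_apply, smul_eq_mul]
        ring
    _ ≤ 0 := integral_nonpos fun x => Q_nonpos (funext (Fin.cases rfl fun k => by
        have := congrArg (fun t => Q.nu t x k) hv
        simp only [nu_eq, Finset.sum_apply, Pi.smul_apply, smul_eq_mul, Finset.sum_mul,
          Pi.zero_apply, zero_mul, Finset.sum_const_zero] at this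
        rw [Finset.sum_comm] at this
        simp only [map_sum, map_smul, Finset.sum_apply, Pi.smul_apply, Pi.sub_apply, e, nu_eq,
          smul_eq_mul, Finset.mul_sum, ← mul_assoc, this, Pi.zero_apply]))

theorem int_Λ (g : LL2 Q.toCM Sp) (g1 : ∫ x, vec (g x) 0 ∂Q.mu = 0)
    (g2 : ∀ j, ∫ x, ∑ k, Q.T x j k * vec (g x) k.succ ∂Q.mu = 0) (c : ℝ × (Fin 3 → ℝ)) :
    ∫ x, inner ℝ (g x) (Λ Q c x) ∂Q.mu = 0 := by
  have i0 : ∀ i, Integrable (fun x => vec (g x) i) Q.mu := fun i =>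
    ((ContinuousLinearMap.proj i).comp vecL).integrable_comp ((Lp.memLp g).integrable one_le_two)
  have i1 : ∀ j, Integrable (fun x => ∑ k, Q.T x j k * vec (g x) k.succ) Q.mu := fun j =>
    integrable_finsetSum _ fun k _ => by
      obtain ⟨h1, C, h2⟩ := SmF.bm (M := Q.toCM) (f := fun x => Q.T x j k) (Q.T_smooth j k)
      exact (i0 _).bdd_mul h1.aestronglyMeasurable (.of_forall h2)
  have e : ∀ x, inner ℝ (g x) (Λ Q c x) = c.1 * vec (g x) 0 +
      ∑ j, c.2 j * ∑ k, Q.T x j k * vec (g x) k.succ := fun x => by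
    simp only [Hx.inner_vec, vec_Λ, Fin.sum_univ_succ (n := 3), Fin.cons_zero, Fin.cons_succ,
      nu_eq, Fin.sum_univ_three]
    ring
  simp only [e]
  rw [integral_add ((i0 _).const_mul _) (integrable_finsetSum _ fun j _ => (i1 j).const_mul _),
    integral_finsetSum _ fun j _ => (i1 j).const_mul _]
  simp only [integral_const_mul, g1, g2, mul_zero, Finset.sum_const_zero, add_zero]

end Ck

open Ck in
/-- coordinates on the part of the cokernel which is not spanned by `1` and the triple -/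
theorem cok (B : HQ Q b) (hH : Q.IsHod H) {G : LL2 Q.toCM Sp →L[ℝ] Q.t1.H1} (hG : Green H G) :
    ∃ (n : ℕ) (e : LL2 Q.toCM Sp →L[ℝ] (Fin n → ℝ)),
      (Q.dirac (LBc.triv Q.toCM)).ind = 4 + n - b ∧ (BP3 Q.toCM ↔ n = 0) ∧
      ∀ g : LL2 Q.toCM Sp, ∫ x, vec (g x) 0 ∂Q.mu = 0 →
        (∀ j, ∫ x, ∑ k, Q.T x j k * vec (g x) k.succ ∂Q.mu = 0) → e g = 0 → H.clm (G g) = g := by
  set K := Submodule.span ℝ H.adj.kerS with hK
  have : FiniteDimensional ℝ K :=
    (fred X _ _ _ _ _ H _ H.isAdj_adj (IsHod.cliff hH).gar (IsHod.cliff' hH).gar).2.2.2.2.2.1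
  have le : K ≤ Q.t0.Sm := Submodule.span_le.2 fun s hs => hs.1
  have lr : LinearMap.range (Λ Q) ≤ K := by
    rintro _ ⟨c, rfl⟩; exact Submodule.subset_span (Λ_mem hH c)
  obtain ⟨C, hC⟩ := ((LinearMap.range (Λ Q)).comap K.subtype).exists_isCompl
  have d : finrank ℝ K = 4 + finrank ℝ C := by
    rw [← Submodule.finrank_add_eq_of_isCompl hC,
      (Submodule.comapSubtypeEquivOfLe lr).finrank_eq, LinearMap.finrank_range_of_inj Λ_inj]
    simp
  have : Module.Free ℝ C := Module.Free.of_divisionRing ℝ C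
  let β := finBasis ℝ C
  have ie : ∀ (g : LL2 Q.toCM Sp) (t : K), inner ℝ (Q.t0.J (Q.t0.jw (le t.2))) g =
      ∫ x, inner ℝ (g x) (t.1 x) ∂Q.mu := fun g t => by
    rw [real_inner_comm, L2.inner_def]
    refine integral_congr_ae ?_
    filter_upwards [(Q.t0.rep_jw (le t.2)).J_ae] with x hx
    rw [hx]
  refine ⟨_, ContinuousLinearMap.pi fun i => innerSL ℝ (Q.t0.J (Q.t0.jw (le (β i).1.2))), ?_,
    ⟨fun b3 => ?_, fun h => bp3_of hH fun t ht => ?_⟩, fun g g1 g2 g3 => hG.right g fun t ht => ?_⟩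
  · rw [ind_triv hH, ind_hod hH, B.finrank_ker hH, d]
    push_cast
    ring
  · have := d.symm.trans (finrank_coker b3 hH)
    omega
  · rw [Submodule.finrank_eq_zero.1 h] at hC
    exact (eq_top_of_isCompl_bot hC).ge (Submodule.mem_top (x := ⟨t, Submodule.subset_span ht⟩))
  · have i0 : ∀ t : K, Integrable (fun x => inner ℝ (g x) (t.1 x)) Q.mu := fun t =>
      (L2.integrable_inner (𝕜 := ℝ) g (Q.t0.J (Q.t0.jw (le t.2)))).congr (by
        filter_upwards [(Q.t0.rep_jw (le t.2)).J_ae] with x hx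
        rw [hx])
    let l : K →ₗ[ℝ] ℝ :=
      { toFun := fun t => ∫ x, inner ℝ (g x) (t.1 x) ∂Q.mu
        map_add' := fun s t => by
          rw [← integral_add (i0 s) (i0 t)]
          simp only [Submodule.coe_add, Pi.add_apply, inner_add_right]
        map_smul' := fun r t => by
          simp only [SetLike.val_smul, Pi.smul_apply, real_inner_smul_right, integral_const_mul,
            RingHom.id_apply, smul_eq_mul] }
    have h1 : LinearMap.ker l = ⊤ := hC.sup_eq_top ▸ le_antisymm (hC.sup_eq_top ▸ le_top)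
      (sup_le (fun s ⟨c, hc⟩ => by
        have := int_Λ g g1 g2 c
        rwa [hc] at this) fun s hs => LinearMap.congr_fun (β.ext (f₁ := l.comp C.subtype) (f₂ := 0)
          fun i => (ie g _).symm.trans (congrFun g3 i)) ⟨s, hs⟩)
    exact (h1 ▸ Submodule.mem_top : (⟨t, Submodule.subset_span ht⟩ : K) ∈ LinearMap.ker l)

end Vale.Agent.P247W
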