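import Vale.Agent.P247W.ExiA
import Vale.Agent.P247W.Sta
import Vale.Agent.P247W.Fam
import Vale.Agent.P247W.HQ
import Vale.Agent.P247W.Apd0

/-!
# P247W: existence of solutions of the truncated dual system
-/

set_option linter.all false

open scoped ContDiff Topology ENNReal NNReal ComplexConjugate
open Set MeasureTheory Filter Metric

noncomputable section

namespace Vale.Agent.P247W.Ex

open Vale.Agent.P204.GX Vale.Agent.P204.T4 Vale.Agent.P247E Vale.Agent.P247E.R Vale.Agent.P247A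
open Vale.Agent.P247.H647 (Sp En sig pau len len_sq len_nonneg)

theorem cx_cont {A B Y : Type} [NormedAddCommGroup A] [NormedSpace ℂ A] [NormedAddCommGroup B]
    [NormedSpace ℂ B] [NormedSpace ℝ A] [NormedSpace ℝ B] [TopologicalSpace Y]
    {T : Y → A →L[ℝ] B} (hT : Continuous T) (h : ∀ y (z : ℂ) v, T y (z • v) = z • T y v) :
    Continuous fun y => cx (T y) (h y) := by
  refine continuous_iff_continuousAt.2 fun f => tendsto_iff_norm_sub_tendsto_zero.2 ?_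
  refine squeeze_zero (fun _ => norm_nonneg _) (fun g => ?_)
    (tendsto_iff_norm_sub_tendsto_zero.1 (hT.tendsto f))
  exact ContinuousLinearMap.opNorm_le_bound _ (norm_nonneg _) (T g - T f).le_opNorm

variable {X : Type} [MetricSpace X] [CompactSpace X] [ConnectedSpace X] [MeasurableSpace X]
  [BorelSpace X] {Q : QM X} {L : LBc Q.toCM} {H : Op Q.t1 Q.t0}

theorem exists_inv (Q : QM X) : ∃ S : Fin 3 → Fin 3 → X → ℝ, (∀ k j, SmF Q.toCM (S k j)) ∧
    (∀ u x k, dv Q u x k = ∑ j, S k j x * u j) ∧ ∀ u x j, ∑ k, Q.T x j k * dv Q u x k = u j := by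
  obtain ⟨-, -, -, -, -, -, S, h1, h2⟩ := BQ1 X Q (LBc.triv _)
  have e : ∀ x, (Matrix.of fun k j => S k j x) * Q.T x = 1 := fun x => by
    ext k k'
    rw [Matrix.mul_apply, Matrix.one_apply]
    exact h2 x k k'
  refine ⟨S, h1, fun u x k => ?_, fun u x j => ?_⟩
  · rw [dv, Matrix.inv_eq_left_inv (e x)]; rfl
  · have : (Q.T x).mulVec (dv Q u x) = u := by
      rw [dv, Matrix.mulVec_mulVec, Matrix.inv_eq_left_inv (e x), mul_eq_one_comm.1 (e x),
        Matrix.one_mulVec]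
    exact congrFun this j

theorem bm_dv (Q : QM X) (u : Fin 3 → ℝ) : BM fun x => E3 (dv Q u x) := by
  obtain ⟨S, h1, h2, -⟩ := exists_inv Q
  have : SmF Q.toCM (dv Q u) := fun a => contDiff_pi.2 fun k => by
    simp only [h2]
    exact ContDiff.sum fun j _ => (h1 k j a).mul contDiff_const
  exact BM.lin E3 this.bm

/-- the dual directions in `L²` -/
def sgD (Q : QM X) : (Fin 3 → ℝ) →L[ℝ] LL2 Q.toCM Sp :=
  LinearMap.toContinuousLinearMap
    { toFun := fun u => ((bm_dv Q u).memLp 2).toLp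
      map_add' := fun u v => by
        rw [← MemLp.toLp_add]
        refine MemLp.toLp_congr _ _ (.of_forall fun x => ?_)
        simp only [dv, Matrix.mulVec_add, map_add, Pi.add_apply]
      map_smul' := fun t u => by
        rw [RingHom.id_apply, ← MemLp.toLp_const_smul]
        refine MemLp.toLp_congr _ _ (.of_forall fun x => ?_)
        simp only [dv, Matrix.mulVec_smul, map_smul, Pi.smul_apply] }

theorem sgD_ae (u : Fin 3 → ℝ) : (sgD Q u : X → Sp) =ᵐ[Q.mu] fun x => E3 (dv Q u x) :=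
  ((bm_dv Q u).memLp 2).coeFn_toLp

theorem tau_sgD (u : Fin 3 → ℝ) (j : Fin 3) :
    inner ℝ (tau Q j) (sgD Q u) = Q.mu.real univ * u j := by
  obtain ⟨S, -, -, h3⟩ := exists_inv Q
  rw [inner_tau, ← smul_eq_mul, ← integral_const]
  refine integral_congr_ae ?_
  filter_upwards [sgD_ae (Q := Q) u] with x hx
  simp only [hx, vec_E3_succ, h3]

/-- the parameter of the perturbation -/
def cD (L : LBc Q.toCM) {R : ℝ} (hR : 0 < R) (f : LL2 Q.toCM Sp) : Fin 3 → ℝ := fun j =>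
  (Q.mu.real univ)⁻¹ * inner ℝ (tau Q j) ((1 / 2 : ℝ) • nq Q hR f + F0 BQ2 L)

/-- the right hand side of the curvature equation -/
def gD (L : LBc Q.toCM) {R : ℝ} (hR : 0 < R) (f : LL2 Q.toCM Sp) : LL2 Q.toCM Sp :=
  sgD Q (cD L hR f) - ((1 / 2 : ℝ) • nq Q hR f + F0 BQ2 L)

variable {R : ℝ} (hR : 0 < R)

theorem cD_cont : Continuous (cD L hR) := continuous_pi fun j => continuous_const.mul
  (continuous_const.inner (((continuous_const_smul _).comp (nq_cont hR)).add continuous_const))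

theorem gD_cont : Continuous (gD L hR) := ((sgD Q).continuous.comp (cD_cont hR)).sub
  (((continuous_const_smul _).comp (nq_cont hR)).add continuous_const)

theorem gD_ae (f : LL2 Q.toCM Sp) : (gD L hR f : X → Sp) =ᵐ[Q.mu] fun x =>
    E3 (dv Q (cD L hR f) x - ((1 / 2 : ℝ) • qT R ((f : X → Sp) x) + L.Fh x)) := by
  filter_upwards [Lp.coeFn_sub (sgD Q (cD L hR f)) ((1 / 2 : ℝ) • nq Q hR f + F0 BQ2 L),
    Lp.coeFn_add ((1 / 2 : ℝ) • nq Q hR f) (F0 BQ2 L), Lp.coeFn_smul (1 / 2 : ℝ) (nq Q hR f),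
    sgD_ae (Q := Q) (cD L hR f), nq_ae hR f, F0_ae BQ2 L] with x a1 a2 a3 a4 a5 a6
  rw [gD, a1, Pi.sub_apply, a2, Pi.add_apply, a3, Pi.smul_apply, a4, a5, a6, map_sub, map_add,
    map_smul]

theorem H_gD {G : LL2 Q.toCM Sp →L[ℝ] Q.t1.H1} (hG : RG Q H G) (f : LL2 Q.toCM Sp) :
    H.clm (G (gD L hR f)) = gD L hR f := by
  have hV : 0 < Q.mu.real univ :=
    ENNReal.toReal_pos (isOpen_univ.measure_pos Q.mu univ_nonempty).ne' (measure_ne_top _ _)
  refine hG _ ?_ fun j => ?_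
  · rw [← integral_zero X ℝ (μ := Q.mu)]
    refine integral_congr_ae ?_
    filter_upwards [gD_ae (L := L) hR f] with x hx
    rw [hx, vec_E3_zero]
  · rw [← inner_tau, gD, inner_sub_right, tau_sgD, cD, mul_inv_cancel_left₀ hV.ne', sub_self]

theorem qT_unit (R : ℝ) {z : ℂ} (hz : ‖z‖ = 1) (ψ : Sp) : qT R (z • ψ) = qT R ψ := by
  funext k
  rw [qT, qT, norm_smul, hz, one_mul, map_smul, inner_smul_left, inner_smul_right, ← mul_assoc,
    conj_mul_unit hz, one_mul]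

theorem nq_unit {f g : LL2 Q.toCM Sp}
    (h : ∀ᵐ x ∂Q.mu, ∃ z : ℂ, ‖z‖ = 1 ∧ (f : X → Sp) x = z • (g : X → Sp) x) :
    nq Q hR f = nq Q hR g := by
  refine Lp.ext ?_
  filter_upwards [nq_ae hR f, nq_ae hR g, h] with x h1 h2 ⟨z, h3, h4⟩
  rw [h1, h2, h4, qT_unit R h3]

variable {B : ℝ} {Z : (Fin 3 → ℝ) → X → En}

theorem bm_Z (hZ : ZFamD Q B Z) (c : Fin 3 → ℝ) : BM fun x => reL (Z c x) :=
  (hZ.hom c (LBc.triv _)).bm

theorem mul_contD (hZ : ZFamD Q B Z) : Continuous fun c => mR Q.toCM (Z c) := by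
  refine continuous_iff_continuousAt.2 fun c₀ => Metric.tendsto_nhds.2 fun ε hε => ?_
  filter_upwards [hZ.cont c₀ (ε / 2) (half_pos hε)] with c hc
  rw [dist_eq_norm]
  refine lt_of_le_of_lt (ContinuousLinearMap.opNorm_le_bound _ (half_pos hε).le fun f => ?_)
    (half_lt_self hε)
  refine Lp.norm_le_mul_norm_of_ae_le_mul ?_
  filter_upwards [(bm_Z hZ c).mulOp_ae f, (bm_Z hZ c₀).mulOp_ae f,
    Lp.coeFn_sub (mR Q.toCM (Z c) f) (mR Q.toCM (Z c₀) f)] with x h1 h2 h3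
  rw [ContinuousLinearMap.sub_apply, h3, Pi.sub_apply, mR, mR, h1, h2]
  exact (Z c x - Z c₀ x).le_of_opNorm_le (hc x) _

/-- the nonlinear term, frozen at `f` -/
def AR (L : LBc Q.toCM) (G : LL2 Q.toCM Sp →L[ℝ] Q.t1.H1) (Z : (Fin 3 → ℝ) → X → En) {R : ℝ}
    (hR : 0 < R) (f : LL2 Q.toCM Sp) : L.bp.H1 →L[ℝ] LL2 Q.toCM Sp :=
  K1 Q.t1 L.bp (G (gD L hR f)) + (mR Q.toCM (Z (cD L hR f))).comp L.bp.J

variable {G : LL2 Q.toCM Sp →L[ℝ] Q.t1.H1}

theorem AR_cont (hZ : ZFamD Q B Z) : Continuous (AR L G Z hR) :=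
  ((K1 Q.t1 L.bp).continuous.comp (G.continuous.comp (gD_cont hR))).add
    (((mul_contD hZ).comp (cD_cont hR)).clm_comp continuous_const)

theorem AR_cpt (f : LL2 Q.toCM Sp) : IsCompactOperator (AR L G Z hR f) :=
  (K1_cpt _ _ _).add ((rel X Q.toCM Sp Sp L.bp L.bp).clm_comp _)

theorem AR_congr {f g : LL2 Q.toCM Sp} (h : nq Q hR f = nq Q hR g) :
    AR L G Z hR f = AR L G Z hR g := by
  have : cD L hR f = cD L hR g := by funext j; simp only [cD, h]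
  simp only [AR, gD, h, this]

theorem AR_ae (hZ : ZFamD Q B Z) (f : LL2 Q.toCM Sp) (w : L.bp.H1) :
    (AR L G Z hR f w : X → Sp) =ᵐ[Q.mu] fun x =>
      ((-Complex.I) • sgm (Q.av (G (gD L hR f)) x) + Z (cD L hR f) x) (ps w x) := by
  filter_upwards [Lp.coeFn_add (K1 Q.t1 L.bp (G (gD L hR f)) w)
    (mR Q.toCM (Z (cD L hR f)) (L.bp.J w)), K1_ae Q.t1 L.bp (G (gD L hR f)) w,
    (bm_Z hZ (cD L hR f)).mulOp_ae (L.bp.J w)] with x a1 a2 a3
  refine a1.trans ?_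
  rw [Pi.add_apply, a2, mR, a3]
  rfl

theorem AR_mul (hZ : ZFamD Q B Z) (f : LL2 Q.toCM Sp) {v w : L.bp.H1} {u : X → ℂ}
    (h : ∀ᵐ x ∂Q.mu, ps v x = u x • ps w x) :
    ∀ᵐ x ∂Q.mu, (AR L G Z hR f v : X → Sp) x = u x • (AR L G Z hR f w : X → Sp) x := by
  filter_upwards [AR_ae (G := G) hR hZ f v, AR_ae (G := G) hR hZ f w, h] with x a1 a2 a3
  rw [a1, a2, a3, map_smul]

theorem AR_csmul (hZ : ZFamD Q B Z) (f : LL2 Q.toCM Sp) (z : ℂ) (w : L.bp.H1) :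
    AR L G Z hR f (z • w) = z • AR L G Z hR f w := by
  have h1 : ∀ᵐ x ∂Q.mu, ps (z • w) x = z • ps w x := by
    rw [ps, J_csmul]; exact Lp.coeFn_smul z (L.bp.J w)
  refine Lp.ext ?_
  filter_upwards [AR_mul (G := G) (u := fun _ => z) hR hZ f h1,
    Lp.coeFn_smul z (AR L G Z hR f w)] with x a1 a2
  rw [a1, a2, Pi.smul_apply]

/-- solutions of the system -/
theorem dsol_of (hG : RG Q H G) (hZ : ZFamD Q B Z) {w : L.bp.H1} {φ₀ : Q.t1.H1}
    (h0 : ∀ᵐ x ∂Q.mu, ∀ k : Fin 3, vec ((H.clm φ₀ : X → Sp) x) k.succ = 0)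
    (heq : (Q.dirac L).clm w + K1 Q.t1 L.bp φ₀ w + AR L G Z hR (L.bp.J w) w = 0) :
    DSol Q L H Z (qT R) w (φ₀ + G (gD L hR (L.bp.J w))) (cD L hR (L.bp.J w)) ∧
      ‖gD L hR (L.bp.J w) + F0 BQ2 L‖ ^ 2 =
        ∫ x, ∑ k, Q.Fa L H (φ₀ + G (gD L hR (L.bp.J w))) x k ^ 2 ∂Q.mu := by
  have hFa : ∀ᵐ x ∂Q.mu, ∀ k, Q.Fa L H (φ₀ + G (gD L hR (L.bp.J w))) x k =
      dv Q (cD L hR (L.bp.J w)) x k - (1 / 2) * qT R (ps w x) k := by
    filter_upwards [h0, gD_ae (L := L) hR (L.bp.J w),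
      Lp.coeFn_add (H.clm φ₀) (gD L hR (L.bp.J w))] with x a1 a2 a3 k
    rw [QM.Fa, map_add, H_gD hR hG, a3, Pi.add_apply, vec_add, Pi.add_apply, a1, a2, vec_E3_succ]
    simp only [Pi.sub_apply, Pi.add_apply, Pi.smul_apply, smul_eq_mul]
    ring
  refine ⟨⟨?_, hFa⟩, ?_⟩
  · have e : (Q.dirac L).clm w + K1 Q.t1 L.bp (φ₀ + G (gD L hR (L.bp.J w))) w +
        mR Q.toCM (Z (cD L hR (L.bp.J w))) (L.bp.J w) = 0 := by
      rw [← heq, map_add, ContinuousLinearMap.add_apply, add_assoc, add_assoc, add_assoc]; rfl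
    generalize φ₀ + G (gD L hR (L.bp.J w)) = φ at e
    have a0 := Lp.coeFn_zero Sp 2 Q.mu
    rw [← e] at a0
    filter_upwards [a0, Lp.coeFn_add ((Q.dirac L).clm w + K1 Q.t1 L.bp φ w)
      (mR Q.toCM (Z (cD L hR (L.bp.J w))) (L.bp.J w)), Apd.dirac_ae w φ,
      (bm_Z hZ (cD L hR (L.bp.J w))).mulOp_ae (L.bp.J w)] with x a1 a2 a3 a4
    rw [a2, Pi.add_apply, a3, mR, a4] at a1
    exact a1
  · rw [norm_sq_L2]
    refine integral_congr_ae ?_
    filter_upwards [hFa, gD_ae (L := L) hR (L.bp.J w), F0_ae BQ2 L,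
      Lp.coeFn_add (gD L hR (L.bp.J w)) (F0 BQ2 L)] with x a1 a2 a3 a4
    rw [a4, Pi.add_apply, a2, a3, ← map_add, norm_E3_sq]
    refine Finset.sum_congr rfl fun k _ => ?_
    rw [a1]
    simp only [Pi.sub_apply, Pi.add_apply, Pi.smul_apply, smul_eq_mul]
    ring

theorem tame_of (G : LL2 Q.toCM Sp →L[ℝ] Q.t1.H1) (L : LBc Q.toCM) (N : ℝ) : ∃ C : ℝ,
    ∀ (φ₀ : Q.t1.H1) (g : LL2 Q.toCM Sp), ‖φ₀‖ ≤ N → ‖g + F0 BQ2 L‖ ^ 2 =
      ∫ x, ∑ k, Q.Fa L H (φ₀ + G g) x k ^ 2 ∂Q.mu → Tame Q L H C (φ₀ + G g) := by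
  refine ⟨2 * (N + ‖G‖ * ‖F0 BQ2 L‖) ^ 2 + 2 * ‖G‖ ^ 2, fun φ₀ g h1 h2 => ?_⟩
  rw [Tame, ← h2]
  have a1 : ‖g‖ ≤ ‖g + F0 BQ2 L‖ + ‖F0 BQ2 L‖ := norm_le_add_norm_add _ _
  have a2 : ‖φ₀ + G g‖ ≤ N + ‖G‖ * ‖F0 BQ2 L‖ + ‖G‖ * ‖g + F0 BQ2 L‖ := by
    have := G.le_opNorm_of_le a1
    linarith [norm_add_le φ₀ (G g)]
  have a3 := pow_le_pow_left₀ (norm_nonneg _) a2 2
  generalize N + ‖G‖ * ‖F0 BQ2 L‖ = a at *
  generalize ‖g + F0 BQ2 L‖ = s at *
  nlinarith [sq_nonneg (a - ‖G‖ * s), sq_nonneg (a * s), sq_nonneg ‖G‖]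

theorem exd1 : EXD1_statement := by
  intro X _ _ _ _ _ Q L H G B Z hH hG hZ hind
  obtain ⟨C, hC⟩ := tame_of (H := H) G L 0
  refine ⟨max C 1, fun ρ R hρ hR => ?_⟩
  obtain ⟨w, hw, heq⟩ := exists_zero (Q.dirac_cliff L) hind hρ (AR_cont (G := G) hR hZ) (AR_cpt hR)
    fun f => AR_congr hR (nq_neg hR f)
  obtain ⟨a1, a2⟩ := dsol_of hR hG hZ (w := w) (φ₀ := 0) (by
    rw [map_zero]
    filter_upwards [Lp.coeFn_zero Sp 2 Q.mu] with x hx k
    rw [hx]; exact congrFun (map_zero P247E.R.vecL) _) (by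
      rw [map_zero, ContinuousLinearMap.zero_apply, add_zero, heq])
  refine ⟨w, _, _, a1, (hC 0 _ norm_zero.le a2).trans (mul_le_mul_of_nonneg_right (le_max_left _ _)
    ?_), hw.ge, hw.le.trans (le_mul_of_one_le_left hρ.le (le_max_right _ _))⟩
  rw [← a2]; positivity

/-! ## The twisted family -/

variable {b : ℕ} (C : Gau Q.toCM b)

theorem gau_lg (i : Fin b) : Lg Q.toCM (C.gl (Pi.single i 1)) (C.a i) :=
  ⟨C.gl_sm _, C.gl_nm _, fun x c => by
    rw [C.gl_df, Finset.sum_eq_single i] <;> simp +contextual [Pi.single_apply]⟩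

theorem form_closed (h : Rv b) : Q.dX (C.form h) = 0 :=
  (Finset.sum_induction _ (fun η => Q.Sm1 η ∧ Q.dX η = 0)
    (fun _ _ k l => ⟨fun a => by rw [Q.cf1_add]; exact (k.1 a).add (l.1 a),
      by rw [Q.dX_add k.1 l.1, k.2, l.2, add_zero]⟩) (lg_const Q.toCM norm_one).closed
    fun i _ => ⟨fun a => by rw [Q.cf1_smul]; exact (C.a_sm i a).const_smul (h i),
      by rw [Q.dX_smul _ (C.a_sm i), (gau_lg C i).closed.2, smul_zero]⟩).2

theorem form_smul (t : ℝ) (h : Rv b) : C.form (t • h) = t • C.form h := by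
  simp [Gau.form, mul_smul, Finset.smul_sum]

theorem mem_t1 (h : Rv b) : (fun x => spn (C.form h x)) ∈ Q.t1.Sm :=
  (Q.mem_t1 _).2 (by simpa only [P247E.vec_spn] using C.form_sm h)

/-- the forms of the family as elements of `H¹` -/
def ph : Rv b →L[ℝ] Q.t1.H1 :=
  LinearMap.toContinuousLinearMap
    { toFun := fun h => Q.t1.jw (mem_t1 C h)
      map_add' := fun h k => (Q.t1.rep_jw _).unique (by
        convert (Q.t1.rep_jw (mem_t1 C h)).add (Q.t1.rep_jw (mem_t1 C k)) (mem_t1 C h) (mem_t1 C k)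
          using 2 with x
        simp [C.form_add, ← spnL_apply])
      map_smul' := fun t h => (Q.t1.rep_jw _).unique (by
        have e : (fun x => spn (C.form (t • h) x)) = t • fun x => spn (C.form h x) :=
          funext fun x => by rw [form_smul]; exact map_smul spnL t _
        rw [e]
        exact (Q.t1.rep_jw (mem_t1 C h)).smul t (mem_t1 C h)) }

theorem rep_ph (h : Rv b) : Q.t1.Rep (ph C h) fun x => spn (C.form h x) :=
  Q.t1.rep_jw (mem_t1 C h)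

theorem H_ph (hH : Q.IsHod H) (h : Rv b) :
    ∀ᵐ x ∂Q.mu, ∀ k : Fin 3, vec ((H.clm (ph C h) : X → Sp) x) k.succ = 0 := by
  filter_upwards [(rep_ph C h).clm_ae (mem_t1 C h) H] with x hx k
  rw [hx, hH.curl _ (mem_t1 C h)]
  simp only [P247E.vec_spn, form_closed, ← Hx.hc_succ, Pi.zero_apply, map_zero]

theorem Dh_ph (h : Rv b) (w : L.bp.H1) :
    Dh L C h w = (Q.dirac L).clm w + K1 Q.t1 L.bp (ph C h) w := by
  rw [Dh_eq]
  congr 1
  refine Lp.ext ?_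
  filter_upwards [mR_ae (bm_cl (C.form_sm h)) (L.bp.J w), K1_ae Q.t1 L.bp (ph C h) w,
    (rep_ph C h).J_ae] with x a1 a2 a3
  rw [a1, a2, a3, cl_eq, P247E.vec_spn]
  rfl

theorem amap (hZ : ZFamD Q B Z) :
    AMap (fam L C) fun f => cx (AR L G Z hR f) (AR_csmul hR hZ f) where
  cont := cx_cont (AR_cont hR hZ) _
  cpt f := AR_cpt hR f
  unit z f hz := by
    have := AR_congr (L := L) (G := G) (Z := Z) hR (nq_unit hR (f := z • f) (g := f)
      ((Lp.coeFn_smul z f).mono fun x hx => ⟨z, hz, hx⟩))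
    exact ContinuousLinearMap.ext fun v => DFunLike.congr_fun this v
  inv l f v := by
    have := AR_congr (L := L) (G := G) (Z := Z) hR (nq_unit hR (f := gL C l f) (g := f)
      ((gL_ae C l f).mono fun x hx => ⟨_, C.gl_nm l x, hx⟩))
    show AR L G Z hR (gL C l f) (gV L C l v) = gL C l (AR L G Z hR f v)
    have h1 : ∀ᵐ x ∂Q.mu, ps (gV L C l v) x = C.gl l x • ps v x := by
      rw [ps, J_gV]; exact gL_ae C l (L.bp.J v)
    rw [this]
    refine Lp.ext ?_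
    filter_upwards [AR_mul (G := G) (u := C.gl l) hR hZ f h1, gL_ae C l (AR L G Z hR f v)]
      with x a1 a2
    rw [a1, a2]

/-- zeros of the homogeneous maps give solutions -/
theorem exd_of (hH : Q.IsHod H) (hG : RG Q H G) (hZ : ZFamD Q B Z)
    (h : ∀ K : L.bp.H1 × Rv b → LL2 Q.toCM Sp × Cv 0 × Rv 0, KMap (fam L C) K →
      ∃ v h, v ≠ 0 ∧ (fam L C).tot K (v, h) = 0) : EXD Q L H Z := by
  obtain ⟨C₀, h0⟩ := tame_of (H := H) G L (‖ph C‖ * 1)
  obtain ⟨C₁, p1, h1⟩ := est_unif (fam L C) 1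
  obtain ⟨C₂, p2, h2⟩ := est_up (fam L C) 1
  refine ⟨max C₀ (C₁ * C₂), fun ρ R hρ hR => ?_⟩
  have hρ' : 0 ≤ C₂ * ρ := by positivity
  obtain ⟨v, k, hv, hk⟩ := h _ (kmap _ (amap (G := G) hR C hZ) hρ')
  obtain ⟨w, k', b1, b2, b3⟩ := zero_of _ (amap (G := G) hR C hZ) hρ' hv hk
  obtain ⟨a1, a2⟩ := dsol_of hR hG hZ (w := w) (H_ph C hH k') (by rw [← Dh_ph]; exact b3)
  refine ⟨w, _, _, a1, (h0 _ _ ((ph C).le_opNorm_of_le b1) a2).trans
    (mul_le_mul_of_nonneg_right (le_max_left _ _) ?_), ?_, ?_⟩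
  · rw [← a2]; positivity
  · exact le_of_mul_le_mul_left (b2 ▸ h2 k' b1 w) p2
  · refine (h1 k' b1 w).trans ?_
    rw [b2, ← mul_assoc]
    exact mul_le_mul_of_nonneg_right (le_max_right _ _) hρ.le

/-- index zero: either there are solutions, or the family can be made invertible -/
theorem exd2 (hB : FBB_statement) (hH : Q.IsHod H) (hG : RG Q H G) (hZ : ZFamD Q B Z)
    (hind : (Q.dirac L).ind = 0) (C : Gau Q.toCM 2) : EXD Q L H Z ∨
    ∃ (A : Rv 2 → LL2 Q.toCM Sp →L[ℂ] LL2 Q.toCM Sp) (c : ℝ), Continuous A ∧ 0 < c ∧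
      (∀ l h y, A (sh h l) ((fam L C).gH l y) = (fam L C).gW l (A h y)) ∧
      ∀ h v, c * ‖(fam L C).J v‖ ≤ ‖(fam L C).D h v + A h ((fam L C).J v)‖ := by
  refine or_iff_not_imp_right.2 fun hn => exd_of C hH hG hZ fun K hK => ?_
  by_contra! h
  refine hn (hB _ _ _ (fam L C) K hK ?_ h)
  have := Dh_index L C 0
  rw [hind] at this
  exact (mul_eq_zero.1 this).resolve_left two_ne_zero

end Vale.Agent.P247W.Ex
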