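import Vale.Agent.P247W.B1
import Vale.Agent.P247W.Cok
import Vale.Agent.P247W.ExiB
import Vale.Agent.P247W.Sta2

/-!
# P247W, block BP: the map, the rows and the assembly
-/

set_option linter.all false

open scoped ContDiff Topology ENNReal ComplexConjugate
open Set MeasureTheory Filter

noncomputable section

namespace Vale.Agent.P247W.Bp

open Vale.Agent.P204.GX Vale.Agent.P204.T4 Vale.Agent.P247E Vale.Agent.P247A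
open Vale.Agent.P247E.R
open Vale.Agent.P247.H647 (Sp En sig pau len P3 symb)

/-- the margin of the constraint -/
def mm (c : Fin 3 → ℝ) (y : Sp) : ℝ :=
  min (len c - 1) ((len c + c 2) * ‖y 0‖ - ‖(c 0 + c 1 * Complex.I : ℂ)‖ * ‖y 1‖)

/-- the modified parameter: `len c • u0` if `m ≤ mm c y`, and `c` if `mm c y ≤ 0` -/
def ct (m : ℝ) (c : Fin 3 → ℝ) (y : Sp) : Fin 3 → ℝ :=
  c + min 1 (max 0 (mm c y / m)) • (len c • u0 - c)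

/-- the nearest lattice point -/
def rd {b : ℕ} (h : Rv b) : Fin b → ℤ := fun i => round (h i)

section defs

variable {X : Type} [MetricSpace X] [CompactSpace X] [ConnectedSpace X] [MeasurableSpace X]
  [BorelSpace X]

/-- the trivial bundle -/
abbrev L0 (Q : QM X) : LBc Q.toCM := LBc.triv Q.toCM

/-- the data -/
structure Dat (Q : QM X) (b n : ℕ) where
  hq : HQ Q b
  H : Op Q.t1 Q.t0
  hH : Q.IsHod H
  G : LL2 Q.toCM Sp →L[ℝ] Q.t1.H1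
  hG : Green H G
  e : LL2 Q.toCM Sp →L[ℝ] Rv n
  he : ∀ g : LL2 Q.toCM Sp, ∫ x, vec (g x) 0 ∂Q.mu = 0 →
    (∀ j, ∫ x, ∑ k, Q.T x j k * vec (g x) k.succ ∂Q.mu = 0) → e g = 0 → H.clm (G g) = g
  cL : LL2 Q.toCM Sp →L[ℝ] (Fin 3 → ℝ)
  hc : ∀ g u, inner ℝ (sg Q u) (sg Q (cL g) - g) = 0
  B : ℝ
  Z : (Fin 3 → ℝ) → X → En
  hZ : ZPos Q B Z
  E : Eig Q B (Z u0) u0
  pos : ∃ s : Sp, P3 u0 s = s ∧ ∀ x, 0 < (inner ℂ s (E.fp x)).re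

namespace Dat

variable {Q : QM X} {b n : ℕ} (D : Dat Q b n) {R : ℝ} (hR : 0 < R)

/-- the gauge lattice -/
def C : Gau Q.toCM b := D.hq.toH1Q.gau

/-- the family of Dirac operators -/
abbrev F := fam (L0 Q) D.C

/-- the parameter -/
def cf (f : LL2 Q.toCM Sp) : Fin 3 → ℝ := D.cL ((1 / 2 : ℝ) • nq Q hR f)

/-- the right hand side of the curvature equation -/
def gf (f : LL2 Q.toCM Sp) : LL2 Q.toCM Sp := sg Q (D.cf hR f) - (1 / 2 : ℝ) • nq Q hR f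

/-- the invariant mean value -/
def sf (f : LL2 Q.toCM Sp) (h : Rv b) : Sp := max 0 (1 - 4 * ‖h - fun i => (rd h i : ℝ)‖) •
  ∫ x, (gL D.C (-rd h) f : X → Sp) x ∂Q.mu

/-- the map -/
def Φ (m : ℝ) (q : (L0 Q).bp.H1 × Rv b) : LL2 Q.toCM Sp × Cv 1 × Rv n :=
  (K1 Q.t1 (L0 Q).bp (D.G (D.gf hR ((L0 Q).bp.J q.1))) q.1 +
    mR Q.toCM (D.Z (ct m (D.cf hR ((L0 Q).bp.J q.1)) (D.sf ((L0 Q).bp.J q.1) q.2)))
      ((L0 Q).bp.J q.1),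
    fun _ => lam (D.cf hR ((L0 Q).bp.J q.1)) (D.sf ((L0 Q).bp.J q.1) q.2),
    D.e (D.gf hR ((L0 Q).bp.J q.1)))

/-- the eigenspinor in `H¹` -/
def v1 : (L0 Q).bp.H1 := (L0 Q).bp.jw (Hx.triv_sm.2 D.E.fp_sm)

theorem rep_v1 : (L0 Q).bp.Rep D.v1 D.E.fp := (L0 Q).bp.rep_jw _

theorem ph_eq (h : Rv b) : Ex.ph D.C h = D.hq.al h :=
  (Ex.rep_ph D.C h).unique (by rw [C, H1Q.gau_form]; exact D.hq.rep_al h)

/-- solutions of the linearised system at `t • v1` -/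
structure LSol (t : ℝ) (ξ : (L0 Q).bp.H1) (a : Q.t1.H1) : Prop where
  dirac : ∀ᵐ x ∂Q.mu, ∑ d, sig d ((L0 Q).nabA ξ 0 x d) +
    cl ((Q.t1.J a : X → Sp) x) ((t : ℂ) • D.E.fp x) + D.Z u0 x (ps ξ x) = 0
  div : ∀ᵐ x ∂Q.mu, vec ((D.H.clm a : X → Sp) x) 0 = 0
  curv : ∀ᵐ x ∂Q.mu, ∀ k : Fin 3, vec ((D.H.clm a : X → Sp) x) k.succ =
    -(t * (inner ℂ (D.E.fp x) (pau k (ps ξ x))).re)

end Dat

end defs

/-- the standing assumptions -/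
def ForAllD (p : ∀ (X : Type) [MetricSpace X] [CompactSpace X] [ConnectedSpace X]
    [MeasurableSpace X] [BorelSpace X] (Q : QM X) (b n : ℕ) (_ : Dat Q b n), Prop) : Prop :=
  ∀ (X : Type) [MetricSpace X] [CompactSpace X] [ConnectedSpace X] [MeasurableSpace X]
    [BorelSpace X] (Q : QM X) (b n : ℕ) (D : Dat Q b n), p X Q b n D

/-- `SMAP`: continuity, equivariance and compactness -/
def SMAP_statement : Prop := ForAllD fun _ _ _ _ _ _ _ _ _ D =>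
  ∀ (R : ℝ) (hR : 0 < R) (m : ℝ), SMap D.F (D.Φ hR m)

/-- `SOL`: zeros are solutions -/
def SOL_statement : Prop := ForAllD fun _ _ _ _ _ _ Q _ _ D =>
  ∀ (R : ℝ) (hR : 0 < R) (m : ℝ) v h, 0 < m → D.F.tot (D.Φ hR m) (v, h) = 0 →
    WSol Q (L0 Q) D.H D.Z R v (Ex.ph D.C h + D.G (D.gf hR ((L0 Q).bp.J v)))
      (D.cf hR ((L0 Q).bp.J v)) ∧ lam (D.cf hR ((L0 Q).bp.J v)) (D.sf ((L0 Q).bp.J v) h) = 0

/-- `APB`: a priori bounds -/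
def APB_statement : Prop := ForAllD fun _ _ _ _ _ _ Q _ _ D => ∃ C : ℝ, ∀ r₀ : ℝ, ∃ ρ₀ R₀ : ℝ,
  ∀ (R : ℝ) (hR : 0 < R) (m : ℝ) v h, 0 < m → R₀ ≤ R → D.F.tot (D.Φ hR m) (v, h) = 0 →
    len (D.cf hR ((L0 Q).bp.J v)) ≤ C * NN (L0 Q) D.C (v, h) ^ 2 ∧
      (len (D.cf hR ((L0 Q).bp.J v)) ≤ r₀ → NN (L0 Q) D.C (v, h) ≤ ρ₀)

/-- `RGE`: regularity -/
def RGE_statement : Prop := ForAllQ fun X _ _ _ _ _ Q _ =>
  ∀ (B : ℝ) (Z : X → En) u (E : Eig Q B Z u) (v : (L0 Q).bp.H1) (a : X → V4) (γ : X → Sp),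
    0 < B → (L0 Q).bp.Hom (Q.bm (L0 Q)) (fun x => reL (Z x)) → Q.Sm1 a → γ ∈ Q.t1.Sm →
    (∀ᵐ x ∂Q.mu, ∑ d, sig d ((L0 Q).nabA v a x d) + Z x (ps v x) = γ x) →
    (∀ᵐ x ∂Q.mu, inner ℂ (E.gm x) (ps v x) = 0) →
    ∃ α : X → ℂ, SmF Q.toCM α ∧ (∀ᵐ x ∂Q.mu, ps v x = α x • E.fp x) ∧
      ∀ x, symb (fun c => df Q.toCM α x c - Complex.I * a x c * α x) (E.fp x) = γ x

/-- `UNQ`: uniqueness -/
def UNQ_statement : Prop := RGE_statement → ForAllD fun _ _ _ _ _ _ Q b _ D =>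
  ∀ (R : ℝ) v h g c, 0 < R → WSol Q (L0 Q) D.H D.Z R v (Ex.ph D.C h + D.G g) c →
    (∀ᵐ x ∂Q.mu, ∀ k, Q.Fa (L0 Q) D.H (Ex.ph D.C h + D.G g) x k = 0) → 1 ≤ len c →
    2 * D.B * len c < R ^ 2 → lam c (D.sf ((L0 Q).bp.J v) h) = 0 →
    ∃ (l : Fin b → ℤ) (z : ℂ), h = sh 0 l ∧ v = z • gV (L0 Q) D.C l D.v1

/-- `NQD`: the derivative of the quadratic term -/
def NQD_statement : Prop := ForAllQ fun X _ _ _ _ _ Q L =>
  ∀ (R : ℝ) (hR : 0 < R) (v : L.bp.H1), (∀ᵐ x ∂Q.mu, ‖ps v x‖ ≤ R / 2) →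
    ∃ T : L.bp.H1 →L[ℝ] LL2 Q.toCM Sp, HasFDerivAt (fun w => nq Q hR (L.bp.J w)) T v ∧
      ∀ ξ, (T ξ : X → Sp) =ᵐ[Q.mu] fun x => E3 fun k => 2 * (inner ℂ (ps v x) (pau k (ps ξ x))).re

/-- `BSE`: the base point -/
def BSE_statement : Prop := ForAllD fun _ _ _ _ _ _ Q _ _ D =>
  ∀ (R : ℝ) (hR : 0 < R) (t : ℝ), 1 < t → 2 * D.B * t ^ 2 ≤ R ^ 2 →
    D.cf hR ((L0 Q).bp.J (t • D.v1)) = t ^ 2 • u0 ∧ D.gf hR ((L0 Q).bp.J (t • D.v1)) = 0 ∧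
    0 < mm (t ^ 2 • u0) (D.sf ((L0 Q).bp.J (t • D.v1)) 0) ∧
    (Q.dirac (L0 Q)).clm D.v1 + mR Q.toCM (D.Z u0) ((L0 Q).bp.J D.v1) = 0 ∧
    ∀ m, D.F.tot (D.Φ hR m) (t • D.v1, 0) = 0

/-- `DIF`: the derivative at the base point -/
def DIF_statement : Prop := SMAP_statement → NQD_statement → BSE_statement →
  ForAllD fun _ _ _ _ _ _ Q b n D => ∀ (R : ℝ) (hR : 0 < R) (m t : ℝ), 1 < t →
    8 * D.B * t ^ 2 ≤ R ^ 2 → 0 < m → m < mm (t ^ 2 • u0) (D.sf ((L0 Q).bp.J (t • D.v1)) 0) →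
    ∃ T : (L0 Q).bp.H1 × Rv b →L[ℝ] LL2 Q.toCM Sp × Cv 1 × Rv n,
      HasFDerivAt (D.F.tot (D.Φ hR m)) T (t • D.v1, 0) ∧ ∀ ξ η, T (ξ, η) = 0 →
      ∃ (κ : ℝ) (g : LL2 Q.toCM Sp), D.LSol t (ξ - κ • D.v1) (Ex.ph D.C η + D.G g)

/-- `KR1`: the integral identity for the linearised system -/
def KR1_statement : Prop := ForAllD fun _ _ _ _ _ _ Q _ _ D => ∃ r₀ : ℝ, ∀ t ξ a, r₀ ≤ t ^ 2 →
  D.LSol t ξ a → D.H.clm a = 0 ∧
    ∀ᵐ x ∂Q.mu, inner ℂ (D.E.gm x) (ps ξ x) = 0 ∧ (inner ℂ (D.E.gp x) (ps ξ x)).re = 0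

/-- `KR2`: the kernel -/
def KR2_statement : Prop := RGE_statement → ForAllD fun _ _ _ _ _ _ Q _ _ D =>
  ∀ t ξ η g, t ≠ 0 → D.LSol t ξ (Ex.ph D.C η + D.G g) → D.H.clm (Ex.ph D.C η + D.G g) = 0 →
    (∀ᵐ x ∂Q.mu, inner ℂ (D.E.gm x) (ps ξ x) = 0 ∧ (inner ℂ (D.E.gp x) (ps ξ x)).re = 0) →
    η = 0 ∧ ∃ z : ℂ, ξ = z • D.v1

/-- `NND`: the invariant norm is differentiable -/
def NND_statement : Prop := ForAllQ fun _ _ _ _ _ _ Q L => ∀ b (C : Gau Q.toCM b) v h, v ≠ 0 →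
  DifferentiableAt ℝ (NN L C) (v, h)

theorem bpq_of (h1 : SMAP_statement) (h2 : SOL_statement) (h3 : APB_statement)
    (h4 : RGE_statement) (h5 : UNQ_statement) (h6 : NQD_statement) (h7 : BSE_statement)
    (h8 : DIF_statement) (h9 : KR1_statement) (h10 : KR2_statement) (h11 : NND_statement) :
    BPQ_statement := by
  intro hA X _ _ _ _ _ Q _ b B
  obtain ⟨hq⟩ := exists_HQ B
  have hH := Hx.isHod Q
  obtain ⟨G, hG⟩ := exists_Green (IsHod.cliff hH) rfl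
  obtain ⟨n, e, i1, i2, he⟩ := cok hq hH hG
  obtain ⟨cL, hc⟩ := exists_coord (sg Q)
  obtain ⟨B', Z, hZ⟩ := zpos Q
  have k := hZ.eigp u0 len_u0.ge
  rw [len_u0, inv_one, one_smul] at k
  obtain ⟨E, hE⟩ := k
  let D : Dat Q b n := ⟨hq, _, hH, G, hG, e, he, cL, hc, B', Z, hZ, E, hE⟩
  refine i2.2 (Nat.eq_zero_of_not_pos fun hn => ?_)
  obtain ⟨C, a1⟩ := h3 X Q b n D
  obtain ⟨r₁, C₁, a2⟩ := VAN BQ1 BQ2 ST1 X Q (L0 Q) D.H D.B D.Z D.hH D.hZ.toZFam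
  obtain ⟨r₂, a3⟩ := h9 X Q b n D
  obtain ⟨ρ₀, R₀, a4⟩ := a1 (max r₁ 1)
  have hB := D.hZ.pos
  have hN : INorm D.F (NN (L0 Q) D.C) := ⟨NN_cont _ _, NN_smul _ _, NN_inv _ _, NN_equiv _ _⟩
  have v1 : D.v1 ≠ 0 := fun h => by
    obtain ⟨s, -, hs⟩ := D.pos
    have k1 := D.rep_v1.J_ae
    rw [h, map_zero] at k1
    obtain ⟨x, hx⟩ := (k1.symm.trans (Lp.coeFn_zero _ _ _)).exists
    have := hs x
    rw [hx, Pi.zero_apply, inner_zero_right] at this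
    exact lt_irrefl _ this
  have p1 := hN.pos v1 0
  obtain ⟨t, t1, t2, t3⟩ : ∃ t : ℝ, 1 < t ∧ r₂ ≤ t ^ 2 ∧ ρ₀ < t * NN (L0 Q) D.C (D.v1, 0) := by
    have := le_abs_self r₂
    have p2 : 0 ≤ |ρ₀| / NN (L0 Q) D.C (D.v1, 0) := by positivity
    refine ⟨2 + |r₂| + |ρ₀| / NN (L0 Q) D.C (D.v1, 0), by linarith [abs_nonneg r₂],
      by nlinarith [abs_nonneg r₂], ?_⟩
    rw [add_mul, div_mul_cancel₀ _ p1.ne']
    have : 0 < (2 + |r₂|) * NN (L0 Q) D.C (D.v1, 0) := by positivity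
    linarith [le_abs_self ρ₀]
  have e1 : NN (L0 Q) D.C (t • D.v1, 0) = t * NN (L0 Q) D.C (D.v1, 0) := by
    rw [hN.rsmul, abs_of_pos (by linarith)]
  generalize hρ : t * NN (L0 Q) D.C (D.v1, 0) = ρ at t3 e1
  obtain ⟨R, hR, r1, r2, r3⟩ : ∃ R : ℝ, 0 < R ∧ R₀ ≤ R ∧ 8 * D.B * t ^ 2 ≤ R ^ 2 ∧
      (|C₁| + 2 * D.B) * (|C| * ρ ^ 2) < R ^ 2 := by
    have p2 : 0 ≤ 8 * D.B * t ^ 2 := by positivity
    have p3 : 0 ≤ (|C₁| + 2 * D.B) * (|C| * ρ ^ 2) := by positivity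
    generalize 8 * D.B * t ^ 2 = a at *
    generalize (|C₁| + 2 * D.B) * (|C| * ρ ^ 2) = a' at *
    have := abs_nonneg R₀
    exact ⟨1 + |R₀| + a + a', by positivity, by linarith [le_abs_self R₀], by nlinarith,
      by nlinarith⟩
  obtain ⟨-, -, b1, -, b2⟩ := h7 X Q b n D R hR t t1 (by nlinarith [sq_nonneg t])
  obtain ⟨T, b3, b4⟩ := h8 h1 h6 h7 X Q b n D R hR _ t t1 r2 (half_pos b1) (half_lt_self b1)
  have t0 : t ≠ 0 := by linarith [t1] |> fun h : 0 < t => h.ne'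
  have t0' : (t : ℂ) ≠ 0 := by exact_mod_cast t0
  have v0 : t • D.v1 ≠ 0 := smul_ne_zero t0 v1
  have e2 : ∀ w : (L0 Q).bp.H1, ∀ s : ℝ, s • w = (s : ℂ) • w := fun w s =>
    (algebraMap_smul ℂ s w).symm
  refine fba_sph hA hN (h1 X Q b n D R hR _) hn ?_ v0 (b2 _) (fun v h c1 c2 => ?_)
    (h11 X Q _ b D.C _ _ v0) b3 fun ⟨ξ, η⟩ c1 => ?_
  · have := Dh_index (L0 Q) D.C 0
    rw [i1] at this
    show 2 * (Dh (L0 Q) D.C 0 : (L0 Q).bp.H1 →ₗ[ℂ] LL2 Q.toCM Sp).index + b = _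
    rw [this]
    push_cast
    ring
  · obtain ⟨c3, c4⟩ := h2 X Q b n D R hR _ v h (half_pos b1) c2
    obtain ⟨c5, c6⟩ := a4 R hR _ v h (half_pos b1) r1 c2
    rw [c1, e1] at c5 c6
    have c7 := not_le.1 fun k => not_le.2 t3 (c6 k)
    have c8 := c5.trans (mul_le_mul_of_nonneg_right (le_abs_self C) (sq_nonneg ρ))
    have c9 := P247.H647.len_nonneg (D.cf hR ((L0 Q).bp.J v))
    have c10 := mul_le_mul_of_nonneg_left c8 (by positivity : 0 ≤ |C₁| + 2 * D.B)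
    have c11 := mul_le_mul_of_nonneg_right (le_abs_self C₁) c9
    have c12 := mul_nonneg (abs_nonneg C₁) c9
    have c13 := mul_nonneg hB.le c9
    obtain ⟨l, z, d1, d2⟩ := h5 h4 X Q b n D R v h _ _ hR c3
      (a2 R v _ _ hR c3 ((le_max_left _ _).trans c7.le) (by linarith)).1
      ((le_max_right _ _).trans c7.le) (by linarith) c4
    refine ⟨l, z / t, d1, ?_⟩
    show v = (z / t) • gV (L0 Q) D.C l (t • D.v1)
    rw [e2, map_smul, smul_smul, div_mul_cancel₀ _ t0', d2]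
  · obtain ⟨κ, g, c2⟩ := b4 ξ η c1
    obtain ⟨c3, c4⟩ := a3 t _ _ t2 c2
    obtain ⟨rfl, z, c5⟩ := h10 h4 X Q b n D t _ _ g t0 c2 c3 c4
    refine ⟨(z + κ) / t, Prod.ext ?_ rfl⟩
    show ξ = ((z + κ) / t) • t • D.v1
    rw [e2, smul_smul, div_mul_cancel₀ _ t0', add_smul, ← c5, ← e2, sub_add_cancel]

end Vale.Agent.P247W.Bp
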