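import Vale.Agent.P247A.SpecF

/-!
# P247W: homogeneous extension of gauge invariant compact perturbations (abstract part of `EXI`)
-/

set_option linter.all false

open scoped ContDiff Topology
open Set Filter Metric

noncomputable section

namespace Vale.Agent.P247W.Ex

open Vale.Agent.P247A

/-- compact families of compact operators are collectively compact -/
theorem cptC {H₁ H₂ Y : Type} [NormedAddCommGroup H₁] [NormedSpace ℂ H₁]
    [NormedAddCommGroup H₂] [NormedSpace ℂ H₂] [CompleteSpace H₂] [TopologicalSpace Y] {S : Set Y}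
    (hS : IsCompact S) {A : Y → H₁ →L[ℂ] H₂} (hA : Continuous A)
    (hc : ∀ y, IsCompactOperator (A y)) (R : ℝ) :
    ∃ T : Set H₂, IsCompact T ∧ ∀ y ∈ S, ∀ w, ‖w‖ ≤ R → A y w ∈ T := by
  have tb : TotallyBounded {z | ∃ y ∈ S, ∃ w, ‖w‖ ≤ R ∧ A y w = z} := by
    refine Metric.totallyBounded_iff.2 fun ε hε => ?_
    have hR : 0 < |R| + 1 := by positivity
    have hδ : 0 < ε / 2 / (|R| + 1) := by positivity
    obtain ⟨t, ht1, ht2, ht3⟩ := (hS.image hA).finite_cover_balls hδ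
    have h1 : ∀ B ∈ t, ∃ u : Set H₂, u.Finite ∧ B '' closedBall 0 R ⊆ ⋃ z ∈ u, ball z (ε / 2) := by
      intro B hB
      obtain ⟨y, -, rfl⟩ := ht1 hB
      obtain ⟨K, hK, hK'⟩ := IsCompactOperator.image_closedBall_subset_compact
        (f := (A y : H₁ →ₗ[ℂ] H₂)) (hc y) R
      obtain ⟨u, hu1, hu2⟩ := Metric.totallyBounded_iff.1 hK.totallyBounded _ (half_pos hε)
      exact ⟨u, hu1, hK'.trans hu2⟩
    choose! u hu1 hu2 using h1
    refine ⟨⋃ B ∈ t, u B, ht2.biUnion hu1, ?_⟩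
    rintro _ ⟨y, hy, w, hw, rfl⟩
    obtain ⟨B, hB, hyB⟩ := mem_iUnion₂.1 (ht3 ⟨y, hy, rfl⟩)
    obtain ⟨z, hz, hzB⟩ := mem_iUnion₂.1 (hu2 B hB ⟨w, mem_closedBall_zero_iff.2 hw, rfl⟩)
    refine mem_iUnion₂.2 ⟨z, mem_iUnion₂.2 ⟨B, hB, hz⟩, ?_⟩
    have a1 : dist (A y w) (B w) ≤ ε / 2 := by
      rw [dist_eq_norm, ← ContinuousLinearMap.sub_apply]
      refine ((A y - B).le_opNorm w).trans ?_
      rw [mem_ball, dist_eq_norm] at hyB
      have h2 : ‖w‖ ≤ |R| + 1 := by linarith [le_abs_self R]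
      calc _ ≤ ε / 2 / (|R| + 1) * (|R| + 1) :=
            mul_le_mul hyB.le h2 (norm_nonneg _) hδ.le
        _ = ε / 2 := div_mul_cancel₀ _ hR.ne'
    rw [mem_ball] at hzB ⊢
    linarith [dist_triangle (A y w) (B w) z]
  exact ⟨_, (tb.closure).isCompact_of_isClosed isClosed_closure,
    fun y hy w hw => subset_closure ⟨y, hy, w, hw, rfl⟩⟩

variable {b : ℕ} {V H W : Type} [NormedAddCommGroup V] [InnerProductSpace ℂ V]
  [NormedAddCommGroup H] [InnerProductSpace ℂ H] [NormedAddCommGroup W] [InnerProductSpace ℂ W]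

/-- the invariant norm -/
def nN (F : Fam b V H W) (v : V) (h : Rv b) : ℝ := ‖F.D h v‖ + ‖F.J v‖

variable (F : Fam b V H W)

theorem nN_nonneg (v : V) (h : Rv b) : 0 ≤ nN F v h := add_nonneg (norm_nonneg _) (norm_nonneg _)

theorem nN_smul (z : ℂ) (v : V) (h : Rv b) : nN F (z • v) h = ‖z‖ * nN F v h := by
  simp only [nN, map_smul, norm_smul, mul_add]

theorem nN_g (l : Fin b → ℤ) (v : V) (h : Rv b) : nN F (F.gV l v) (sh h l) = nN F v h := by
  simp only [nN, F.D_g, F.J_g, F.gH_norm, F.gW_norm]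

theorem nN_pos {v : V} (hv : v ≠ 0) (h : Rv b) : 0 < nN F v h :=
  add_pos_of_nonneg_of_pos (norm_nonneg _)
    (norm_pos_iff.2 fun e => hv (F.J_inj (e.trans (map_zero _).symm)))

theorem nN_cont : Continuous fun q : V × Rv b => nN F q.1 q.2 :=
  (((F.smooth.continuous.comp continuous_snd).clm_apply continuous_fst).norm).add
    (F.J.continuous.comp continuous_fst).norm

/-- the elliptic estimate is locally uniform in the parameter -/
theorem est_unif (R : ℝ) : ∃ C : ℝ, 0 < C ∧ ∀ h, ‖h‖ ≤ R → ∀ v, ‖v‖ ≤ C * nN F v h := by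
  have key : ∀ h₀ : Rv b, ∃ C : ℝ, 0 < C ∧ ∀ᶠ h in 𝓝 h₀, ∀ v, ‖v‖ ≤ C * nN F v h := fun h₀ => by
    obtain ⟨C, hC⟩ := F.est h₀
    have hC1 : 0 < |C| + 1 := by positivity
    refine ⟨2 * (|C| + 1), by positivity, ?_⟩
    have := Metric.tendsto_nhds.1 (F.smooth.continuous.tendsto h₀) (1 / (2 * (|C| + 1)))
      (by positivity)
    filter_upwards [this] with h hh v
    rw [dist_eq_norm] at hh
    have a1 : ‖F.D h₀ v‖ ≤ ‖F.D h v‖ + 1 / (2 * (|C| + 1)) * ‖v‖ := by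
      have e : F.D h₀ v = F.D h v - (F.D h - F.D h₀) v := by simp
      rw [e]
      exact (norm_sub_le _ _).trans (add_le_add_right ((F.D h - F.D h₀).le_of_opNorm_le hh.le v) _)
    have a2 : ‖v‖ ≤ (|C| + 1) * (‖F.D h₀ v‖ + ‖F.J v‖) :=
      (hC v).trans (mul_le_mul_of_nonneg_right (by linarith [le_abs_self C]) (by positivity))
    have a3 : (|C| + 1) * (1 / (2 * (|C| + 1)) * ‖v‖) = ‖v‖ / 2 := by field_simp
    have a4 := mul_le_mul_of_nonneg_left a1 hC1.le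
    unfold nN
    nlinarith
  choose C hC hC' using key
  obtain ⟨t, -, ht⟩ := (isCompact_closedBall (0 : Rv b) R).elim_nhds_subcover
    (fun h₀ => {h | ∀ v, ‖v‖ ≤ C h₀ * nN F v h}) fun h₀ _ => hC' h₀
  refine ⟨1 + ∑ h₀ ∈ t, C h₀, add_pos_of_pos_of_nonneg one_pos
    (Finset.sum_nonneg fun _ _ => (hC _).le), fun h hh v => ?_⟩
  obtain ⟨h₀, h1, h2⟩ := mem_iUnion₂.1 (ht (mem_closedBall_zero_iff.2 hh))
  refine (h2 v).trans (mul_le_mul_of_nonneg_right ?_ (nN_nonneg F v h))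
  linarith [Finset.single_le_sum (f := C) (fun _ _ => (hC _).le) h1]

theorem est_up (R : ℝ) : ∃ C : ℝ, 0 < C ∧ ∀ h, ‖h‖ ≤ R → ∀ v, nN F v h ≤ C * ‖v‖ := by
  obtain ⟨C, hC⟩ := (isCompact_closedBall (0 : Rv b) R).exists_bound_of_continuousOn
    F.smooth.continuous.continuousOn
  refine ⟨|C| + ‖F.J‖ + 1, by positivity, fun h hh v => ?_⟩
  have a1 := (F.D h).le_of_opNorm_le ((hC h (mem_closedBall_zero_iff.2 hh)).trans (le_abs_self C)) v
  have a2 := F.J.le_opNorm v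
  unfold nN
  nlinarith [norm_nonneg v]

/-- gauge invariant families of compact operators -/
structure AMap (A : H → V →L[ℂ] W) : Prop where
  cont : Continuous A
  cpt : ∀ y, IsCompactOperator (A y)
  unit : ∀ (z : ℂ) y, ‖z‖ = 1 → A (z • y) = A y
  inv : ∀ l y v, A (F.gH l y) (F.gV l v) = F.gW l (A y v)

/-- the point of the sphere of radius `ρ` on the ray through `v` -/
def pt (ρ : ℝ) (v : V) (h : Rv b) : V := ((ρ / nN F v h : ℝ) : ℂ) • v

/-- the homogeneous extension -/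
def Kx (A : H → V →L[ℂ] W) (ρ : ℝ) (q : V × Rv b) : W × Cv 0 × Rv 0 :=
  (A (F.J (pt F ρ q.1 q.2)) q.1, 0)

theorem nN_pt {ρ : ℝ} (hρ : 0 ≤ ρ) {v : V} (hv : v ≠ 0) (h : Rv b) : nN F (pt F ρ v h) h = ρ := by
  have := nN_pos F hv h
  rw [pt, nN_smul, Complex.norm_real, Real.norm_of_nonneg (by positivity), div_mul_cancel₀ _ this.ne']

theorem nN_pt_le {ρ : ℝ} (hρ : 0 ≤ ρ) (v : V) (h : Rv b) : nN F (pt F ρ v h) h ≤ ρ := by
  by_cases hv : v = 0
  · simp [hv, pt, nN, hρ]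
  · exact (nN_pt F hρ hv h).le

theorem pt_cpt {ρ : ℝ} (hρ : 0 ≤ ρ) (R : ℝ) :
    ∃ S : Set H, IsCompact S ∧ ∀ v h, ‖h‖ ≤ R → F.J (pt F ρ v h) ∈ S := by
  obtain ⟨C, hC, hC'⟩ := est_unif F R
  obtain ⟨S, hS, hS'⟩ := IsCompactOperator.image_closedBall_subset_compact
    (f := (F.J : V →ₗ[ℂ] H)) F.J_cpt (C * ρ)
  exact ⟨S, hS, fun v h hh => hS' ⟨_, mem_closedBall_zero_iff.2 ((hC' h hh _).trans
    (mul_le_mul_of_nonneg_left (nN_pt_le F hρ v h) hC.le)), rfl⟩⟩

theorem kmap [CompleteSpace W] {A : H → V →L[ℂ] W} (hA : AMap F A) {ρ : ℝ} (hρ : 0 ≤ ρ) :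
    KMap F (Kx F A ρ) where
  cont := by
    refine Continuous.prodMk (continuous_iff_continuousAt.2 fun q => ?_) continuous_const
    by_cases hq : q.1 = 0
    · obtain ⟨S, hS, hS'⟩ := pt_cpt F hρ (‖q.2‖ + 1)
      obtain ⟨B, hB⟩ := hS.exists_bound_of_continuousOn hA.cont.continuousOn
      have e0 : A (F.J (pt F ρ q.1 q.2)) q.1 = 0 := by rw [hq, map_zero]
      rw [ContinuousAt, e0]
      have t1 : Tendsto (fun p : V × Rv b => B * ‖p.1‖) (𝓝 q) (𝓝 0) := by
        have : Continuous fun p : V × Rv b => B * ‖p.1‖ := by fun_prop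
        simpa [hq] using this.tendsto q
      refine squeeze_zero_norm' ?_ t1
      have t2 : ∀ᶠ p : V × Rv b in 𝓝 q, ‖p.2‖ < ‖q.2‖ + 1 :=
        (continuous_snd.norm.tendsto q).eventually (gt_mem_nhds (lt_add_one _))
      filter_upwards [t2] with p hp
      exact (A _).le_of_opNorm_le (hB _ (hS' p.1 p.2 hp.le)) _
    · have c1 : ContinuousAt (fun p : V × Rv b => pt F ρ p.1 p.2) q :=
        (Complex.continuous_ofReal.continuousAt.comp (continuousAt_const.div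
          (nN_cont F).continuousAt (nN_pos F hq q.2).ne')).smul continuousAt_fst
      exact ((hA.cont.comp F.J.continuous).continuousAt.comp c1).clm_apply continuousAt_fst
  hom z v h := by
    refine Prod.ext ?_ (Subsingleton.elim _ _)
    show A (F.J (pt F ρ (z • v) h)) (z • v) = z • A (F.J (pt F ρ v h)) v
    by_cases hz : z = 0
    · simp [hz]
    have hz' : (‖z‖ : ℂ) ≠ 0 := by simpa using hz
    have e : pt F ρ (z • v) h = (z / ‖z‖) • pt F ρ v h := by
      rw [pt, pt, nN_smul, smul_smul, smul_smul]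
      congr 1
      push_cast
      by_cases h0 : (nN F v h : ℂ) = 0
      · simp [h0]
      · field_simp
    rw [e, map_smul F.J, hA.unit _ _ (by rw [norm_div]; simpa using hz), map_smul]
  inv l v h := by
    refine Prod.ext ?_ (Subsingleton.elim _ _)
    show A (F.J (pt F ρ (F.gV l v) (sh h l))) (F.gV l v) = F.gW l (A (F.J (pt F ρ v h)) v)
    rw [pt, nN_g, ← map_smul, F.J_g, hA.inv]; rfl
  cpt R := by
    obtain ⟨S, hS, hS'⟩ := pt_cpt F hρ R
    obtain ⟨T, hT, hT'⟩ := cptC hS hA.cont hA.cpt R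
    exact ⟨T ×ˢ {0}, hT.prod isCompact_singleton, fun v h hv hh =>
      ⟨hT' _ (hS' v h hh) v hv, rfl⟩⟩

/-- a zero of the homogeneous extension gives a solution on the sphere with bounded parameter -/
theorem zero_of {A : H → V →L[ℂ] W} (hA : AMap F A) {ρ : ℝ} (hρ : 0 ≤ ρ) {v : V} {h : Rv b}
    (hv : v ≠ 0) (h0 : F.tot (Kx F A ρ) (v, h) = 0) :
    ∃ w h', ‖h'‖ ≤ 1 ∧ nN F w h' = ρ ∧ F.D h' w + A (F.J w) w = 0 := by
  have e : F.D h v + A (F.J (pt F ρ v h)) v = 0 := congrArg Prod.fst h0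
  refine ⟨F.gV (fun i => -⌊h i⌋) (pt F ρ v h), sh h fun i => -⌊h i⌋,
    (pi_norm_le_iff_of_nonneg zero_le_one).2 fun i => ?_, by rw [nN_g, nN_pt F hρ hv], ?_⟩
  · have h1 := Int.fract_nonneg (h i)
    have h2 := Int.fract_lt_one (h i)
    rw [Int.fract] at h1 h2
    rw [sh, Real.norm_eq_abs, abs_le]
    push_cast
    constructor <;> linarith
  · rw [F.D_g, F.J_g, hA.inv, ← map_add]
    conv_lhs => enter [2, 1]; rw [pt, map_smul]
    conv_lhs => enter [2, 2, 2]; rw [pt]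
    rw [map_smul (A _), ← smul_add, e, smul_zero, map_zero]

end Vale.Agent.P247W.Ex
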