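import Vale.Agent.P247W.Hod
import Vale.Agent.P247A.SpecF

/-!
# P247W: the complex structure of `H¹`, multiplication operators
-/

set_option linter.all false

open scoped ContDiff Topology ENNReal ComplexConjugate
open Set MeasureTheory Filter

noncomputable section

namespace Vale.Agent.P247W

open Vale.Agent.P204.GX Vale.Agent.P204.T4 Vale.Agent.P247E Vale.Agent.P247A
open Vale.Agent.P247.H647 (Sp En sig cov)

/-! ## Real and complex structures -/

theorem real_eq (V : Type) [NormedAddCommGroup V] [NormedSpace ℂ V] (i : NormedSpace ℝ V)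
    (h : IsScalarTower ℝ ℂ V) : i = NormedSpace.complexToReal := by
  ext r v
  exact (algebraMap_smul ℂ r v).symm

/-- `FBA` for arbitrary compatible real structures -/
theorem fba_real (h : FBA_statement) {b : ℕ} {V H W : Type} [NormedAddCommGroup V]
    [InnerProductSpace ℂ V] [CompleteSpace V] [NormedAddCommGroup H] [InnerProductSpace ℂ H]
    [CompleteSpace H] [NormedAddCommGroup W] [InnerProductSpace ℂ W] [CompleteSpace W]
    [iV : NormedSpace ℝ V] [tV : IsScalarTower ℝ ℂ V] [iW : NormedSpace ℝ W]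
    [tW : IsScalarTower ℝ ℂ W] (F : Fam b V H W) {p n : ℕ} {K : V × Rv b → W × Cv p × Rv n}
    (hK : KMap F K) (hn : 1 ≤ n) (hi : 2 * (F.D 0 : V →ₗ[ℂ] W).index + b = 2 * p + n + 2)
    {v₀ : V} {h₀ : Rv b} (h0 : v₀ ≠ 0) (h1 : F.tot K (v₀, h₀) = 0)
    (h2 : ∀ v h, v ≠ 0 → F.tot K (v, h) = 0 →
      ∃ (l : Fin b → ℤ) (z : ℂ), h = sh h₀ l ∧ v = z • F.gV l v₀)
    {L : V × Rv b →L[ℝ] W × Cv p × Rv n} (h3 : HasFDerivAt (F.tot K) L (v₀, h₀))
    (h4 : ∀ q, L q = 0 → ∃ z : ℂ, q = (z • v₀, 0)) : False := by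
  have e1 := real_eq V iV tV
  have e2 := real_eq W iW tW
  subst e1 e2
  exact h b V H W F p n K hK hn hi v₀ h₀ h0 h1 h2 L h3 h4

section cx

variable {A B : Type} [NormedAddCommGroup A] [NormedSpace ℂ A] [NormedAddCommGroup B]
  [NormedSpace ℂ B]

theorem contDiff_aff {b : ℕ} (D₀ : A →L[ℂ] B) (D : Fin b → A →L[ℂ] B) :
    ContDiff ℝ ∞ fun h : Rv b => D₀ + ∑ i, (h i : ℂ) • D i :=
  contDiff_const.add (ContDiff.sum fun i _ =>
    (Complex.ofRealCLM.contDiff.comp (contDiff_apply ℝ ℝ i)).smul contDiff_const)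

variable [NormedSpace ℝ A] [NormedSpace ℝ B]

/-- a real linear map which is complex linear -/
def cx (T : A →L[ℝ] B) (h : ∀ (z : ℂ) v, T (z • v) = z • T v) : A →L[ℂ] B where
  toFun := T
  map_add' := T.map_add
  map_smul' := h
  cont := T.continuous

theorem cx_index [IsScalarTower ℝ ℂ A] [IsScalarTower ℝ ℂ B] (T : A →ₗ[ℂ] B) :
    2 * T.index = (T.restrictScalars ℝ).index := by
  have k : ∀ (C : Type) [AddCommGroup C] [Module ℂ C] [Module ℝ C] [IsScalarTower ℝ ℂ C],
      Module.finrank ℝ C = 2 * Module.finrank ℂ C := fun C _ _ _ _ => by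
    rw [← Module.finrank_mul_finrank ℝ ℂ C, Complex.finrank_real_complex]
  rw [LinearMap.index_eq_finrank_sub, LinearMap.index_eq_finrank_sub,
    LinearMap.ker_restrictScalars, LinearMap.range_restrictScalars,
    (Submodule.Quotient.restrictScalarsEquiv ℝ T.range).finrank_eq,
    ((T.ker.restrictScalarsEquiv ℝ ℂ).restrictScalars ℝ).finrank_eq, k, k]
  push_cast
  ring

theorem cx_cok [IsScalarTower ℝ ℂ A] [IsScalarTower ℝ ℂ B] (T : A →ₗ[ℂ] B)
    (h : FiniteDimensional ℝ (B ⧸ (T.restrictScalars ℝ).range)) :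
    ∃ F : Submodule ℂ B, FiniteDimensional ℂ F ∧ T.range ⊔ F = ⊤ := by
  rw [LinearMap.range_restrictScalars] at h
  have h1 : FiniteDimensional ℝ (B ⧸ T.range) :=
    (Submodule.Quotient.restrictScalarsEquiv ℝ T.range).finiteDimensional
  have h2 : FiniteDimensional ℂ (B ⧸ T.range) := Module.Finite.of_restrictScalars_finite ℝ ℂ _
  obtain ⟨F, hF⟩ := T.range.exists_isCompl
  exact ⟨F, (T.range.quotientEquivOfIsCompl F hF).finiteDimensional, hF.sup_eq_top⟩

end cx

variable {X : Type} [MetricSpace X] {M : CM X}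

theorem lo_mul (L : LBc M) (u : X → ℂ) (s : X → Sp) (a : M.A) :
    L.lo a (fun x => u x • s x) = fun y => u (M.ψ a y) • L.lo a s y :=
  funext fun _ => smul_comm _ _ _

theorem sm_mul {L : LBc M} {u : X → ℂ} {s : X → Sp} (hu : SmF M u) (hs : s ∈ L.bp.Sm) :
    (fun x => u x • s x) ∈ L.bp.Sm := fun a => by
  rw [L.bp_lo, lo_mul]; exact (hu a).smul (hs a)

theorem cv_mul {L : LBc M} {u : X → ℂ} {s : X → Sp} (hu : SmF M u) (hs : s ∈ L.bp.Sm) (x : X)
    (c : Fin 4) : L.cv (fun x => u x • s x) x c = df M u x c • s x + u x • L.cv s x c := by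
  have hs' : L.Sm s := hs
  have h := fderiv_fun_smul (𝕜 := ℝ) (x := M.cy x) ((hu (M.ch x)).differentiable (by simp) _)
    ((hs' (M.ch x)).differentiable (by simp) _)
  have h1 := L.γ_lo (M.ch x) s (M.cy x)
  rw [M.ψ_cy] at h1
  simp only [LBc.cv, lo_mul, cov, h, df, ContinuousLinearMap.add_apply,
    ContinuousLinearMap.smul_apply, ContinuousLinearMap.smulRight_apply, M.ψ_cy]
  rw [← h1]
  module

theorem jet_csmul (L : LBc M) (z : ℂ) {s : X → Sp} (hs : s ∈ L.bp.Sm) :
    L.bp.jet (fun x => z • s x) = z • L.bp.jet s := by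
  have hs' : L.Sm s := hs
  funext x
  ext1 o
  rcases o with _ | p
  · rfl
  · have h := fderiv_fun_const_smul (𝕜 := ℝ) (x := M.inv p.1 x)
      ((hs' p.1).differentiable (by simp) _) z
    show L.bp.nab p.1 p.2 (fun x => z • s x) x = z • L.bp.nab p.1 p.2 s x
    simp only [Bun.nab, L.bp_lo, lo_mul L (fun _ => z), h, ContinuousLinearMap.smul_apply]
    rw [smul_comm z]
    exact congrArg _ (smul_comm (L.γ p.1 (M.inv p.1 x)) z _)

variable [CompactSpace X] [MeasurableSpace X] [BorelSpace X]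

theorem smul_mem_H1 (L : LBc M) (z : ℂ) (w : L.bp.H1) : z • (w : LL2 M (Jt M Sp)) ∈ L.bp.H1 := by
  refine L.bp.H1_ind (p := fun w => z • (w : LL2 M (Jt M Sp)) ∈ L.bp.H1)
    ((Submodule.isClosed_topologicalClosure _).preimage
      (continuous_subtype_val.const_smul z)) (fun w s hs h => ?_) w
  refine Submodule.le_topologicalClosure _ (Submodule.subset_span
    ⟨_, sm_mul (u := fun _ => z) (fun _ => contDiff_const) hs, ?_⟩)
  rw [jet_csmul L z hs]
  exact (Lp.coeFn_smul _ _).trans (EventuallyEq.const_smul h z)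

instance smulH1 (L : LBc M) : SMul ℂ L.bp.H1 := ⟨fun z w => ⟨z • w.1, smul_mem_H1 L z w⟩⟩

instance moduleH1 (L : LBc M) : Module ℂ L.bp.H1 :=
  Function.Injective.module ℂ L.bp.H1.subtype.toAddMonoidHom Subtype.val_injective fun _ _ => rfl

instance ipH1 (L : LBc M) : InnerProductSpace ℂ L.bp.H1 where
  inner v w := inner ℂ v.1 w.1
  norm_smul_le z w := norm_smul_le z w.1
  norm_sq_eq_re_inner w := norm_sq_eq_re_inner w.1
  conj_inner_symm v w := inner_conj_symm v.1 w.1
  add_left u v w := inner_add_left u.1 v.1 w.1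
  smul_left v w z := inner_smul_left v.1 w.1 z

instance towerH1 (L : LBc M) : IsScalarTower ℝ ℂ L.bp.H1 :=
  ⟨fun r z w => Subtype.ext (smul_assoc r z w.1)⟩

theorem rep_csmul {L : LBc M} {w : L.bp.H1} {s : X → Sp} (h : L.bp.Rep w s) (hs : s ∈ L.bp.Sm)
    (z : ℂ) : L.bp.Rep (z • w) fun x => z • s x := by
  rw [Bun.Rep, jet_csmul L z hs]
  exact (Lp.coeFn_smul _ _).trans (EventuallyEq.const_smul h z)

theorem J_csmul (L : LBc M) (z : ℂ) (w : L.bp.H1) : L.bp.J (z • w) = z • L.bp.J w := by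
  refine Lp.ext ?_
  filter_upwards [L.bp.J_ae (z • w), L.bp.J_ae w, Lp.coeFn_smul z (L.bp.J w),
    Lp.coeFn_smul z (w : LL2 M (Jt M Sp))] with x h1 h2 h3 h4
  rw [h1, h3, Pi.smul_apply, h2]
  exact congrArg (fun j : Jt M Sp => j none) h4

/-- multiplication by a field of complex linear maps -/
def mR (M : CM X) (B : X → En) : LL2 M Sp →L[ℝ] LL2 M Sp := mulOp M fun x => reL (B x)

theorem mR_ae {B : X → En} (hB : BM B) (f : LL2 M Sp) :
    (mR M B f : X → Sp) =ᵐ[M.mu] fun x => B x ((f : X → Sp) x) := (hB.lin reL).mulOp_ae f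

theorem mR_csmul {B : X → En} (hB : BM B) (z : ℂ) (f : LL2 M Sp) :
    mR M B (z • f) = z • mR M B f := by
  refine Lp.ext ?_
  filter_upwards [mR_ae hB (z • f), mR_ae hB f, Lp.coeFn_smul z f, Lp.coeFn_smul z (mR M B f)]
    with x h1 h2 h3 h4
  rw [h1, h3, h4, Pi.smul_apply, Pi.smul_apply, h2, map_smul]

theorem bm_scal {u : X → ℂ} (hu : BM u) : BM fun x => u x • (1 : En) :=
  hu.cont (F := fun z : ℂ => z • (1 : En)) (by fun_prop)

section lift

variable {V W : Type} [NormedAddCommGroup V] [InnerProductSpace ℝ V] [FiniteDimensional ℝ V]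
  [NormedAddCommGroup W] [InnerProductSpace ℝ W] [FiniteDimensional ℝ W] {E : Bun M V}
  {F : Bun M W}

/-- operators on `H¹` with prescribed value and prescribed image under `P` -/
theorem exists_lift {P : Op E F} (hP : P.Gar) (A : E.H1 →L[ℝ] LL2 M V) (B : E.H1 →L[ℝ] LL2 M W)
    (h : ∀ w, ∀ s ∈ E.Sm, E.Rep w s → ∃ w', E.J w' = A w ∧ P.clm w' = B w) :
    ∃ T : E.H1 →L[ℝ] E.H1, ∀ w, E.J (T w) = A w ∧ P.clm (T w) = B w := by
  have := FiniteDimensional.complete ℝ V
  have := FiniteDimensional.complete ℝ W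
  obtain ⟨C, hC, hG⟩ := gar X M V W E F P hP
  have anti : AntilipschitzWith (2 * C).toNNReal (E.J.prod P.clm) :=
    (E.J.prod P.clm).antilipschitz_of_bound fun w => by
      rw [Real.coe_toNNReal _ (by positivity)]
      have h1 : ‖E.J w‖ ≤ ‖(E.J.prod P.clm) w‖ := norm_fst_le ((E.J.prod P.clm) w)
      have h2 : ‖P.clm w‖ ≤ ‖(E.J.prod P.clm) w‖ := norm_snd_le ((E.J.prod P.clm) w)
      nlinarith [hG w]
  have cl : IsClosed (range (E.J.prod P.clm)) :=
    anti.isClosed_range (E.J.prod P.clm).uniformContinuous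
  have all : ∀ w, (A.prod B) w ∈ LinearMap.range (E.J.prod P.clm : E.H1 →ₗ[ℝ] _) :=
    E.H1_ind (p := fun w => (A.prod B) w ∈ range (E.J.prod P.clm))
      (cl.preimage (A.prod B).continuous) fun w s hs r => by
        obtain ⟨w', h1, h2⟩ := h w s hs r
        exact ⟨w', Prod.ext h1 h2⟩
  refine ⟨((E.J.prod P.clm).equivRange anti.injective cl).symm.toContinuousLinearMap.comp
    ((A.prod B).codRestrict _ all), fun w => ?_⟩
  have k := congrArg Subtype.val
    (((E.J.prod P.clm).equivRange anti.injective cl).apply_symm_apply ⟨_, all w⟩)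
  exact ⟨congrArg Prod.fst k, congrArg Prod.snd k⟩

end lift

end Vale.Agent.P247W
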