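import Vale.Agent.P247W.Hod
import Vale.Agent.P247E.QFin
import Vale.Agent.P247E.Jac

/-!
# P247W: the div-curl lemma for exact two-forms
-/

set_option linter.all false

open scoped ContDiff Topology ENNReal ComplexConjugate
open Set MeasureTheory Filter

noncomputable section

namespace Vale.Agent.P247W

open Vale.Agent.P204.GX Vale.Agent.P204.T4 Vale.Agent.P247E Vale.Agent.P247E.Solv
open Vale.Agent.P247.H647 (Sp hat)

/-- a bounded sequence that is weakly null on a dense set is weakly null -/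
theorem weak_null {H : Type} [NormedAddCommGroup H] [InnerProductSpace ℝ H] {g : ℕ → H} {C : ℝ}
    (hb : ∀ n, ‖g n‖ ≤ C) {D : Set H} (hD : Dense D)
    (hw : ∀ v ∈ D, Tendsto (fun n => inner ℝ (g n) v) atTop (𝓝 0)) (v : H) :
    Tendsto (fun n => inner ℝ (g n) v) atTop (𝓝 0) := by
  have C0 : 0 ≤ C := (norm_nonneg _).trans (hb 0)
  refine Metric.tendsto_nhds.2 fun ε ε0 => ?_
  obtain ⟨u, hu, h⟩ := Metric.mem_closure_iff.1 (hD v) (ε / 2 / (C + 1)) (by positivity)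
  filter_upwards [Metric.tendsto_nhds.1 (hw u hu) (ε / 2) (by positivity)] with n hn
  rw [dist_zero_right] at hn ⊢
  have e : inner ℝ (g n) v = inner ℝ (g n) u + inner ℝ (g n) (v - u) := by
    rw [inner_sub_right]; ring
  have k := (norm_inner_le_norm (𝕜 := ℝ) (g n) (v - u)).trans
    (mul_le_mul_of_nonneg_right (hb n) (norm_nonneg _))
  rw [dist_eq_norm, lt_div_iff₀ (by positivity)] at h
  rw [e]
  refine (norm_add_le _ _).trans_lt ?_
  nlinarith [norm_nonneg (v - u)]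

/-- compact operators map bounded weakly null sequences to null sequences -/
theorem cpt_null {H₁ H₂ : Type} [NormedAddCommGroup H₁] [InnerProductSpace ℝ H₁]
    [CompleteSpace H₁] [NormedAddCommGroup H₂] [InnerProductSpace ℝ H₂] [CompleteSpace H₂]
    (K : H₁ →L[ℝ] H₂) (hK : IsCompactOperator K) {g : ℕ → H₁} {C : ℝ} (hb : ∀ n, ‖g n‖ ≤ C)
    (hw : ∀ v, Tendsto (fun n => inner ℝ (g n) v) atTop (𝓝 0)) :
    Tendsto (fun n => K (g n)) atTop (𝓝 0) := by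
  obtain ⟨S, hS, hs⟩ := IsCompactOperator.image_closedBall_subset_compact (f := (K : H₁ →ₗ[ℝ] H₂)) hK C
  refine hS.tendsto_nhds_of_unique_mapClusterPt
    (.of_forall fun n => hs ⟨g n, mem_closedBall_zero_iff.2 (hb n), rfl⟩) fun z _ hz => ?_
  have c : Continuous fun y : H₂ => inner ℝ y z := by fun_prop
  have h1 := hz.continuousAt_comp c.continuousAt
  have h2 : Tendsto (fun n => inner ℝ (K (g n)) z) atTop (𝓝 0) := by
    simpa only [ContinuousLinearMap.adjoint_inner_right] using hw (ContinuousLinearMap.adjoint K z)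
  exact inner_self_eq_zero.1 (eq_of_nhds_neBot (h1.clusterPt.mono h2))

variable {X : Type} [MetricSpace X]

/-- the Leibniz rule -/
theorem dX_fsmul {M : CM X} {χ : X → ℝ} (hχ : M.Sm0 χ) {ξ : X → V4} (hξ : M.Sm1 ξ) :
    M.Sm1 (fun x => χ x • ξ x) ∧
      ∀ x, M.dX (fun x => χ x • ξ x) x = wd (df M χ x) (ξ x) + χ x • M.dX ξ x := by
  have e : ∀ a, M.cf1 a (fun x => χ x • ξ x) = fun y => χ (M.ψ a y) • M.cf1 a ξ y := fun a =>
    funext fun y => copp_smul _ _ _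
  have h1 : M.Sm1 fun x => χ x • ξ x := fun a => by rw [e]; exact (hχ a).smul (hξ a)
  refine ⟨h1, congrFun (M.ext_cf fun a y _ => ?_)⟩
  rw [M.cf_dX h1, e, CM.cf, pull_add, pull_smul, pull_wd, ← CM.cf, M.cf_dX hξ, ← CM.cf1, ← CM.cf1,
    cf1_df hχ]
  have d1 := (hχ a).differentiable (by simp) y
  have d2 := fun j => (contDiff_pi.1 (hξ a) j).differentiable (by simp) y
  funext k
  fin_cases k <;>
    simp [P204.T4.d1, ofEnt, wd, P204.T4.pd_mul d1 (d2 _)] <;> ring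

variable [CompactSpace X] [MeasurableSpace X] [BorelSpace X] {Q : QM X}

/-- the self-dual part of a two-form, as a section of `Q.t0` -/
theorem hc_mem {u : X → L2} (hu : u ∈ Q.Om) : (fun x => spnL (Hx.hc (u x))) ∈ Q.t0.Sm :=
  Hx.triv_sm.2 fun a => spnL.contDiff.comp (Hx.smF_hc Q hu a)

theorem inner_hc (A : L2) (t : Sp) :
    inner ℝ (spnL (Hx.hc A)) t = P204.T4.Q A (∑ k, vec t k.succ • eS k) := by
  simp only [Hx.inner_vec, spnL_apply, vec_spn, Fin.sum_univ_succ (n := 3), Hx.hc_succ, Q_sum,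
    Q_eS_hat, mul_comm]
  simp [Hx.hc_eq]

theorem inner_J {M : CM X} {V : Type} [NormedAddCommGroup V] [InnerProductSpace ℝ V]
    {f g : LL2 M V} {s t : X → V} (h : (f : X → V) =ᵐ[M.mu] s) (k : (g : X → V) =ᵐ[M.mu] t) :
    inner ℝ f g = ∫ x, inner ℝ (s x) (t x) ∂M.mu := by
  rw [L2.inner_def]
  exact integral_congr_ae (by filter_upwards [h, k] with x a b; rw [a, b])

variable [ConnectedSpace X]

/-- the potential given by the Green operator -/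
theorem potential {H : Op Q.t1 Q.t0} (hH : Q.IsHod H) {G : LL2 Q.toCM Sp →L[ℝ] Q.t1.H1}
    (hG : Green H G) {η : X → V4} (s : Q.Sm1 η) : ∃ ξ, Q.Sm1 ξ ∧ Q.dX ξ = Q.dX η ∧
      ∫ x, ∑ c, ξ x c ^ 2 ∂Q.mu = ‖Q.t1.J (G (Q.t0.J (Q.t0.jw (hc_mem (Q.dX_mem_Om s)))))‖ ^ 2 := by
  have m := hc_mem (Q.dX_mem_Om s)
  have r := (Q.t0.rep_jw m).J_ae
  have h1 := hG.right (Q.t0.J (Q.t0.jw m)) fun t ht => by
    obtain ⟨mt, -, cl⟩ := (mem_coker hH).1 ht
    rw [← stokes s (sd_mem (sm_s mt)) cl]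
    exact integral_congr_ae (r.mono fun x hx => by simp only [hx]; exact inner_hc _ _)
  obtain ⟨φ, hφ, rφ, e⟩ := H.reg_sm (IsHod.cliff hH).gar _ m (by rw [h1]; exact r)
  have sφ := (Q.mem_t1 φ).1 hφ
  have s' : Q.Sm1 ((-1 : ℝ) • η) := fun a => by rw [Q.cf1_smul]; exact (s a).const_smul (-1 : ℝ)
  refine ⟨_, sφ, ?_, ?_⟩
  · have := dX_zero (η := (fun x => vec (φ x)) + (-1 : ℝ) • η)
      (fun a => by rw [Q.cf1_add]; exact (sφ a).add (s' a)) fun x k => by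
        rw [Q.dX_add sφ s', Q.dX_smul _ s, ← Hx.hc_succ, Pi.add_apply, map_add, Pi.add_apply,
          Hx.hc_succ, ← hH.curl φ hφ, e]
        simp [vec_spn]
    rw [Q.dX_add sφ s', Q.dX_smul _ s, neg_smul, one_smul] at this
    exact eq_of_add_neg_eq_zero this
  · rw [← real_inner_self_eq_norm_sq, inner_J rφ.J_ae rφ.J_ae]
    simp only [Hx.inner_vec, sq]

theorem Q_wd_le (p ξ : V4) (A : L2) {K δ : ℝ} (hp : ∀ c, ‖p c‖ ≤ K) (δ0 : 0 < δ) :
    |P204.T4.Q (wd p ξ) A| ≤ δ * ∑ i, A i ^ 2 + K ^ 2 / δ * ∑ c, ξ c ^ 2 := by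
  have k : ∀ u v : ℝ, |u * v| ≤ δ * v ^ 2 + u ^ 2 / (4 * δ) := fun u v => by
    rw [abs_mul, ← sq_abs u, ← sq_abs v, ← sub_nonneg]
    have : δ * |v| ^ 2 + |u| ^ 2 / (4 * δ) - |u| * |v| = (2 * δ * |v| - |u|) ^ 2 / (4 * δ) := by
      field_simp; ring
    rw [this]; positivity
  have p2 : ∀ c, p c ^ 2 ≤ K ^ 2 := fun c => by
    rw [← sq_abs]; exact pow_le_pow_left₀ (abs_nonneg _) (hp c) 2
  have l : ∑ i, wd p ξ i ^ 2 ≤ 4 * K ^ 2 * ∑ c, ξ c ^ 2 := by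
    have : ∑ i, wd p ξ i ^ 2 = (∑ c, p c ^ 2) * ∑ c, ξ c ^ 2 - (∑ c, p c * ξ c) ^ 2 := by
      simp only [Fin.sum_univ_six, Fin.sum_univ_four, wd_0, wd_1, wd_2, wd_3, wd_4, wd_5]; ring
    rw [this]
    have h1 : ∑ c, p c ^ 2 ≤ 4 * K ^ 2 := by
      rw [Fin.sum_univ_four]; linarith [p2 0, p2 1, p2 2, p2 3]
    nlinarith [sq_nonneg (∑ c, p c * ξ c), mul_le_mul_of_nonneg_right h1
      (Finset.sum_nonneg fun c _ => sq_nonneg (ξ c) : 0 ≤ ∑ c, ξ c ^ 2)]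
  have l' : (∑ i, wd p ξ i ^ 2) / (4 * δ) ≤ K ^ 2 / δ * ∑ c, ξ c ^ 2 := by
    rw [div_le_iff₀ (by positivity)]
    refine l.trans (le_of_eq ?_)
    field_simp
  generalize wd p ξ = B at *
  have a0 := abs_le.1 (k (B 0) (A 5))
  have a1 := abs_le.1 (k (B 1) (A 4))
  have a2 := abs_le.1 (k (B 2) (A 3))
  have a3 := abs_le.1 (k (B 3) (A 2))
  have a4 := abs_le.1 (k (B 4) (A 1))
  have a5 := abs_le.1 (k (B 5) (A 0))
  simp only [Fin.sum_univ_six, add_div, mul_add] at l' ⊢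
  rw [P204.T4.Q, abs_le]
  constructor <;> linarith [a0.1, a0.2, a1.1, a1.2, a2.1, a2.2, a3.1, a3.2, a4.1, a4.2, a5.1, a5.2]

omit [ConnectedSpace X] in
theorem int_sq {M : CM X} {ι : Type} [Fintype ι] {u : X → ι → ℝ} (hu : BM u) :
    Integrable (fun x => ∑ c, u x c ^ 2) M.mu := memLp_one_iff_integrable.1
  ((hu.cont (F := fun p => ∑ c, p c ^ 2) (by fun_prop)).memLp 1)

omit [ConnectedSpace X] in
theorem norm_hc {u : X → L2} (hu : u ∈ Q.Om) {C : ℝ} (hb : ∫ x, ∑ i, u x i ^ 2 ∂Q.mu ≤ C) :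
    ‖Q.t0.J (Q.t0.jw (hc_mem hu))‖ ≤ √(2 * C) := by
  have m := hc_mem hu
  have r := (Q.t0.rep_jw m).J_ae
  refine Real.le_sqrt_of_sq_le ?_
  rw [← real_inner_self_eq_norm_sq, inner_J r r]
  refine le_trans (integral_mono (Q.t0.integrable_inner m m) ((int_sq (bm_Om hu)).const_mul 2)
    fun x => ?_) (by rw [integral_const_mul]; linarith)
  simp only [Hx.inner_vec, spnL_apply, vec_spn, Hx.hc_eq, Fin.sum_univ_four, Fin.sum_univ_six]
  generalize u x = A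
  simp
  nlinarith [sq_nonneg (A 0 - A 5), sq_nonneg (A 1 + A 4), sq_nonneg (A 2 - A 3)]

/-- bounded weakly null exact forms have potentials tending to zero in `L²` -/
theorem pot_null {η : ℕ → X → V4} (hs : ∀ n, Q.Sm1 (η n)) {C : ℝ}
    (hb : ∀ n, ∫ x, ∑ i, Q.dX (η n) x i ^ 2 ∂Q.mu ≤ C)
    (hw : ∀ h : X → Fin 3 → ℝ, SmF Q.toCM h →
      Tendsto (fun n => Q.pr (Q.dX (η n)) (sd h)) atTop (𝓝 0)) :
    ∃ ξ : ℕ → X → V4, (∀ n, Q.Sm1 (ξ n)) ∧ (∀ n, Q.dX (ξ n) = Q.dX (η n)) ∧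
      Tendsto (fun n => ∫ x, ∑ c, ξ n x c ^ 2 ∂Q.mu) atTop (𝓝 0) := by
  have hH := Hx.isHod Q
  obtain ⟨G, hG⟩ := exists_Green (IsHod.cliff hH) rfl
  choose ξ sξ dξ nξ using fun n => potential hH hG (hs n)
  have gb := fun n => norm_hc (Q.dX_mem_Om (hs n)) (hb n)
  have t := cpt_null (Q.t1.J.comp G) ((rel X _ _ Sp _ Q.t1).comp_clm G) gb
    (weak_null gb Q.t0.dense_sm fun v ⟨s, hs', e⟩ => (hw _ (sm_s hs')).congr fun n => by
      rw [inner_J (Q.t0.rep_jw _).J_ae e]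
      exact integral_congr_ae (.of_forall fun x => (inner_hc _ _).symm))
  refine ⟨ξ, sξ, dξ, ?_⟩
  have t2 := t.norm.pow 2
  rw [norm_zero, zero_pow two_ne_zero] at t2
  exact t2.congr fun n => (nξ n).symm

omit [ConnectedSpace X] in
theorem int_Qwd {M : CM X} {p ξ : X → V4} {A : X → L2} (hp : BM p) (hξ : BM ξ) (hA : BM A) :
    Integrable (fun x => P204.T4.Q (wd (p x) (ξ x)) (A x)) M.mu := by
  have c : Continuous fun p : (V4 × V4) × L2 => P204.T4.Q (wd p.1.1 p.1.2) p.2 := by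
    simp only [P204.T4.Q, wd_0, wd_1, wd_2, wd_3, wd_4, wd_5]; fun_prop
  exact memLp_one_iff_integrable.1 ((((hp.prod hξ).prod hA).cont c).memLp 1)

omit [ConnectedSpace X] in
theorem ff_est {M : CM X} {ξ : X → V4} (s : M.Sm1 ξ) {χ : X → ℝ} (hχ : M.Sm0 χ) {K δ : ℝ}
    (hK : ∀ x c, ‖df M χ x c‖ ≤ K) (δ0 : 0 < δ) :
    ‖∫ x, χ x * P204.T4.Q (M.dX ξ x) (M.dX ξ x) ∂M.mu‖ ≤
      δ * ∫ x, ∑ i, M.dX ξ x i ^ 2 ∂M.mu + K ^ 2 / δ * ∫ x, ∑ c, ξ x c ^ 2 ∂M.mu := by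
  obtain ⟨s1, l⟩ := dX_fsmul hχ s
  have m := M.dX_mem_Om s
  have b := bm_Om m
  have st := stokes s1 m fun a => by rw [M.cf_dX s]; exact closed_d1 (s a)
  have iw := int_Qwd (M := M) (bm_Sm1 (sm1_df hχ)) (bm_Sm1 s) b
  obtain ⟨c1, B, c2⟩ := SmF.bm (M := M) hχ
  simp only [l, Q_add_left, Q_smul_left] at st
  rw [integral_add iw ((intQ m m).bdd_mul c1.aestronglyMeasurable (.of_forall c2))] at st
  rw [eq_neg_of_add_eq_zero_right st, norm_neg, ← integral_const_mul, ← integral_const_mul,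
    ← integral_add ((int_sq b).const_mul _) ((int_sq (bm_Sm1 s)).const_mul _)]
  exact norm_integral_le_of_norm_le (((int_sq b).const_mul _).add
    ((int_sq (bm_Sm1 s)).const_mul _)) (.of_forall fun x => Q_wd_le _ _ _ (hK x) δ0)

/-- the div-curl lemma, smooth test functions -/
theorem ff_sm {η : ℕ → X → V4} (hs : ∀ n, Q.Sm1 (η n)) {C : ℝ}
    (hb : ∀ n, ∫ x, ∑ i, Q.dX (η n) x i ^ 2 ∂Q.mu ≤ C)
    (hw : ∀ h : X → Fin 3 → ℝ, SmF Q.toCM h →
      Tendsto (fun n => Q.pr (Q.dX (η n)) (sd h)) atTop (𝓝 0))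
    {χ : X → ℝ} (hχ : Q.Sm0 χ) :
    Tendsto (fun n => ∫ x, χ x * P204.T4.Q (Q.dX (η n) x) (Q.dX (η n) x) ∂Q.mu) atTop (𝓝 0) := by
  obtain ⟨ξ, sξ, dξ, t2⟩ := pot_null hs hb hw
  obtain ⟨K, hK⟩ := (bm_Sm1 (sm1_df hχ)).2
  have C0 : 0 ≤ C := (integral_nonneg fun x => by positivity).trans (hb 0)
  refine Metric.tendsto_nhds.2 fun ε ε0 => ?_
  have δ0 : 0 < ε / 2 / (C + 1) := by positivity
  have t3 := t2.const_mul (K ^ 2 / (ε / 2 / (C + 1)))
  rw [mul_zero] at t3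
  filter_upwards [(tendsto_order.1 t3).2 (ε / 2) (by positivity)] with n hn
  have k := ff_est (sξ n) hχ (fun x c => (norm_le_pi_norm _ c).trans (hK x)) δ0
  rw [dξ] at k
  have : ε / 2 / (C + 1) * C ≤ ε / 2 := by
    rw [div_mul_eq_mul_div, div_le_iff₀ (by positivity)]; nlinarith
  rw [dist_zero_right]
  linarith [mul_le_mul_of_nonneg_left (hb n) δ0.le]

omit [ConnectedSpace X] [CompactSpace X] [MeasurableSpace X] [BorelSpace X] in
/-- uniform approximation by smooth functions -/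
theorem sm0_approx (M : CM X) {χ : X → ℝ} (hχ : Continuous χ) {ε : ℝ} (ε0 : 0 < ε) :
    ∃ f, M.Sm0 f ∧ ∀ x, ‖χ x - f x‖ ≤ ε := by
  choose g g1 g2 g3 using fun a => (hχ.comp (M.continuous_ψ a)).exists_contDiff_approx ⊤
    (continuous_const (y := ε)) fun _ => ε0
  refine ⟨fun x => ∑ a, M.ext0 a (fun y => M.zl a y * g a y) x, fun b => ContDiff.sum fun a _ =>
    M.sm0_ext0 a ((M.contDiff_zl a).mul (g1 a)) (M.hasCompactSupport_zl a).mul_right b, fun x => ?_⟩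
  rw [← one_mul (χ x), ← one_mul ε, ← M.sum_zeta x, Finset.sum_mul, Finset.sum_mul,
    ← Finset.sum_sub_distrib]
  refine norm_sum_le_of_le _ fun a _ => ?_
  by_cases h : x ∈ range (M.ψ a)
  · obtain ⟨y, rfl⟩ := h
    rw [M.ext0_ψ_self, CM.zl, ← mul_sub, norm_mul, Real.norm_of_nonneg (M.zeta_nonneg _ _),
      ← dist_eq_norm, dist_comm]
    exact mul_le_mul_of_nonneg_left (g2 a y).le (M.zeta_nonneg _ _)
  · simp [CM.ext0, h, M.zeta_eq_zero a fun k => h (image_subset_range _ _ k)]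

theorem Q_le (A B : L2) : |P204.T4.Q A B| ≤ (∑ i, A i ^ 2 + ∑ i, B i ^ 2) / 2 := by
  simp only [Fin.sum_univ_six, P204.T4.Q, abs_le]
  constructor
  · nlinarith [sq_nonneg (A 0 + B 5), sq_nonneg (A 1 - B 4), sq_nonneg (A 2 + B 3),
      sq_nonneg (A 3 + B 2), sq_nonneg (A 4 - B 1), sq_nonneg (A 5 + B 0)]
  · nlinarith [sq_nonneg (A 0 - B 5), sq_nonneg (A 1 + B 4), sq_nonneg (A 2 - B 3),
      sq_nonneg (A 3 - B 2), sq_nonneg (A 4 + B 1), sq_nonneg (A 5 - B 0)]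

omit [ConnectedSpace X] in
theorem int_cQ {M : CM X} {χ : X → ℝ} (hχ : Continuous χ) {u v : X → L2} (hu : u ∈ M.Om)
    (hv : v ∈ M.Om) : Integrable (fun x => χ x * P204.T4.Q (u x) (v x)) M.mu := by
  obtain ⟨B, hB⟩ := isCompact_univ.exists_bound_of_continuousOn hχ.continuousOn
  exact (intQ hu hv).bdd_mul hχ.aestronglyMeasurable (.of_forall fun x => hB x trivial)

omit [ConnectedSpace X] in
theorem norm_cQ {M : CM X} {χ : X → ℝ} {B : ℝ} (hB : ∀ x, ‖χ x‖ ≤ B) {u v : X → L2} (hu : u ∈ M.Om)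
    (hv : v ∈ M.Om) : ‖∫ x, χ x * P204.T4.Q (u x) (v x) ∂M.mu‖ ≤
      B * ((∫ x, ∑ i, u x i ^ 2 ∂M.mu + ∫ x, ∑ i, v x i ^ 2 ∂M.mu) / 2) := by
  have i1 := int_sq (M := M) (bm_Om hu)
  have i2 := int_sq (M := M) (bm_Om hv)
  rw [← integral_add i1 i2, ← integral_div, ← integral_const_mul]
  exact norm_integral_le_of_norm_le (((i1.add i2).div_const _).const_mul _) (.of_forall fun x => by
    rw [norm_mul]
    exact mul_le_mul (hB x) (Q_le _ _) (norm_nonneg _) ((norm_nonneg _).trans (hB x)))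

/-- the div-curl lemma -/
theorem ff_cont {η : ℕ → X → V4} (hs : ∀ n, Q.Sm1 (η n)) {C : ℝ}
    (hb : ∀ n, ∫ x, ∑ i, Q.dX (η n) x i ^ 2 ∂Q.mu ≤ C)
    (hw : ∀ h : X → Fin 3 → ℝ, SmF Q.toCM h →
      Tendsto (fun n => Q.pr (Q.dX (η n)) (sd h)) atTop (𝓝 0))
    {χ : X → ℝ} (hχ : Continuous χ) :
    Tendsto (fun n => ∫ x, χ x * P204.T4.Q (Q.dX (η n) x) (Q.dX (η n) x) ∂Q.mu) atTop (𝓝 0) := by
  have C0 : 0 ≤ C := (integral_nonneg fun x => by positivity).trans (hb 0)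
  refine Metric.tendsto_nhds.2 fun ε ε0 => ?_
  have δ0 : 0 < ε / 2 / (C + 1) := by positivity
  obtain ⟨f, hf, k⟩ := sm0_approx Q.toCM hχ δ0
  filter_upwards [Metric.tendsto_nhds.1 (ff_sm hs hb hw hf) (ε / 2) (by positivity)] with n hn
  have m := Q.dX_mem_Om (hs n)
  have k1 := norm_cQ k m m
  simp only [sub_mul] at k1
  rw [integral_sub (int_cQ hχ m m) (int_cQ (SmF.continuous (M := Q.toCM) hf) m m)] at k1
  have : ε / 2 / (C + 1) * C ≤ ε / 2 := by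
    rw [div_mul_eq_mul_div, div_le_iff₀ (by positivity)]; nlinarith
  rw [dist_zero_right] at hn ⊢
  linarith [mul_le_mul_of_nonneg_left (hb n) δ0.le, (norm_sub_norm_le _ _).trans k1]

end Vale.Agent.P247W
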