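import Vale.Agent.P247E.Fa

/-!
# P247W, quantisation: three tools from functional analysis
-/

set_option linter.all false

open scoped Topology
open Set Filter Metric Module Complex

noncomputable section

namespace Vale.Agent.P247W.Qu

open Vale.Agent.P247E.Fa

theorem cpt_pi {E ι : Type} [Fintype ι] {F : ι → Type} [NormedAddCommGroup E]
    [∀ i, NormedAddCommGroup (F i)] {f : E → ∀ i, F i}
    (h : ∀ i, IsCompactOperator fun x => f x i) : IsCompactOperator f := by
  choose K hK hf using h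
  exact ⟨univ.pi K, isCompact_univ_pi hK, by
    filter_upwards [eventually_all.2 hf] with x hx i _ using hx i⟩

theorem cpt_prod {E F G : Type} [NormedAddCommGroup E] [NormedAddCommGroup F]
    [NormedAddCommGroup G] {f : E → F} {g : E → G} (hf : IsCompactOperator f)
    (hg : IsCompactOperator g) : IsCompactOperator fun x => (f x, g x) := by
  obtain ⟨K, hK, h⟩ := hf
  obtain ⟨K', hK', h'⟩ := hg
  exact ⟨K ×ˢ K', hK.prod hK', by filter_upwards [h, h'] with x a b using ⟨a, b⟩⟩

theorem alt {E F : Type} [NormedAddCommGroup E] [NormedSpace ℝ E] [CompleteSpace E]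
    [NormedAddCommGroup F] [NormedSpace ℝ F] (P : E ≃L[ℝ] F) (Ψ : E →L[ℝ] F)
    (c : IsCompactOperator fun x => Ψ x - P x) (i : Function.Injective Ψ) :
    Function.Surjective Ψ := by
  rcases (c.clm_comp (P.symm : F →L[ℝ] E)).hasEigenvalue_or_mem_resolventSet
    (T := (P.symm : F →L[ℝ] E).comp (Ψ - (P : E →L[ℝ] F))) (μ := -1) (by simp) with h | h
  · obtain ⟨x, hx, x0⟩ := h.exists_hasEigenvector
    refine (x0 (i ?_)).elim
    simpa [ContinuousLinearEquiv.symm_apply_eq, sub_eq_iff_eq_add] using hx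
  · intro y
    obtain ⟨x, hx⟩ := (ContinuousLinearMap.isUnit_iff_bijective.1
      (spectrum.mem_resolventSet_iff.1 h)).2 (P.symm (-y))
    refine ⟨x, ?_⟩
    have : -P x - (Ψ x - P x) = -y := by
      simpa [Algebra.algebraMap_eq_smul_one] using congrArg P hx
    rw [← neg_inj, ← this]; abel

/-- a compact perturbation of a product of positive index has a kernel -/
theorem idx {ι H : Type} [Fintype ι] {V : ι → Type} [∀ r, NormedAddCommGroup (V r)]
    [∀ r, InnerProductSpace ℝ (V r)] [∀ r, CompleteSpace (V r)] [NormedAddCommGroup H]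
    [InnerProductSpace ℝ H] [CompleteSpace H] (D J : ∀ r, V r →L[ℝ] H) (hD : ∀ r, Fr (D r))
    (hJ : ∀ r, IsCompactOperator (J r)) (h0 : ∀ r, 0 ≤ (D r : V r →ₗ[ℝ] H).index) {r₀ : ι}
    (h1 : 0 < (D r₀ : V r₀ →ₗ[ℝ] H).index) (T : (ι → H) →L[ℝ] ι → H) :
    ∃ v : ∀ r, V r, v ≠ 0 ∧ ∀ r, D r (v r) + T (fun r => J r (v r)) r = 0 := by
  choose K _ C _ Φ e using fun r => (hD r).bd
  have hd : ∀ r, finrank ℝ (C r) ≤ finrank ℝ (K r) := fun r => by
    have := h0 r
    rw [bd_index (Φ r) (e r)] at this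
    omega
  choose j hj using fun r => (finrank_le_iff_exists_linearMap ..).1 (hd r)
  by_contra! k
  obtain ⟨Ψ, eΨ⟩ : ∃ Ψ : (∀ r, V r × C r) →L[ℝ] ∀ r, H × K r, ∀ x r,
      Ψ x r = (D r (x r).1 + T (fun r => J r (x r).1) r, j r (x r).2) :=
    ⟨.pi fun r => ((D r).comp ((ContinuousLinearMap.fst ..).comp (.proj r)) +
      (ContinuousLinearMap.proj r).comp (T.comp (.pi fun r => (J r).comp
        ((ContinuousLinearMap.fst ..).comp (.proj r))))).prod ((j r).toContinuousLinearMap.comp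
          ((ContinuousLinearMap.snd ..).comp (.proj r))), fun _ _ => rfl⟩
  obtain ⟨P, eP⟩ : ∃ P : (∀ r, V r × C r) ≃L[ℝ] ∀ r, H × K r, ∀ x r,
      P x r = (D r (x r).1 + (x r).2, (K r).orthogonalProjectionOnto (x r).1) :=
    ⟨.piCongrRight Φ, fun x r => DFunLike.congr_fun (e r) (x r)⟩
  have s := alt P Ψ (cpt_pi fun r => by
    have c1 : IsCompactOperator fun (x : ∀ r, V r × C r) r => J r (x r).1 :=
      cpt_pi fun r => (hJ r).comp_clm ((ContinuousLinearMap.fst ℝ (V r) (C r)).comp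
        (.proj (φ := fun r => V r × C r) r))
    have c2 : IsCompactOperator fun x : ∀ r, V r × C r => ((x r).2 : H) :=
      (isCompactOperator_of_locallyCompactSpace_dom ((ContinuousLinearMap.snd ℝ (V r) (C r)).comp
        (.proj (φ := fun r => V r × C r) r))).clm_comp (C r).subtypeL
    have c3 : IsCompactOperator fun x => ((Ψ x - P x) r).2 :=
      isCompactOperator_of_locallyCompactSpace_dom ((ContinuousLinearMap.snd ℝ H (K r)).comp
        ((ContinuousLinearMap.proj r).comp (Ψ - P : (∀ r, V r × C r) →L[ℝ] ∀ r, H × K r)))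
    have c4 : IsCompactOperator fun x : ∀ r, V r × C r => T (fun r => J r (x r).1) r - (x r).2 :=
      (c1.clm_comp ((ContinuousLinearMap.proj r).comp T)).sub c2
    have c5 : ∀ x, (Ψ x - P x) r =
        (T (fun r => J r (x r).1) r - (x r).2, ((Ψ x - P x) r).2) := fun x =>
      Prod.ext (by simp [eP, eΨ]) rfl
    rw [funext c5]
    exact cpt_prod c4 c3) ((injective_iff_map_eq_zero _).2 fun x hx => by
    have h2 : (fun r => (x r).1) = 0 := by_contra fun q => by
      obtain ⟨r, hr⟩ := k _ q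
      exact hr (congrArg Prod.fst ((eΨ x r).symm.trans (congrFun hx r)))
    funext r
    exact Prod.ext (congrFun h2 r) (hj r ((congrArg Prod.snd ((eΨ x r).symm.trans
      (congrFun hx r))).trans (map_zero _).symm)))
  classical
  rw [bd_index (Φ r₀) (e r₀)] at h1
  have := LinearMap.finrank_le_finrank_of_surjective (f := j r₀) fun y => by
    obtain ⟨x, hx⟩ := s (Pi.single r₀ (0, y))
    exact ⟨(x r₀).2, by simpa [eΨ] using congrArg Prod.snd (congrFun hx r₀)⟩
  omega

/-- the character `e^{2 π i t}` -/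
def ee (t : ℝ) : ℂ := exp (2 * Real.pi * I * t)

theorem ee_add (s t : ℝ) : ee (s + t) = ee s * ee t := by simp [ee, mul_add, exp_add]

theorem ee_int (n : ℤ) : ee n = 1 := by
  rw [ee, mul_comm]; exact_mod_cast exp_int_mul_two_pi_mul_I n

theorem ee_zero : ee 0 = 1 := by simp [ee]

theorem norm_ee (t : ℝ) : ‖ee t‖ = 1 := by
  rw [ee, show 2 * (Real.pi : ℂ) * I * t = ((2 * Real.pi * t : ℝ) : ℂ) * I by push_cast; ring,
    norm_exp_ofReal_mul_I]

theorem conj_ee (t : ℝ) : (starRingEnd ℂ) (ee t) = ee (-t) := by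
  simp [ee, ← exp_conj, map_ofNat]

@[fun_prop] theorem cont_ee : Continuous ee := by unfold ee; fun_prop

theorem int_ee (n : ℤ) : ∫ h in (0 : ℝ)..1, ee (h * n) = if n = 0 then 1 else 0 := by
  split_ifs with k
  · simp [k, ee_zero]
  · have := integral_exp_mul_complex (a := 0) (b := 1) (c := 2 * Real.pi * I * n)
      (by simp [k, Real.pi_ne_zero])
    have e := ee_int n
    simp only [ee, ofReal_intCast, ofReal_mul] at e ⊢
    simp only [ofReal_one, mul_one, e, ofReal_zero, mul_zero, exp_zero, sub_self, zero_div] at this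
    rw [← this]
    congr 1; funext h; congr 1; ring

variable {H : Type} [NormedAddCommGroup H] [InnerProductSpace ℂ H]

/-- the identity of Parseval -/
theorem pars (s : Finset ℤ) (x : ℤ → H) :
    ∫ h in (0 : ℝ)..1, ‖∑ k ∈ s, ee (h * k) • x k‖ ^ 2 = ∑ k ∈ s, ‖x k‖ ^ 2 := by
  have e : ∀ h : ℝ, ((‖∑ k ∈ s, ee (h * k) • x k‖ ^ 2 : ℝ) : ℂ) =
      ∑ k ∈ s, ∑ l ∈ s, ee (h * (l - k : ℤ)) * inner ℂ (x k) (x l) := fun h => by
    rw [ofReal_pow, ← coe_algebraMap, ← inner_self_eq_norm_sq_to_K (𝕜 := ℂ), sum_inner]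
    refine Finset.sum_congr rfl fun k _ => ?_
    rw [inner_sum]
    refine Finset.sum_congr rfl fun l _ => ?_
    rw [inner_smul_left, inner_smul_right, conj_ee, ← mul_assoc, ← ee_add]
    congr 2; push_cast; ring
  apply ofReal_injective
  rw [← intervalIntegral.integral_ofReal]
  simp only [e]
  rw [intervalIntegral.integral_finset_sum fun k _ => Continuous.intervalIntegrable (by fun_prop) ..]
  push_cast
  refine Finset.sum_congr rfl fun k hk => ?_
  rw [intervalIntegral.integral_finset_sum fun k _ => Continuous.intervalIntegrable (by fun_prop) ..]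
  simp only [intervalIntegral.integral_mul_const, ← Int.cast_sub, int_ee, sub_eq_zero]
  simp [hk, inner_self_eq_norm_sq_to_K]

theorem pars_le {s s' : Finset ℤ} {x y : ℤ → H} {c : ℝ} (c0 : 0 ≤ c)
    (h : ∀ h : ℝ, c * ‖∑ k ∈ s, ee (h * k) • x k‖ ≤ ‖∑ k ∈ s', ee (h * k) • y k‖) :
    c ^ 2 * ∑ k ∈ s, ‖x k‖ ^ 2 ≤ ∑ k ∈ s', ‖y k‖ ^ 2 := by
  rw [← pars, ← pars, ← intervalIntegral.integral_const_mul]
  refine intervalIntegral.integral_mono zero_le_one (Continuous.intervalIntegrable (by fun_prop) ..)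
    (Continuous.intervalIntegrable (by fun_prop) ..) fun t => ?_
  rw [← mul_pow]
  exact pow_le_pow_left₀ (by positivity) (h t) 2

/-- approximation by trigonometric polynomials -/
theorem trig {E : Type} [NormedAddCommGroup E] [NormedSpace ℂ E] {B : ℝ → E} (hB : Continuous B)
    (hp : Function.Periodic B 1) {ε : ℝ} (ε0 : 0 < ε) : ∃ c : ℤ × ℝ →₀ ℂ,
    ∀ h, ‖B h - ∑ p ∈ c.support, ee (h * p.1) • c p • B p.2‖ ≤ ε := by
  let F : C(AddCircle (1 : ℝ), E) := ⟨hp.lift, (QuotientAddGroup.isQuotientMap_mk _).continuous_iff.2 hB⟩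
  let L : E → C(AddCircle (1 : ℝ), ℂ) →L[ℂ] C(AddCircle (1 : ℝ), E) := fun v =>
    (ContinuousLinearMap.toSpanSingleton ℂ v).compLeftContinuous ℂ _
  let g : ℤ × ℝ → C(AddCircle (1 : ℝ), E) := fun p => L (B p.2) (fourier p.1)
  have k : F ∈ (Submodule.span ℂ (range g)).topologicalClosure := by
    have k1 : ∀ ρ x, L (F x) ρ ∈ (Submodule.span ℂ (range g)).topologicalClosure := by
      intro ρ x
      obtain ⟨t, rfl⟩ := QuotientAddGroup.mk_surjective x
      have h1 : ρ ∈ closure (Submodule.span ℂ (range (@fourier 1)) : Set _) :=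
        (span_fourier_closure_eq_top (T := 1)).ge Submodule.mem_top
      have h2 : Submodule.span ℂ (range (@fourier 1)) ≤ (Submodule.span ℂ (range g)).comap
          (L (B t) : C(AddCircle (1 : ℝ), ℂ) →ₗ[ℂ] C(AddCircle (1 : ℝ), E)) :=
        Submodule.span_le.2 (range_subset_iff.2 fun n => Submodule.subset_span ⟨(n, t), rfl⟩)
      exact map_mem_closure (L (B t)).continuous h1 fun ρ hρ => h2 hρ
    refine (Submodule.isClosed_topologicalClosure _).closure_subset
      (Metric.mem_closure_iff.2 fun δ δ0 => ?_)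
    obtain ⟨s, hs⟩ := isCompact_univ.elim_finite_subcover (fun x => F ⁻¹' ball (F x) (δ / 2))
      (fun x => isOpen_ball.preimage F.continuous) fun x _ => mem_iUnion.2 ⟨x, by simpa⟩
    obtain ⟨ρ, hρ⟩ := PartitionOfUnity.exists_isSubordinate isClosed_univ
      (fun x : s => F ⁻¹' ball (F x) (δ / 2)) (fun x => isOpen_ball.preimage F.continuous)
      (by simpa [iUnion_subtype] using hs)
    refine ⟨∑ x : s, L (F x) ⟨fun y => ρ x y, by fun_prop⟩,
      Submodule.sum_mem _ fun x _ => k1 _ _, ((ContinuousMap.dist_le (by positivity)).2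
        fun y => ?_).trans_lt (half_lt_self δ0)⟩
    have h1 : ∑ x, ρ x y = 1 := by rw [← finsum_eq_sum_of_fintype, ρ.sum_eq_one trivial]
    have h2 : F y - ∑ x : s, (ρ x y : ℂ) • F x = ∑ x : s, (ρ x y : ℂ) • (F y - F x) := by
      simp only [smul_sub, Finset.sum_sub_distrib, ← Finset.sum_smul, ← ofReal_sum, h1,
        ofReal_one, one_smul]
    rw [dist_eq_norm, ContinuousMap.sum_apply]
    refine (congrArg norm h2).trans_le ((norm_sum_le_of_le _ (n := fun x => ρ x y * (δ / 2))
      fun x _ => ?_).trans_eq (by rw [← Finset.sum_mul, h1, one_mul]))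
    rw [norm_smul, norm_real, Real.norm_of_nonneg (ρ.nonneg x y)]
    by_cases q : ρ x y = 0
    · simp [q]
    · exact mul_le_mul_of_nonneg_left (mem_ball_iff_norm.1 (hρ x (subset_tsupport _ q))).le
        (ρ.nonneg x y)
  obtain ⟨G, hG, d⟩ := Metric.mem_closure_iff.1 k ε ε0
  obtain ⟨c, rfl⟩ := Finsupp.mem_span_range_iff_exists_finsupp.1 hG
  refine ⟨c, fun h => le_trans (le_of_eq ?_) ((ContinuousMap.dist_apply_le_dist (h : AddCircle
    (1 : ℝ))).trans d.le)⟩
  rw [dist_eq_norm, Finsupp.sum, ContinuousMap.sum_apply]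
  congr 2
  refine Finset.sum_congr rfl fun p _ => ?_
  show _ = c p • fourier p.1 (h : AddCircle (1 : ℝ)) • B p.2
  rw [smul_comm, fourier_coe_apply, ee]
  congr 3; push_cast; ring

end Vale.Agent.P247W.Qu
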