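import Vale.Agent.P247W.Qu1

/-!
# P247W, quantisation: the estimate on the infinite cyclic cover
-/

set_option linter.all false

open scoped Topology ContDiff
open Set Filter Metric Complex

noncomputable section

namespace Vale.Agent.P247W.Qu

/-- functions of the two angles -/
abbrev Al : Type := C(ℝ × Circle, ℂ)

/-- `χ (t + c)` -/
def sh (χ : C(ℝ, ℂ)) (c : ℝ) : Al := ⟨fun p => χ (p.1 + c), by fun_prop⟩

/-- `t + c` -/
def tt (c : ℝ) : Al := ⟨fun p => (p.1 + c : ℝ), by fun_prop⟩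

/-- `e (h t)` -/
def uu (h : ℝ) : Al := ⟨fun p => ee (h * p.1), by fun_prop⟩

/-- `w ^ n` -/
def ww (n : ℤ) : Al := ⟨fun p => (p.2 ^ n : Circle),
  continuous_subtype_val.comp ((continuous_zpow (G := Circle) n).comp continuous_snd)⟩

/-- smooth functions with their derivatives -/
structure Dr (χ χ' : C(ℝ, ℂ)) : Prop where
  sm : ContDiff ℝ ∞ χ
  der : ∀ t, HasDerivAt χ (χ' t) t

theorem Dr.mul {f f' g g' : C(ℝ, ℂ)} (h : Dr f f') (k : Dr g g') : Dr (f * g) (f' * g + f * g') :=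
  ⟨h.sm.mul k.sm, fun t => (h.der t).mul (k.der t)⟩

/-- `χ (a t + b)` -/
def aff (χ : C(ℝ, ℂ)) (a b : ℝ) : C(ℝ, ℂ) := ⟨fun t => χ (a * t + b), by fun_prop⟩

theorem Dr.aff {f f' : C(ℝ, ℂ)} (h : Dr f f') (a b : ℝ) :
    Dr (aff f a b) ((a : ℂ) • aff f' a b) :=
  ⟨h.sm.comp (g := f) (f := fun t => a * t + b) (by fun_prop), fun t => by
    simpa [Qu.aff, Function.comp_def] using (h.der (a * t + b)).scomp t
      (((hasDerivAt_id t).const_mul a).add_const b)⟩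

/-- the character as a continuous map -/
def eC : C(ℝ, ℂ) := ⟨ee, cont_ee⟩

theorem dr_e : Dr eC ((2 * Real.pi * I) • eC) :=
  ⟨(contDiff_const.mul ofRealCLM.contDiff).cexp, fun t => by
    have := ((hasDerivAt_id t).ofReal_comp.const_mul (2 * Real.pi * I)).cexp
    exact this.congr_deriv (by simp [eC, ee, mul_comm])⟩

/-- a bump function -/
structure Bp (β β' : C(ℝ, ℂ)) (L : ℝ) : Prop where
  dr : Dr β β'
  one : ∀ t, |t| ≤ 1 → β t = 1
  zero : ∀ t, 2 ≤ |t| → β t = 0 ∧ β' t = 0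
  re : ∀ t, ∃ s : ℝ, 0 ≤ s ∧ β t = s
  le : ∀ t, ‖β t‖ ≤ 1
  le' : ∀ t, ‖β' t‖ ≤ L

theorem exists_bp : ∃ β β' L, Bp β β' L := by
  let b : ContDiffBump (0 : ℝ) := ⟨1, 3 / 2, one_pos, by norm_num⟩
  have s : ContDiff ℝ ∞ fun t => (b t : ℂ) := ofRealCLM.contDiff.comp b.contDiff
  have z : ∀ t : ℝ, 3 / 2 ≤ |t| → (b t : ℂ) = 0 := fun t h => by
    rw [b.zero_of_le_dist (by simpa using h), ofReal_zero]
  have c : HasCompactSupport fun t => (b t : ℂ) :=
    b.hasCompactSupport.comp_left (g := ofReal) ofReal_zero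
  obtain ⟨L, hL⟩ := (s.continuous_deriv (by simp)).bounded_above_of_compact_support c.deriv
  refine ⟨⟨_, s.continuous⟩, ⟨_, s.continuous_deriv (by simp)⟩, L,
    ⟨s, fun t => (s.differentiable (by simp) t).hasDerivAt⟩, fun t h => ?_,
    fun t h => ⟨z t (by linarith), ?_⟩, fun t => ⟨b t, b.nonneg, rfl⟩, fun t => ?_, hL⟩
  · show (b t : ℂ) = 1
    rw [b.one_of_mem_closedBall (by simpa using h), ofReal_one]
  · refine (EventuallyEq.deriv_eq (f := fun _ => (0 : ℂ)) ?_).trans (deriv_const ..)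
    filter_upwards [(continuous_abs.tendsto t).eventually (lt_mem_nhds (show 3 / 2 < |t| by
      linarith))] with u hu using z u hu.le
  · show ‖(b t : ℂ)‖ ≤ 1
    rw [norm_real, Real.norm_of_nonneg b.nonneg]
    exact b.le_one

theorem Bp.lip {β β' : C(ℝ, ℂ)} {L : ℝ} (h : Bp β β' L) (s t : ℝ) : ‖β s - β t‖ ≤ L * |s - t| :=
  convex_univ.norm_image_sub_le_of_norm_hasDerivWithin_le
    (fun u _ => (h.dr.der u).hasDerivWithinAt) (fun u _ => h.le' u) trivial trivial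

theorem shift {H : Type} [AddCommGroup H] [Module ℂ H] {s s' : Finset ℤ} {z : ℤ → H} (m : ℤ)
    (hz : ∀ k ∉ s, z k = 0) (hs : ∀ k ∈ s, k + m ∈ s') (h : ℝ) :
    ∑ k ∈ s, ee (h * m) • ee (h * k) • z k = ∑ k ∈ s', ee (h * k) • z (k - m) := by
  rw [← Finset.sum_subset (s₁ := s.map (addRightEmbedding m)) (s₂ := s'), Finset.sum_map]
  · refine Finset.sum_congr rfl fun k _ => ?_
    simp [smul_smul, ← ee_add, mul_add, add_comm]
  · intro k hk
    obtain ⟨l, hl, rfl⟩ := Finset.mem_map.1 hk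
    exact hs l hl
  · intro k _ hk
    rw [hz _ fun q => hk (Finset.mem_map.2 ⟨_, q, by simp⟩), smul_zero]

variable (H : Type) [NormedAddCommGroup H] [InnerProductSpace ℂ H] [Module Al H]

/-- the abstract data: `Γ` is the graph of the operator on smooth sections -/
structure Dat where
  bd : ∀ (f : Al) (C : ℝ) (v : H), (∀ t ∈ Icc (0 : ℝ) 1, ∀ w, ‖f (t, w)‖ ≤ C) → ‖f • v‖ ≤ C * ‖v‖
  σ : H →L[ℂ] H
  τ : H →L[ℂ] H
  hσ : ∀ (f : Al) v, σ (f • v) = f • σ v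
  hτ : ∀ (f : Al) v, τ (f • v) = f • τ v
  Γ : Submodule ℂ (H × H)

variable {H} [IsScalarTower ℂ Al H] (d : Dat H)

include d in
theorem Dat.congr {f g : Al} (h : ∀ t ∈ Icc (0 : ℝ) 1, ∀ w, f (t, w) = g (t, w)) (v : H) :
    f • v = g • v := by
  rw [← sub_eq_zero, ← sub_smul, ← norm_le_zero_iff]
  exact (d.bd _ 0 v fun t ht w => by simp [h t ht w]).trans_eq (zero_mul _)

include d in
theorem Dat.unit {f : Al} (h : ∀ p, ‖f p‖ = 1) (v : H) : ‖f • v‖ = ‖v‖ := by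
  refine le_antisymm ((d.bd f 1 v fun t _ w => (h _).le).trans_eq (one_mul _)) ?_
  have := d.bd (star f) 1 (f • v) fun t _ w => by simp [h]
  rwa [one_mul, smul_smul, show star f * f = 1 from ContinuousMap.ext fun p => by
    simp [conj_mul', h], one_smul] at this

/-- sections of the cover, with their images -/
def Dat.Sq (φ E : ℤ → H) : Prop := ∀ χ χ', Dr χ χ' → ∀ a b : ℤ,
  (∀ t : ℝ, t ≤ a + 1 ∨ b - 1 ≤ t → χ t = 0 ∧ χ' t = 0) →
  (∑ k ∈ .Ico a b, sh χ k • φ k, ∑ k ∈ .Ico a b, (sh χ' k • d.σ (φ k) + sh χ k • E k)) ∈ d.Γ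

variable {ι : Type} (J : Finset ι) (m : ι → ℤ) (B : ι → ℝ → H →L[ℂ] H)

/-- the estimate for the family -/
def Dat.Est (c : ℝ) : Prop := ∀ p ∈ d.Γ, ∀ h₀ : ℝ, ∀ h₁ ∈ Icc (0 : ℝ) 1, c * ‖p.1‖ ≤
  ‖uu (-h₀) • (p.2 - (2 * Real.pi * I * h₀) • d.σ p.1 - (I * h₁) • d.τ p.1) +
    ∑ j ∈ J, ee (h₀ * m j) • B j h₁ (uu (-h₀) • p.1)‖

/-- the quantised operator -/
def Dat.op (N : ℝ) (φ E : ℤ → H) (k : ℤ) : H :=
  E k - (I / N) • tt k • d.τ (φ k) + ∑ j ∈ J, B j (k / N) (φ (k - m j))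

variable {d J m B}

theorem bloch {c h₁ : ℝ} (c0 : 0 ≤ c) (hE : d.Est J m B c) (h1 : h₁ ∈ Icc (0 : ℝ) 1) {φ E : ℤ → H}
    (hS : d.Sq φ E) {b b' : C(ℝ, ℂ)} (hb : Dr b b') {p q M : ℤ} (hM : ∀ j ∈ J, |m j| ≤ M)
    (M0 : 0 ≤ M) (h0 : ∀ t : ℝ, t ≤ p + 1 ∨ q - 1 ≤ t → b t = 0 ∧ b' t = 0) :
    c ^ 2 * ∑ k ∈ .Ico p q, ‖sh b k • φ k‖ ^ 2 ≤ ∑ k ∈ .Ico (p - M) (q + M),
      ‖sh b' k • d.σ (φ k) + sh b k • E k - (I * h₁) • sh b k • d.τ (φ k) +
        ∑ j ∈ J, B j h₁ (sh b (k - m j : ℤ) • φ (k - m j))‖ ^ 2 := by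
  have z : ∀ k ∉ Finset.Ico p q, ∀ v : H, sh b k • v = 0 ∧ sh b' k • v = 0 := fun k hk v => by
    have : ∀ t ∈ Icc (0 : ℝ) 1, t + k ≤ p + 1 ∨ q - 1 ≤ t + k := fun t ht => by
      rcases lt_or_ge k p with h | h
      · exact .inl (by linarith [ht.2, (Int.cast_le (R := ℝ)).2 h.le])
      · have : (q : ℝ) ≤ k := by exact_mod_cast not_lt.1 fun k => hk (Finset.mem_Ico.2 ⟨h, k⟩)
        exact .inr (by linarith [ht.1])
    exact ⟨(d.congr (g := 0) (fun t ht w => (h0 _ (this t ht)).1) v).trans (zero_smul Al v),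
      (d.congr (g := 0) (fun t ht w => (h0 _ (this t ht)).2) v).trans (zero_smul Al v)⟩
  refine pars_le c0 fun h => ?_
  have e := hE _ (hS _ _ ((dr_e.aff h 0).mul hb) p q fun t ht => by simp [h0 t ht]) h _ h1
  have e1 : ∀ (f : C(ℝ, ℂ)) (k : ℤ), uu (-h) * sh (aff eC h 0 * f) k = ee (h * k) • sh f k :=
    fun f k => ContinuousMap.ext fun x => by
      simp [uu, sh, aff, eC, ← mul_assoc, ← ee_add, mul_add]
  have e2 : uu (-h) • ∑ k ∈ .Ico p q, sh (aff eC h 0 * b) k • φ k =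
      ∑ k ∈ .Ico p q, ee (h * k) • sh b k • φ k := by
    simp only [Finset.smul_sum, smul_smul, e1, smul_assoc]
  rw [← d.unit (f := uu (-h)) (fun _ => norm_ee _), e2] at e
  refine e.trans_eq (congrArg _ ?_)
  simp only [smul_add (ee _), Finset.sum_add_distrib, Finset.smul_sum (r := ee _), map_sum,
    map_smul]
  rw [Finset.sum_comm (s := .Ico _ _)]
  congr 1
  · rw [← Finset.sum_add_distrib, ← Finset.sum_subset (s₁ := .Ico p q) (s₂ := .Ico (p - M) (q + M))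
      (Finset.Ico_subset_Ico (by omega) (by omega)) fun k _ hk => by simp [z k hk]]
    simp only [Finset.smul_sum, ← Finset.sum_add_distrib, ← Finset.sum_sub_distrib, d.hσ, d.hτ]
    refine Finset.sum_congr rfl fun k _ => ?_
    have e3 : sh ((h : ℂ) • aff ((2 * Real.pi * I) • eC) h 0 * b + aff eC h 0 * b') k =
        (2 * Real.pi * I * h) • sh (aff eC h 0 * b) k + sh (aff eC h 0 * b') k :=
      ContinuousMap.ext fun x => by simp [sh, aff]; ring
    rw [e3]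
    simp only [smul_sub, smul_add, add_smul, smul_assoc, smul_comm (uu _) (_ : ℂ), smul_smul (uu _),
      e1]
    module
  · refine Finset.sum_congr rfl fun j hj => shift (z := fun k => B j h₁ (sh b k • φ k)) _
      (fun k hk => by rw [(z k hk _).1, map_zero]) (fun k hk => ?_) h
    have := abs_le.1 (hM j hj)
    rw [Finset.mem_Ico] at hk ⊢
    omega

end Vale.Agent.P247W.Qu
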