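import Vale.Agent.P247W.Qu2

/-!
# P247W, quantisation: localisation at the sheet of maximal norm
-/

set_option linter.all false

open scoped Topology ContDiff
open Set Filter Metric Complex

noncomputable section

namespace Vale.Agent.P247W.Qu

variable {H : Type} [NormedAddCommGroup H] [InnerProductSpace ℂ H] [Module Al H]
  [IsScalarTower ℂ Al H] {d : Dat H} {ι : Type} {J : Finset ι} {m : ι → ℤ}
  {B : ι → ℝ → H →L[ℂ] H}

theorem term {b : C(ℝ, ℂ)} {l A o P : ℝ} (l0 : 0 ≤ l) (b1 : ∀ t, ‖b t‖ ≤ 1)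
    (hb : ∀ s t, ‖b s - b t‖ ≤ l * |s - t|) {S T : H →L[ℂ] H} (hS : ‖S‖ ≤ A) (hT : ‖T‖ ≤ A)
    (h : ‖S - T‖ ≤ o) {k n M : ℤ} (hn : |n| ≤ M) {v : H} (hv : ‖v‖ ≤ P) (d : Dat H) :
    ‖S (sh b (k - n : ℤ) • v) - sh b k • T v‖ ≤ (A * (l * (M + 2)) + o) * P := by
  have e : S (sh b (k - n : ℤ) • v) - sh b k • T v = S ((sh b (k - n : ℤ) - b k • 1) • v) +
      b k • (S - T) v + (b k • (1 : Al) - sh b k) • T v := by
    simp only [sub_smul, smul_assoc, one_smul, map_sub, map_smul, ContinuousLinearMap.sub_apply]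
    module
  have hn' : |(n : ℝ)| ≤ M := by exact_mod_cast hn
  have h1 := d.bd (sh b (k - n : ℤ) - b k • 1) (l * (M + 1)) v fun t ht w => by
    refine le_trans (by simp [sh]) ((hb (t + (k - n)) k).trans (mul_le_mul_of_nonneg_left ?_ l0))
    rw [abs_le] at hn' ⊢
    constructor <;> linarith [ht.1, ht.2]
  have h2 := d.bd (b k • (1 : Al) - sh b k) l (T v) fun t ht w => by
    refine le_trans (by simp [sh]) ((hb k (t + k)).trans (mul_le_of_le_one_right l0 ?_))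
    rw [abs_le]
    constructor <;> linarith [ht.1, ht.2]
  have A0 := (norm_nonneg _).trans hS
  have M0 := (abs_nonneg _).trans hn'
  rw [e]
  refine (norm_add₃_le).trans ?_
  grw [S.le_of_opNorm_le hS, h1, h2, norm_smul, b1, (S - T).le_of_opNorm_le h,
    T.le_of_opNorm_le hT, hv]
  · exact le_of_eq (by ring)
  · exact (norm_nonneg _).trans h

theorem core0 {c N L A o P Γ : ℝ} (c0 : 0 ≤ c) (hE : d.Est J m B c) {β β' : C(ℝ, ℂ)}
    (hβ : Bp β β' L) {φ E : ℤ → H} (hS : d.Sq φ E) {k₀ M R : ℤ} (R1 : 1 ≤ R)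
    (hM : ∀ j ∈ J, |m j| ≤ M) (M0 : 0 ≤ M) (N0 : 0 < N) (hk : (k₀ : ℝ) / N ∈ Icc (0 : ℝ) 1)
    (hφ : ∀ k, ‖φ k‖ ≤ P) (hG : ∀ k, ‖d.op J m B N φ E k‖ ≤ Γ)
    (hB : ∀ j ∈ J, ∀ k : ℤ, |k - k₀| ≤ 2 * R + M + 1 →
      ‖B j (k / N)‖ ≤ A ∧ ‖B j (k₀ / N) - B j (k / N)‖ ≤ o) :
    c ^ 2 * ‖φ k₀‖ ^ 2 ≤ (4 * R + 2 * M + 2) * (Γ + (L / R * (‖d.σ‖ + J.card * (A * (M + 2))) +
      ((2 * R + M + 2) / N * ‖d.τ‖ + J.card * o)) * P) ^ 2 := by
  have R0 : (1 : ℝ) ≤ R := by exact_mod_cast R1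
  have L0 : 0 ≤ L := (norm_nonneg _).trans (hβ.le' 0)
  have hb := hβ.dr.aff (1 / R) (-k₀ / R)
  set b := aff β (1 / R) (-k₀ / R)
  have eb : ∀ t : ℝ, 1 / R * t + -k₀ / R = (t - k₀) / R := fun t => by ring
  have lb : ∀ s t, ‖b s - b t‖ ≤ L / R * |s - t| := fun s t => (hβ.lip _ _).trans_eq (by
    rw [eb, eb, ← sub_div, abs_div, abs_of_pos (a := (R : ℝ)) (by linarith)]; ring_nf)
  have h := bloch c0 hE hk hS hb (p := k₀ - 2 * R - 1) (q := k₀ + 2 * R + 1) hM M0 fun t ht => by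
    have := hβ.zero ((t - k₀) / R) (by
      rw [abs_div, abs_of_pos (a := (R : ℝ)) (by linarith), le_div_iff₀ (by linarith), le_abs]
      push_cast at ht
      rcases ht with h | h
      exacts [.inr (by linarith), .inl (by linarith)])
    rw [← eb] at this
    exact ⟨this.1, (congrArg (_ • ·) this.2).trans (smul_zero (((1 : ℝ) / R : ℝ) : ℂ))⟩
  refine le_trans (mul_le_mul_of_nonneg_left ?_ (sq_nonneg c)) (h.trans ?_)
  · refine le_trans (le_of_eq ?_) (Finset.single_le_sum (f := fun k : ℤ => ‖sh b k • φ k‖ ^ 2)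
      (fun _ _ => sq_nonneg _) (Finset.mem_Ico.2 ⟨(by omega : _ ≤ k₀), by omega⟩))
    rw [d.congr (g := 1) (fun t ht w => hβ.one _ (by
      rw [eb, add_sub_cancel_right, abs_of_nonneg (div_nonneg ht.1 (by linarith)),
        div_le_one (by linarith)]; linarith [ht.2])), one_smul]
  refine (Finset.sum_le_card_nsmul _ _ _ fun k hk => pow_le_pow_left₀ (norm_nonneg _) ?_ 2).trans_eq
    (by
      rw [nsmul_eq_mul, Int.card_Ico, ← Int.cast_natCast, Int.toNat_of_nonneg (by omega)]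
      congr 1; push_cast; ring)
  rw [Finset.mem_Ico] at hk
  have hk' : |k - k₀| ≤ 2 * R + M + 1 := by rw [abs_le]; omega
  have hk'' : |(k : ℝ) - k₀| ≤ 2 * R + M + 1 := by exact_mod_cast hk'
  have e : ∀ b' : C(ℝ, ℂ), sh b' k • d.σ (φ k) + sh b k • E k -
      (I * ((k₀ : ℝ) / N : ℝ)) • sh b k • d.τ (φ k) +
      ∑ j ∈ J, B j (k₀ / N) (sh b (k - m j : ℤ) • φ (k - m j)) = sh b k • d.op J m B N φ E k +
      sh b' k • d.σ (φ k) + (sh b k * ((I / N) • (tt k - (k₀ : ℂ) • 1))) • d.τ (φ k) +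
      ∑ j ∈ J, (B j (k₀ / N) (sh b (k - m j : ℤ) • φ (k - m j)) -
        sh b k • B j (k / N) (φ (k - m j))) := fun b' => by
    simp only [Dat.op, Finset.sum_sub_distrib, ← Finset.smul_sum, ofReal_div, ofReal_intCast,
      div_eq_mul_inv (_ : ℂ), mul_smul (sh b k), smul_assoc, sub_smul, one_smul]
    module
  have h1 := d.bd (sh b k) 1 (d.op J m B N φ E k) fun _ _ _ => hβ.le _
  have h2 := d.bd (sh ((((1 : ℝ) / R : ℝ) : ℂ) • aff β' (1 / R) (-k₀ / R)) k) (L / R) (d.σ (φ k))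
    fun t _ w => by
      simp only [sh, aff, ContinuousMap.coe_mk, ContinuousMap.smul_apply, norm_smul, norm_real]
      rw [Real.norm_of_nonneg (by positivity), one_div_mul_eq_div]
      exact div_le_div_of_nonneg_right (hβ.le' _) (by linarith)
  have h3 := d.bd (sh b k * ((I / N) • (tt k - (k₀ : ℂ) • 1))) ((2 * R + M + 2) / N) (d.τ (φ k))
    fun t ht w => by
      have : ‖(tt k - (k₀ : ℂ) • 1 : Al) (t, w)‖ ≤ 2 * R + M + 2 := by
        rw [show (tt k - (k₀ : ℂ) • 1 : Al) (t, w) = ((t + k - k₀ : ℝ) : ℂ) by simp [tt], norm_real,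
          Real.norm_eq_abs]
        rw [abs_le] at hk'' ⊢
        constructor <;> linarith [ht.1, ht.2]
      rw [ContinuousMap.mul_apply, ContinuousMap.smul_apply, norm_mul, norm_smul, norm_div, norm_I,
        norm_real, Real.norm_of_nonneg N0.le, one_div_mul_eq_div]
      exact (mul_le_of_le_one_left (by positivity) (hβ.le _)).trans
        (div_le_div_of_nonneg_right this N0.le)
  have h4 := norm_sum_le_of_le J fun j hj => term (b := b) (by positivity) (fun _ => hβ.le _) lb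
    (hB j hj k₀ (by simp; omega)).1 (hB j hj k hk').1 (hB j hj k hk').2 (k := k) (hM j hj)
    (hφ (k - m j)) d
  have M0' : (0 : ℝ) ≤ M := by exact_mod_cast M0
  rw [e]
  refine norm_add_le_of_le norm_add₃_le h4 |>.trans ?_
  grw [h1, h2, h3, hG, d.σ.le_opNorm, d.τ.le_opNorm, hφ]
  exact le_of_eq (by simp; ring)

theorem core {c : ℝ} (c0 : 0 < c) (hE : d.Est J m B c) (hB : ∀ j, Continuous (B j)) :
    ∃ (N₀ : ℕ) (C : ℝ), ∀ N : ℕ, N₀ ≤ N → ∀ φ E : ℤ → H, d.Sq φ E → ∀ P Γ : ℝ, (∀ k, ‖φ k‖ ≤ P) →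
      (∀ k, ‖d.op J m B N φ E k‖ ≤ Γ) → ∀ k₀ : ℕ, k₀ ≤ N →
      ‖φ k₀‖ ^ 2 ≤ C * Γ ^ 2 + P ^ 2 / 2 := by
  obtain ⟨β, β', L, hβ⟩ := exists_bp
  have cB : Continuous fun t (j : J) => B j t := by fun_prop
  obtain ⟨A, hA⟩ := (isCompact_Icc (a := (-1 : ℝ)) (b := 2)).exists_bound_of_continuousOn
    cB.continuousOn
  let M : ℕ := J.sup fun j => (m j).natAbs
  have hM : ∀ j ∈ J, |m j| ≤ (M : ℤ) := fun j hj => by
    rw [Int.abs_eq_natAbs]
    exact_mod_cast Finset.le_sup (f := fun j => (m j).natAbs) hj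
  set a := L * (‖d.σ‖ + J.card * (A * (M + 2)))
  obtain ⟨R, R1, hR⟩ : ∃ R : ℕ, 1 ≤ R ∧ (4 * R + 2 * M + 2 : ℝ) * (a / R) ^ 2 < c ^ 2 / 4 := by
    have t := tendsto_const_div_atTop_nhds_zero_nat (𝕜 := ℝ) ((2 * M + 6) * a ^ 2)
    obtain ⟨R, h1, h2⟩ := ((eventually_ge_atTop 1).and
      (t.eventually (gt_mem_nhds (show 0 < c ^ 2 / 4 by positivity)))).exists
    refine ⟨R, h1, lt_of_le_of_lt ?_ h2⟩
    have : (1 : ℝ) ≤ R := by exact_mod_cast h1
    rw [div_pow, mul_div_assoc', div_le_div_iff₀ (by positivity) (by positivity)]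
    nlinarith [mul_nonneg (mul_nonneg (sq_nonneg a) (Nat.cast_nonneg (α := ℝ) R))
      (mul_nonneg (show (0 : ℝ) ≤ 2 * M + 2 by positivity) (sub_nonneg.2 this))]
  obtain ⟨ε, ε0, hε⟩ : ∃ ε : ℝ, 0 < ε ∧
      (4 * R + 2 * M + 2 : ℝ) * (a / R + (ε * ‖d.τ‖ + J.card * ε)) ^ 2 < c ^ 2 / 4 := by
    have t : Continuous fun ε : ℝ =>
      (4 * R + 2 * M + 2 : ℝ) * (a / R + (ε * ‖d.τ‖ + J.card * ε)) ^ 2 := by fun_prop
    exact (((t.continuousAt (x := 0)).eventually (gt_mem_nhds (by simpa using hR))).filter_mono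
      (nhdsWithin_le_nhds (s := Ioi 0)) |>.and self_mem_nhdsWithin).exists.imp fun _ h => h.symm
  obtain ⟨δ, δ0, hδ⟩ := uniformContinuousOn_iff_le.1 ((isCompact_Icc (a := (-1 : ℝ))
    (b := 2)).uniformContinuousOn_of_continuous cB.continuousOn) ε ε0
  obtain ⟨N₀, hN⟩ := eventually_atTop.1 ((eventually_gt_atTop 0).and
    ((tendsto_const_div_atTop_nhds_zero_nat (𝕜 := ℝ) (2 * R + M + 2)).eventually
      (ge_mem_nhds (show 0 < min ε (min δ 1) by positivity))))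
  refine ⟨N₀, 2 * (4 * R + 2 * M + 2) / c ^ 2, fun N h φ E hS P Γ hφ hG k₀ hk => ?_⟩
  obtain ⟨N0, h⟩ := hN N h
  simp only [le_min_iff] at h
  have N0' : (0 : ℝ) < N := by exact_mod_cast N0
  have k1 : ((k₀ : ℤ) : ℝ) / N ∈ Icc (0 : ℝ) 1 :=
    ⟨by positivity, (div_le_one N0').2 (by exact_mod_cast hk)⟩
  have := core0 c0.le hE hβ hS (R := R) (by exact_mod_cast R1) hM (by positivity) N0' k1 hφ hG
    (A := A) (o := ε) fun j hj k hk => by
      have k2 : |((k₀ : ℤ) : ℝ) / N - k / N| ≤ (2 * R + M + 2) / N := by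
        rw [← sub_div, abs_div, abs_of_pos N0', abs_sub_comm]
        refine div_le_div_of_nonneg_right ?_ N0'.le
        have : |(k : ℝ) - (k₀ : ℤ)| ≤ 2 * R + M + 1 := by exact_mod_cast hk
        linarith
      have k3 : (k : ℝ) / N ∈ Icc (-1 : ℝ) 2 := by
        have := abs_le.1 (k2.trans h.2.2)
        constructor <;> linarith [k1.1, k1.2]
      exact ⟨(norm_le_pi_norm _ (⟨j, hj⟩ : J)).trans (hA _ k3), (dist_eq_norm _ _).symm.trans_le
        ((dist_le_pi_dist _ _ (⟨j, hj⟩ : J)).trans (hδ _ ⟨by linarith [k1.1], by linarith [k1.2]⟩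
          _ k3 (k2.trans h.2.1)))⟩
  have P0 := (norm_nonneg _).trans (hφ 0)
  have Γ0 := (norm_nonneg _).trans (hG 0)
  have A0 := (norm_nonneg _).trans (hA 0 ⟨by norm_num, by norm_num⟩)
  have L0 : 0 ≤ L := (norm_nonneg _).trans (hβ.le' 0)
  push_cast at this
  grw [h.1, div_mul_eq_mul_div L] at this
  set x := a / R + (ε * ‖d.τ‖ + J.card * ε)
  set n : ℝ := 4 * R + 2 * M + 2
  have n0 : 0 ≤ n := by positivity
  rw [div_mul_eq_mul_div, div_add' _ _ _ (by positivity), le_div_iff₀ (by positivity)]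
  nlinarith [mul_nonneg n0 (sq_nonneg (Γ - x * P)), mul_le_mul_of_nonneg_right hε.le (sq_nonneg P)]

end Vale.Agent.P247W.Qu
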