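import Vale.Agent.P247W.Qu2
import Vale.Agent.P247W.Sta2
import Vale.Agent.P247W.HQ

/-!
# P247W, quantisation: statements of the three parts
-/

set_option linter.all false

open scoped Topology ContDiff
open Set Filter Complex

noncomputable section

namespace Vale.Agent.P247W.Qu

open Vale.Agent.P204.GX Vale.Agent.P204.T4 Vale.Agent.P247E
open Vale.Agent.P247.H647 (Sp En)

/-- `η (t) w ^ q + η (t - 1) w ^ (q - ε)` -/
def kap (η : C(ℝ, ℂ)) (ε q : ℤ) : Al := sh η 0 * ww q + sh η (-1) * ww (q - ε)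

/-- `ε t + q` -/
def lin (ε q : ℤ) : C(ℝ, ℂ) := ⟨fun t => ε * t + q, by fun_prop⟩

/-- `S` is the graph of the operator of the bundle with twist `ε` -/
def Dat.Geo {H : Type} [NormedAddCommGroup H] [InnerProductSpace ℂ H] [Module Al H] (d : Dat H)
    (ε : ℤ) (S : Set (H × H)) : Prop :=
  ∀ p ∈ S, ∀ η η', Dr η η' → (∀ t : ℝ, 1 ≤ |t| → η t = 0 ∧ η' t = 0) → ∀ q : ℤ,
    (kap η ε q • p.1,
      kap η' ε q • d.σ p.1 + kap η ε q • p.2 + I • kap (η * lin ε q) ε q • d.τ p.1) ∈ d.Γ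

/-- `ABS`: the abstract theorem -/
def ABS_statement : Prop := ∀ (H : Type) [NormedAddCommGroup H] [InnerProductSpace ℂ H]
  [Module Al H] [IsScalarTower ℂ Al H] (d : Dat H) (S : ℤ → Set (H × H))
  (A : ℝ × ℝ → H →L[ℂ] H) (c : ℝ), 0 < c → Continuous A →
  (∀ (h : ℝ × ℝ) v, A (h.1 + 1, h.2) (uu 1 • v) = uu 1 • A h v) →
  (∀ (h : ℝ × ℝ) v, A (h.1, h.2 + 1) (ww 1 • v) = ww 1 • A h v) →
  (∀ p ∈ d.Γ, ∀ h : ℝ × ℝ, c * ‖p.1‖ ≤
    ‖p.2 - (2 * Real.pi * I * h.1) • d.σ p.1 - (I * h.2) • d.τ p.1 + A h p.1‖) →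
  (∀ ε, d.Geo ε (S ε)) →
  ∃ (n : ℕ) (T : (ZMod (2 * n + 1) → H) →L[ℂ] ZMod (2 * n + 1) → H) (C : ℝ), ∀ ψ f,
    (∀ r, (ψ r, f r) ∈ S (if r = 0 then 1 else 0)) → ‖ψ‖ ≤ C * ‖f + T ψ‖

/-- the angle of a unit complex number, in `[0, 1)` -/
def th (z : ℂ) : ℝ := Int.fract (arg z / (2 * Real.pi))

/-- `LTW`: the twisted line bundles; `g'` is circle valued -/
def LTW_statement : Prop := ForAllQ fun X _ _ _ _ _ Q L => ∀ (g : X → ℂ) (g' : X → Circle)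
  (a a' : X → V4), Lg Q.toCM g a → Lg Q.toCM (fun x => g' x) a' → ∀ ε : ℤ, ∃ L' : LBc Q.toCM,
  (L'.F = fun x => L.F x + (ε / (2 * Real.pi) : ℝ) • wd (a x) (a' x)) ∧
  ∀ s ∈ L'.bp.Sm, ∀ η η', Dr η η' → (∀ t : ℝ, 1 ≤ |t| → η t = 0 ∧ η' t = 0) → ∀ q : ℤ,
    (fun x => kap η ε q (th (g x), g' x) • s x) ∈ L.bp.Sm ∧ ∀ x,
    (Q.dirac L).app (fun x => kap η ε q (th (g x), g' x) • s x) x =
      kap η' ε q (th (g x), g' x) • (1 / (2 * Real.pi) : ℂ) • sgm (a x) (s x) +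
      kap η ε q (th (g x), g' x) • (Q.dirac L').app s x +
      I • kap (η * lin ε q) ε q (th (g x), g' x) • sgm (a' x) (s x)

/-- `ASMQ`: the assembly -/
def ASMQ_statement : Prop := ABS_statement → LTW_statement → QUANT_statement

end Vale.Agent.P247W.Qu
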