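import Vale.Agent.P247W.Qu3
import Vale.Agent.P247W.QuSta

/-!
# P247W, quantisation: the abstract theorem
-/

set_option linter.all false

open scoped Topology ContDiff
open Set Filter Metric Complex

noncomputable section

namespace Vale.Agent.P247W.Qu

variable {H : Type} [NormedAddCommGroup H] [InnerProductSpace ℂ H] [Module Al H]
  [IsScalarTower ℂ Al H] (d : Dat H)

/-- the action as a bounded operator -/
def Dat.act (f : Al) : H →L[ℂ] H :=
  (DistribSMul.toLinearMap ℂ H f).mkContinuousOfExistsBound (by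
    obtain ⟨C, hC⟩ := ((isCompact_Icc (a := (0 : ℝ)) (b := 1)).prod
      isCompact_univ).exists_bound_of_continuousOn f.continuous.continuousOn
    exact ⟨C, fun v => d.bd f C v fun t ht w => hC _ ⟨ht, trivial⟩⟩)

@[simp] theorem Dat.act_apply (f : Al) (v : H) : d.act f v = f • v := rfl

theorem uu_add (s t : ℝ) : uu (s + t) = uu s * uu t :=
  ContinuousMap.ext fun p => by simp [uu, add_mul, ee_add]

theorem uu_zero : uu 0 = 1 := ContinuousMap.ext fun p => by simp [uu, ee_zero]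

theorem ww_add (s t : ℤ) : ww (s + t) = ww s * ww t :=
  ContinuousMap.ext fun p => by simp [ww, zpow_add]

theorem ww_zero : ww 0 = 1 := ContinuousMap.ext fun p => by simp [ww]

theorem Dat.cont_uu : Continuous fun h => d.act (uu h) :=
  (LipschitzWith.of_dist_le_mul (K := ⟨2 * Real.pi, by positivity⟩) fun s t => by
    rw [dist_eq_norm]
    refine ContinuousLinearMap.opNorm_le_bound _ (mul_nonneg (NNReal.coe_nonneg _) dist_nonneg)
      fun v => ?_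
    refine (congrArg norm (sub_smul (uu s) (uu t) v)).symm.trans_le (d.bd _ _ v fun u hu w => ?_)
    refine (convex_univ.norm_image_sub_le_of_norm_hasDerivWithin_le (C := 2 * Real.pi)
      (fun u _ => (dr_e.der u).hasDerivWithinAt) (fun u _ => by
        simp [eC, norm_ee, abs_of_pos Real.pi_pos]) (mem_univ (t * u)) (mem_univ (s * u))).trans
      (mul_le_mul_of_nonneg_left ?_ (by positivity))
    rw [← sub_mul, norm_mul, Real.norm_of_nonneg hu.1]
    exact mul_le_of_le_one_right (norm_nonneg _) hu.2).continuous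

theorem trig2 {E : Type} [NormedAddCommGroup E] [NormedSpace ℂ E] {G : ℝ × ℝ → E}
    (hG : Continuous G) (hp : ∀ s t, G (s + 1, t) = G (s, t)) {ε : ℝ} (ε0 : 0 < ε) :
    ∃ a : ℤ × ℝ →₀ ℂ, ∀ s, ∀ t ∈ Icc (0 : ℝ) 1,
      ‖G (s, t) - ∑ j ∈ a.support, ee (s * j.1) • a j • G (j.2, t)‖ ≤ ε := by
  let F : C(ℝ × Icc (0 : ℝ) 1, E) := ⟨fun h => G (h.1, h.2), by fun_prop⟩
  obtain ⟨a, ha⟩ := trig F.curry.continuous (fun s => ContinuousMap.ext fun t => hp s t) ε0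
  refine ⟨a, fun s t ht => le_trans (le_of_eq ?_)
    ((ContinuousMap.norm_coe_le_norm _ ⟨t, ht⟩).trans (ha s))⟩
  rw [ContinuousMap.sub_apply, ContinuousMap.sum_apply]
  rfl

theorem est_of {A : ℝ × ℝ → H →L[ℂ] H} {c : ℝ} (c0 : 0 < c) (hA : Continuous A)
    (h0 : ∀ (h : ℝ × ℝ) v, A (h.1 + 1, h.2) (uu 1 • v) = uu 1 • A h v)
    (h1 : ∀ (h : ℝ × ℝ) v, A (h.1, h.2 + 1) (ww 1 • v) = ww 1 • A h v)
    (hE : ∀ p ∈ d.Γ, ∀ h : ℝ × ℝ, c * ‖p.1‖ ≤
      ‖p.2 - (2 * Real.pi * I * h.1) • d.σ p.1 - (I * h.2) • d.τ p.1 + A h p.1‖) :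
    ∃ (J : Finset (ℤ × ℝ)) (B : ℤ × ℝ → ℝ → H →L[ℂ] H), d.Est J Prod.fst B (c / 2) ∧
      (∀ j, Continuous (B j)) ∧ ∀ j h v, B j (h + 1) (ww 1 • v) = ww 1 • B j h v := by
  let G : ℝ × ℝ → H →L[ℂ] H := fun h => (d.act (uu (-h.1))).comp ((A h).comp (d.act (uu h.1)))
  have cG : Continuous G := (d.cont_uu.comp continuous_fst.neg).clm_comp
    (hA.clm_comp (d.cont_uu.comp continuous_fst))
  obtain ⟨a, ha⟩ := trig2 cG (fun s t => ContinuousLinearMap.ext fun v => by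
    show uu (-(s + 1)) • A (s + 1, t) (uu (s + 1) • v) = uu (-s) • A (s, t) (uu s • v)
    rw [add_comm s 1, uu_add, mul_smul, add_comm 1 s, h0 (s, t), smul_smul, ← uu_add]
    congr 2; ring) (half_pos c0)
  refine ⟨a.support, fun j h => a j • G (j.2, h), fun p hp s t ht => ?_, fun j => by fun_prop,
    fun j h v => ?_⟩
  · have n : ∀ v : H, ‖uu (-s) • v‖ = ‖v‖ := d.unit fun _ => norm_ee _
    have k := hE p hp (s, t)
    have k2 := ContinuousLinearMap.le_of_opNorm_le _ (ha s t ht) (uu (-s) • p.1)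
    have k3 : G (s, t) (uu (-s) • p.1) = uu (-s) • A (s, t) p.1 := by
      simp [G, smul_smul, ← uu_add, uu_zero]
    rw [n, ContinuousLinearMap.sub_apply, k3, ContinuousLinearMap.sum_apply] at k2
    rw [← n (_ + _), smul_add] at k
    have k4 := norm_add_le_of_le (le_refl ‖uu (-s) • (p.2 - (2 * Real.pi * I * s) • d.σ p.1 -
      (I * t) • d.τ p.1) + ∑ j ∈ a.support, ee (s * j.1) • (a j • G (j.2, t)) (uu (-s) • p.1)‖) k2
    rw [add_assoc] at k4
    erw [add_sub_cancel] at k4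
    linarith
  · simp only [G, ContinuousLinearMap.smul_apply, ContinuousLinearMap.comp_apply, d.act_apply]
    rw [smul_comm (uu _), h1 (j.2, h), smul_comm (uu _), smul_comm]

theorem zeq {B : ℝ → H →L[ℂ] H} (h : ∀ t v, B (t + 1) (ww 1 • v) = ww 1 • B t v) (n : ℤ) :
    ∀ t v, B (t + n) (ww n • v) = ww n • B t v := by
  induction n with
  | zero => simp [ww_zero]
  | succ n ih =>
    intro t v
    rw [add_comm (n : ℤ), ww_add, mul_smul, mul_smul, ← ih, ← h]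
    congr 2; push_cast; ring
  | pred n ih =>
    intro t v
    have := h (t + (-n - 1 : ℤ)) (ww (-n - 1) • v)
    rw [smul_smul, ← ww_add, show 1 + (-(n : ℤ) - 1) = -n by ring,
      show t + (-n - 1 : ℤ) + 1 = t + (-n : ℤ) by push_cast; ring, ih] at this
    rw [← one_smul Al (B _ (_ • v)), ← ww_zero, ← neg_add_cancel 1, ww_add, mul_smul, ← this,
      smul_smul, ← ww_add]
    congr 2; ring

theorem sum_pred {M : Type} [AddCommMonoid M] {v : ℤ → M} {a b : ℤ} (ha : v (a - 1) = 0)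
    (hb : v (b - 1) = 0) : ∑ l ∈ .Ico a b, v (l - 1) = ∑ l ∈ .Ico a b, v l :=
  Finset.sum_bij_ne_zero (fun l _ _ => l - 1) (fun l h1 h2 => by
    have : l ≠ a := fun k => h2 (k ▸ ha)
    rw [Finset.mem_Ico] at h1 ⊢
    omega) (fun _ _ _ _ _ _ h => by omega) (fun l h1 h2 => ⟨l + 1, by
      have : l ≠ b - 1 := fun k => h2 (k ▸ hb)
      rw [Finset.mem_Ico] at h1 ⊢
      omega, by simpa, by simp⟩) fun _ _ _ => rfl

variable {N : ℕ} [NeZero N] (ρ ρ' : C(ℝ, ℂ))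

/-- the twist -/
def ep (r : ZMod N) : ℤ := if r = 0 then 1 else 0

theorem div_succ (k : ℤ) : (k + 1) / N = k / N + ep ((k : ZMod N) + 1) := by
  have N0 : (0 : ℤ) < N := by exact_mod_cast NeZero.pos N
  have h1 := Int.emod_add_mul_ediv k N
  have h2 := Int.emod_nonneg k N0.ne'
  have h3 := Int.emod_lt_of_pos k N0
  rw [ep, ← Int.cast_one (R := ZMod N), ← Int.cast_add]
  simp only [ZMod.intCast_zmod_eq_zero_iff_dvd, Int.dvd_iff_emod_eq_zero]
  by_cases h : k % N + 1 = N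
  · have := (Int.ediv_emod_unique (a := k + 1) (q := k / N + 1) (r := 0) N0).2
      ⟨by linarith, le_rfl, N0⟩
    rw [if_pos this.2, this.1]
  · have := (Int.ediv_emod_unique (a := k + 1) (q := k / N) (r := k % N + 1) N0).2
      ⟨by linarith, by omega, by omega⟩
    rw [if_neg (by omega), this.1, add_zero]

/-- the mixing matrix -/
def Dat.U : (ZMod N → H) →L[ℂ] ZMod N → H :=
  .pi fun r => (d.act (sh ρ 0)).comp (.proj r) + (d.act (sh ρ (-1))).comp (.proj (r + 1))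

/-- the section of the cover -/
def Dat.ph (k : ℤ) : (ZMod N → H) →L[ℂ] H :=
  (d.act (ww (k / N))).comp ((ContinuousLinearMap.proj (k : ZMod N)).comp (d.U ρ))

/-- the terms of order zero -/
def Dat.En (k : ℤ) : (ZMod N → H) →L[ℂ] H :=
  d.σ.comp (d.ph ρ' k) + I • (d.act (ww (k / N))).comp (d.τ.comp
    ((d.act (sh (ρ * lin (ep (k : ZMod N)) (k / N)) 0)).comp (.proj (k : ZMod N)) +
      (d.act (sh (ρ * lin (ep ((k : ZMod N) + 1)) ((k + 1) / N)) (-1))).comp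
        (.proj ((k : ZMod N) + 1))))

theorem kap_mul (χ f : C(ℝ, ℂ)) (l ε q : ℤ) : kap (aff χ 1 l * f) ε q =
    sh χ l * sh f 0 * ww q + sh χ (l - 1 : ℤ) * sh f (-1) * ww (q - ε) :=
  ContinuousMap.ext fun p => by
    simp [kap, sh, aff, sub_eq_add_neg, add_assoc, add_comm, add_left_comm]

theorem seq {S : ℤ → Set (H × H)} (hS : ∀ ε, d.Geo ε (S ε)) (hρ : Dr ρ ρ')
    (h0 : ∀ t : ℝ, 1 ≤ |t| → ρ t = 0 ∧ ρ' t = 0) {ψ f : ZMod N → H}
    (h : ∀ r, (ψ r, f r) ∈ S (ep r)) :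
    d.Sq (fun k => d.ph ρ k ψ) fun k => d.ph ρ k f + d.En ρ ρ' k ψ := by
  intro χ χ' hχ a b hab
  let u : ℤ → H × H := fun k => (sh χ k • ww (k / N) • sh ρ 0 • ψ k,
    sh χ' k • ww (k / N) • sh ρ 0 • d.σ (ψ k) + sh χ k • ww (k / N) • (sh ρ' 0 • d.σ (ψ k) +
      sh ρ 0 • f k + I • sh (ρ * lin (ep (k : ZMod N)) (k / N)) 0 • d.τ (ψ k)))
  let v : ℤ → H × H := fun k => (sh χ k • ww (k / N) • sh ρ (-1) • ψ (k + 1),
    sh χ' k • ww (k / N) • sh ρ (-1) • d.σ (ψ (k + 1)) + sh χ k • ww (k / N) •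
      (sh ρ' (-1) • d.σ (ψ (k + 1)) + sh ρ (-1) • f (k + 1) +
        I • sh (ρ * lin (ep ((k : ZMod N) + 1)) ((k + 1) / N)) (-1) • d.τ (ψ (k + 1))))
  have k1 : ∀ l : ℤ, u l + v (l - 1) ∈ d.Γ := fun l => by
    have e : (l - 1) / N = l / N - ep (l : ZMod N) := by
      have := div_succ (N := N) (l - 1)
      simp at this
      omega
    have e' : ∀ f g ε q, kap (f + g) ε q = kap f ε q + kap g ε q := fun f g ε q =>
      ContinuousMap.ext fun p => by simp [kap, sh]; ring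
    convert hS _ _ (h l) _ _ ((hχ.aff 1 l).mul hρ) (fun t ht => by simp [h0 t ht]) (l / N) using 1
    simp only [u, v, e, e', ofReal_one, one_smul, mul_assoc (aff χ 1 l), kap_mul, Int.cast_sub,
      Int.cast_one, sub_add_cancel, Prod.mk_add_mk, Prod.mk.injEq]
    constructor <;> module
  have k2 : ∀ k : ℤ, k = a - 1 ∨ k = b - 1 → v k = 0 := fun k hk => by
    have : ∀ t ∈ Icc (0 : ℝ) 1, t + k ≤ a + 1 ∨ b - 1 ≤ t + k := fun t ht => by
      rcases hk with rfl | rfl <;> push_cast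
      exacts [.inl (by linarith [ht.2]), .inr (by linarith [ht.1])]
    have z : ∀ {f : Al}, (∀ t ∈ Icc (0 : ℝ) 1, ∀ w, f (t, w) = 0) → ∀ v : H, f • v = 0 :=
      fun h v => (d.congr (g := 0) h v).trans (zero_smul Al v)
    simp only [v, z (f := sh χ k) fun t ht w => (hab _ (this t ht)).1,
      z (f := sh χ' k) fun t ht w => (hab _ (this t ht)).2, add_zero, Prod.mk_zero_zero]
  convert d.Γ.sum_mem (t := .Ico a b) fun l _ => k1 l using 1
  rw [Finset.sum_add_distrib (f := u), sum_pred (k2 _ (.inl rfl)) (k2 _ (.inr rfl)),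
    ← Finset.sum_add_distrib, prod_mk_sum]
  refine Finset.sum_congr rfl fun k _ => ?_
  simp [u, v, Dat.ph, Dat.En, Dat.U, d.hσ, d.hτ]
  module

theorem ph_add (k q : ℤ) (ψ : ZMod N → H) : d.ph ρ (k + N * q) ψ = ww q • d.ph ρ k ψ := by
  simp [Dat.ph, Int.add_mul_ediv_left _ _ (NeZero.ne (N : ℤ)), ww_add, mul_smul, smul_comm (ww q)]

theorem op_add {ι : Type} {J : Finset ι} {m : ι → ℤ} {B : ι → ℝ → H →L[ℂ] H}
    (hB : ∀ j t v, B j (t + 1) (ww 1 • v) = ww 1 • B j t v) (ψ f : ZMod N → H) (k q : ℤ) :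
    d.op J m B N (fun k => d.ph ρ k ψ) (fun k => d.ph ρ k f + d.En ρ ρ' k ψ) (k + N * q) =
    ww q • d.op J m B N (fun k => d.ph ρ k ψ) (fun k => d.ph ρ k f + d.En ρ ρ' k ψ) k := by
  have N0 : (N : ℂ) ≠ 0 := NeZero.ne _
  have e1 : ((k + N * q : ℤ) : ℝ) / N = k / N + q := by
    have : (N : ℝ) ≠ 0 := NeZero.ne _
    push_cast; field_simp
  have e2 : ∀ ε r c, sh (ρ * lin ε (r + q)) c = sh (ρ * lin ε r) c + (q : ℂ) • sh ρ c :=
    fun ε r c => ContinuousMap.ext fun p => by simp [sh, lin]; ring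
  have e3 : ∀ v : H, (I / (N : ℝ)) • tt (k + N * q : ℤ) • v =
      (I / (N : ℝ)) • tt k • v + (I * q) • v := fun v => by
    rw [← smul_assoc, ← smul_assoc, ← one_smul Al v, ← smul_assoc (I * q), one_smul, ← add_smul]
    congr 1
    exact ContinuousMap.ext fun p => by simp [tt]; field_simp; ring
  simp only [Dat.op, e1, add_sub_right_comm k, ph_add, zeq (hB _), ← Finset.smul_sum, e3]
  simp [Dat.En, ph_add, Int.add_mul_ediv_left _ _ (NeZero.ne (N : ℤ)), add_right_comm k (N * q),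
    e2, ww_add, d.hσ, d.hτ, Dat.ph, Dat.U, add_smul]
  module

theorem exists_inv {β β' : C(ℝ, ℂ)} {L : ℝ} (hβ : Bp β β' L) (hN : Odd N) :
    ∃ W : (ZMod N → H) →L[ℂ] ZMod N → H, (∀ ψ, W (d.U (aff β 2 0) ψ) = ψ) ∧
      ∀ ψ, d.U (aff β 2 0) (W ψ) = ψ := by
  set x := sh (aff β 2 0) 0
  set y := sh (aff β 2 0) (-1)
  have ne : ∀ t ∈ Icc (0 : ℝ) 1, β (2 * t) ^ N + β (2 * (t - 1)) ^ N ≠ 0 := fun t ht => by
    obtain ⟨a, a0, ha⟩ := hβ.re (2 * t)
    obtain ⟨b, b0, hb⟩ := hβ.re (2 * (t - 1))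
    have : a = 1 ∨ b = 1 := by
      rcases le_total t (1 / 2) with h | h
      · exact .inl (by exact_mod_cast ha.symm.trans (hβ.one _ (abs_le.2 ⟨by linarith [ht.1],
          by linarith⟩)))
      · exact .inr (by exact_mod_cast hb.symm.trans (hβ.one _ (abs_le.2 ⟨by linarith,
          by linarith [ht.2]⟩)))
    rw [ha, hb]
    norm_cast
    rcases this with rfl | rfl <;> positivity
  let δ : Al := ⟨fun p => (β (2 * projIcc 0 1 zero_le_one p.1) ^ N +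
    β (2 * (projIcc 0 1 zero_le_one p.1 - 1)) ^ N)⁻¹,
    Continuous.inv₀ (by fun_prop) fun p => ne _ (projIcc 0 1 zero_le_one p.1).2⟩
  have k : ∀ (ψ : ZMod N → H) r, δ • ∑ i ∈ .range N, (x ^ (N - 1 - i) * (-y) ^ i) •
      (x • ψ (r + i) + y • ψ (r + i + 1)) = ψ r := fun ψ r => by
    rw [Finset.sum_congr rfl (g := fun i => (x ^ (N - i) * (-y) ^ i) • ψ (r + i) -
      (x ^ (N - (i + 1)) * (-y) ^ (i + 1)) • ψ (r + (i + 1 : ℕ))) fun i hi => by
        rw [show N - i = N - 1 - i + 1 by have := Finset.mem_range.1 hi; omega,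
          show N - (i + 1) = N - 1 - i by omega, Nat.cast_succ, ← add_assoc]
        module, Finset.sum_range_sub' fun i => (x ^ (N - i) * (-y) ^ i) • ψ (r + i)]
    simp only [Nat.sub_zero, pow_zero, mul_one, Nat.cast_zero, add_zero, Nat.sub_self, one_mul,
      ZMod.natCast_self, hN.neg_pow, ← sub_smul, sub_neg_eq_add, smul_smul]
    refine (d.congr (g := 1) (fun t ht w => ?_) _).trans (one_smul ..)
    simpa [δ, x, y, sh, aff, projIcc_of_mem _ ht, ← sub_eq_add_neg, hN.neg_pow] using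
      inv_mul_cancel₀ (ne t ht)
  refine ⟨.pi fun r => (d.act δ).comp (∑ i ∈ .range N, (d.act (x ^ (N - 1 - i) * (-y) ^ i)).comp
    (.proj (r + i))), fun ψ => funext fun r => ?_, fun ψ => funext fun r => ?_⟩
  · simpa [Dat.U, Finset.smul_sum] using k ψ r
  · rw [← k ψ r]
    simp only [Dat.U, ContinuousLinearMap.pi_apply, ContinuousLinearMap.add_apply,
      ContinuousLinearMap.comp_apply, ContinuousLinearMap.proj_apply, d.act_apply,
      ContinuousLinearMap.sum_apply, Finset.smul_sum, ← Finset.sum_add_distrib, add_right_comm r 1]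
    exact Finset.sum_congr rfl fun i _ => by module

theorem fin {ι : Type} {J : Finset ι} {m : ι → ℤ} {B : ι → ℝ → H →L[ℂ] H}
    (hB : ∀ j t v, B j (t + 1) (ww 1 • v) = ww 1 • B j t v) (hN : Odd N) {C : ℝ}
    (hC : ∀ φ E : ℤ → H, d.Sq φ E → ∀ P Γ : ℝ, (∀ k, ‖φ k‖ ≤ P) →
      (∀ k, ‖d.op J m B N φ E k‖ ≤ Γ) → ∀ k₀ : ℕ, k₀ ≤ N → ‖φ k₀‖ ^ 2 ≤ C * Γ ^ 2 + P ^ 2 / 2)
    {S : ℤ → Set (H × H)} (hS : ∀ ε, d.Geo ε (S ε)) :
    ∃ (T : (ZMod N → H) →L[ℂ] ZMod N → H) (C : ℝ), ∀ ψ f,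
      (∀ r, (ψ r, f r) ∈ S (ep r)) → ‖ψ‖ ≤ C * ‖f + T ψ‖ := by
  obtain ⟨β, β', L, hβ⟩ := exists_bp
  obtain ⟨W, w1, w2⟩ := exists_inv d hβ hN
  have hρ := hβ.dr.aff 2 0
  set ρ := aff β 2 0
  set ρ' := ((2 : ℝ) : ℂ) • aff β' 2 0
  let K : (ZMod N → H) →L[ℂ] ZMod N → H := .pi fun r =>
    d.En ρ ρ' r.val - (I / (N : ℝ)) • (d.act (tt (r.val : ℤ))).comp (d.τ.comp
      (d.ph ρ r.val)) + ∑ j ∈ J, (B j ((r.val : ℤ) / N)).comp (d.ph ρ (r.val - m j))
  refine ⟨W.comp K, ‖W‖ * (|C + 1| * ‖d.U (N := N) ρ‖), fun ψ f h => ?_⟩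
  have p0 : ∀ (g : ZMod N → H) (r : ZMod N), d.ph ρ r.val g = d.U ρ g r := fun g r => by
    simp [Dat.ph, -ZMod.natCast_val, Int.ediv_eq_zero_of_lt (Nat.cast_nonneg r.val)
      (Int.ofNat_lt.2 r.val_lt), ww_zero, ZMod.natCast_zmod_val]
  have nw : ∀ q (v : H), ‖ww q • v‖ = ‖v‖ := fun q => d.unit fun p => Circle.norm_coe _
  have k := hC _ _ (seq d ρ ρ' hS hρ (fun t ht => by
    have := hβ.zero (2 * t + 0) (by rw [add_zero, abs_mul, abs_two]; linarith)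
    exact ⟨this.1, (congrArg (_ • ·) this.2).trans (smul_zero ((2 : ℝ) : ℂ))⟩) h) ‖d.U ρ ψ‖
    ‖d.U ρ f + K ψ‖ (fun k => (nw _ _).trans_le (norm_le_pi_norm (d.U ρ ψ) k)) fun k => by
      rw [← Int.emod_add_mul_ediv k N, op_add d ρ ρ' hB, nw, ← ZMod.val_intCast]
      refine le_trans (le_of_eq (congrArg _ ?_)) (norm_le_pi_norm (d.U ρ f + K ψ) (k : ZMod N))
      simp only [Dat.op, p0, K, Pi.add_apply, ContinuousLinearMap.pi_apply,
        ContinuousLinearMap.add_apply, ContinuousLinearMap.sub_apply, ContinuousLinearMap.smul_apply,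
        ContinuousLinearMap.sum_apply, ContinuousLinearMap.comp_apply, d.act_apply]
      abel
  have k1 : ‖d.U ρ ψ‖ ^ 2 ≤ C * ‖d.U ρ f + K ψ‖ ^ 2 + ‖d.U ρ ψ‖ ^ 2 / 2 := by
    obtain ⟨r, -, hr⟩ := Finset.exists_max_image Finset.univ (fun r => ‖d.U ρ ψ r‖) ⟨0, by simp⟩
    refine le_trans (pow_le_pow_left₀ (norm_nonneg _) ?_ 2) (k r.val r.val_lt.le)
    rw [p0]
    exact (pi_norm_le_iff_of_nonneg (norm_nonneg _)).2 fun i => hr i (by simp)
  have k2 : ‖d.U ρ ψ‖ ≤ |C + 1| * ‖d.U ρ f + K ψ‖ :=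
    (sq_le_sq₀ (norm_nonneg _) (by positivity)).1 (by
    rw [mul_pow, sq_abs]
    nlinarith [mul_nonneg (sq_nonneg ‖d.U ρ f + K ψ‖) (sq_nonneg C)])
  rw [← w2 (K ψ), ← map_add] at k2
  conv_lhs => rw [← w1 ψ]
  grw [W.le_opNorm, k2, (d.U ρ).le_opNorm (f + W (K ψ))]
  exact le_of_eq (by simp [mul_assoc])

theorem abs_thm : ABS_statement := by
  intro H _ _ _ _ d S A c c0 hA h0 h1 hE hS
  obtain ⟨J, B, e1, e2, e3⟩ := est_of d c0 hA h0 h1 hE
  obtain ⟨n, C, hC⟩ := core (half_pos c0) e1 e2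
  exact ⟨n, fin d e3 ⟨n, rfl⟩ (hC _ (by omega)) hS⟩

end Vale.Agent.P247W.Qu
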