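import Vale.Agent.P247W.QuSta

/-!
# P247W, quantisation: the twisted line bundle
-/

set_option linter.all false

open scoped Topology ContDiff ComplexConjugate
open Set Filter Complex

noncomputable section

namespace Vale.Agent.P247W.Qu.Lt

open Vale.Agent.P204.GX Vale.Agent.P204.T4 Vale.Agent.P247E
open Vale.Agent.P247.H647 (Sp En cov)
open Vale.Agent.P247.H74 (e)

theorem exists_lift0 {G : V4 → ℂ} (hG : ContDiff ℝ ∞ G) (h1 : ∀ y, ‖G y‖ = 1) :
    ∃ θ : V4 → ℝ, ContDiff ℝ ∞ θ ∧ ∀ y, ee (θ y) = G y := by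
  have h0 : ∀ y, G y ≠ 0 := fun y => norm_ne_zero_iff.1 (by rw [h1]; exact one_ne_zero)
  obtain ⟨F, ⟨-, hF⟩, -⟩ := isCoveringMapOn_exp.existsUnique_continuousMap_lifts
    ⟨G, hG.continuous⟩ (exp_log (h0 0)) h0
  have hF' : ∀ y, exp (F y) = G y := congrFun hF
  have sF : ContDiff ℝ ∞ F := contDiff_iff_contDiffAt.2 fun y => by
    have c : ContinuousAt (fun z => (F z - F y).im) y := by fun_prop
    have l : ContDiffAt ℝ ∞ log (G y / G y) := by
      rw [div_self (h0 y)]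
      exact (contDiffAt_log one_mem_slitPlane).restrict_scalars ℝ
    refine (contDiffAt_const (c := F y).add (ContDiffAt.comp (f := fun z => G z / G y) y l
      (hG.contDiffAt.div_const _))).congr_of_eventuallyEq ?_
    have t : Ioo (-Real.pi) Real.pi ∈ 𝓝 (F y - F y).im := by
      rw [sub_self]; exact Ioo_mem_nhds (by simpa using Real.pi_pos) Real.pi_pos
    filter_upwards [c.eventually t] with z hz
    rw [Function.comp_apply, ← hF', ← hF', ← exp_sub, log_exp hz.1 hz.2.le, add_sub_cancel]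
  refine ⟨fun y => (F y).im / (2 * Real.pi), (imCLM.contDiff.comp sF).div_const _, fun y => ?_⟩
  have r : (F y).re = 0 := by
    have := h1 y
    rwa [← hF', norm_exp, Real.exp_eq_one_iff] at this
  have p : (Real.pi : ℂ) ≠ 0 := ofReal_ne_zero.2 Real.pi_ne_zero
  rw [← hF', ee]
  congr 1
  conv_rhs => rw [← re_add_im (F y), r]
  push_cast
  field_simp
  simp

theorem th_ee (t : ℝ) : th (ee t) = t - ⌊t⌋ := by
  rw [th, ee, show 2 * (Real.pi : ℂ) * I * t = ((2 * Real.pi * t : ℝ) : ℂ) * I by push_cast; ring,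
    arg_exp_mul_I, toIocMod, zsmul_eq_mul, sub_div, mul_div_cancel_left₀ _ Real.two_pi_pos.ne',
    mul_div_cancel_right₀ _ Real.two_pi_pos.ne', Int.fract_sub_intCast, Int.fract]

theorem int_of_ee {s t : ℝ} (h : ee s = ee t) : ∃ k : ℤ, s - t = k := by
  obtain ⟨k, hk⟩ := exp_eq_exp_iff_exists_int.1 h
  have p : (2 * Real.pi * I : ℂ) ≠ 0 := by simp [Real.pi_ne_zero]
  refine ⟨k, ofReal_injective (mul_left_cancel₀ p ?_)⟩
  push_cast
  linear_combination hk

theorem int_ev {f : V4 → ℝ} {y : V4} (hc : ContinuousAt f y)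
    (hi : ∀ᶠ z in 𝓝 y, ∃ k : ℤ, f z = k) : ∃ k : ℤ, ∀ᶠ z in 𝓝 y, f z = k := by
  obtain ⟨k, hk⟩ := hi.self_of_nhds
  refine ⟨k, ?_⟩
  filter_upwards [hi, hc.eventually (Ioo_mem_nhds (sub_one_lt _) (lt_add_one _))]
    with z ⟨l, hl⟩ hz
  rw [hl, hk] at hz
  have a1 : k - 1 < l := by exact_mod_cast hz.1
  have a2 : l < k + 1 := by exact_mod_cast hz.2
  rw [hl, show l = k by omega]

/-- the dot product -/
def dpL : V4 →L[ℝ] V4 →L[ℝ] ℝ :=
  ∑ i, (ContinuousLinearMap.proj i : V4 →L[ℝ] ℝ).smulRight (ContinuousLinearMap.proj i)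

theorem dpL_apply (a v : V4) : dpL a v = dp a v := by simp [dpL, dp]

variable {X : Type} [MetricSpace X] {M : CM X}

theorem dp_fv (η : X → V4) (b : M.A) (y : V4) (c : Fin 4) :
    dp (M.cf1 b η y) (fv M b y c) = η (M.ψ b y) c := by
  rw [CM.cf1, dp_copp, fv, M.m_m']
  simp [dp, e, Pi.single_apply]

theorem dp_tau (η : X → V4) {a b : M.A} {y : V4} (h : y ∈ M.O a b) (v : V4) :
    dp (M.cf1 b η (M.τ a b y)) (fderiv ℝ (M.τ a b) y v) = dp (M.cf1 a η y) v := by
  rw [M.cf1_compat η h, dp_copp, CM.Dt, app_Dm (M.differentiableAt_τ h)]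

theorem lg_fd {u : X → ℂ} {η : X → V4} (h : Lg M u η) (b : M.A) (y v : V4) :
    fderiv ℝ (fun z => u (M.ψ b z)) y v = I * dp (M.cf1 b η y) v * u (M.ψ b y) := by
  rw [clm_vec]
  simp only [← sum_m_fv (fderiv ℝ (fun z => u (M.ψ b z)) y) b y, ← df_psi h.sm, h.der, dp, CM.cf1,
    copp, Fin.sum_univ_four, real_smul]
  push_cast
  ring

/-- smooth lifts of the angle of `g` in the charts -/
structure Lift (M : CM X) (g : X → ℂ) (a : X → V4) where
  θ : M.A → V4 → ℝ
  sm : ∀ b, ContDiff ℝ ∞ (θ b)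
  eq : ∀ b y, ee (θ b y) = g (M.ψ b y)
  der : ∀ b y v, fderiv ℝ (θ b) y v = dp (M.cf1 b a y) v / (2 * Real.pi)

theorem exists_Lift {g : X → ℂ} {a : X → V4} (h : Lg M g a) : Nonempty (Lift M g a) := by
  choose θ h1 h2 using fun b => exists_lift0 (h.sm b) fun y => h.nm _
  refine ⟨⟨θ, h1, h2, fun b y v => ?_⟩⟩
  have d := (dr_e.der (θ b y)).hasFDerivAt.comp y ((h1 b).differentiable (by simp) y).hasFDerivAt
  have e1 : (fun z => g (M.ψ b z)) = eC ∘ θ b := funext fun z => (h2 b z).symm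
  have e2 := lg_fd h b y v
  rw [e1, d.fderiv, ← h2] at e2
  have n : ee (θ b y) ≠ 0 := norm_ne_zero_iff.1 (by rw [norm_ee]; exact one_ne_zero)
  have p : (Real.pi : ℂ) ≠ 0 := ofReal_ne_zero.2 Real.pi_ne_zero
  simp only [ContinuousLinearMap.comp_apply, ContinuousLinearMap.toSpanSingleton_apply, eC,
    ContinuousMap.smul_apply, ContinuousMap.coe_mk, smul_eq_mul, real_smul] at e2
  refine ofReal_injective (mul_left_cancel₀ (mul_ne_zero I_ne_zero n) ?_)
  push_cast
  field_simp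
  refine mul_left_cancel₀ (mul_ne_zero I_ne_zero n) ?_
  linear_combination e2

variable {g : X → ℂ} {a a' : X → V4} {g' : X → Circle}

theorem Lift.tr (T : Lift M g a) {b c : M.A} {y : V4} (h : y ∈ M.O b c) :
    ∃ k : ℤ, ∀ᶠ z in 𝓝 y, T.θ b z - T.θ c (M.τ b c z) = k :=
  int_ev ((T.sm b).continuous.continuousAt.sub
    ((T.sm c).continuous.continuousAt.comp (M.continuousAt_τ h)))
    (by
      filter_upwards [(M.isOpen_O b c).mem_nhds h] with z hz
      exact int_of_ee (by rw [T.eq, T.eq, M.ψ_τ hz]))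

theorem conj_zpow (w : Circle) (n : ℤ) : conj ((w : ℂ) ^ n) = (w : ℂ) ^ (-n) := by
  rw [map_zpow₀, ← Circle.coe_inv_eq_conj, Circle.coe_inv, inv_zpow']

/-- the gauge of the twisted bundle -/
def Lift.W (T : Lift M g a) (g' : X → Circle) (ε : ℤ) (b : M.A) (y : V4) : ℂ :=
  (g' (M.ψ b y) : ℂ) ^ (-(ε * ⌊T.θ b y⌋))

theorem Lift.tr_ev (T : Lift M g a) (L : LBc M) (g' : X → Circle) (ε : ℤ) {b c : M.A} {y : V4}
    (h : y ∈ M.O b c) : ∃ k : ℤ, T.θ b y - T.θ c (M.τ b c y) = k ∧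
      (fun z => conj (L.γ c (M.τ b c z) * T.W g' ε c (M.τ b c z)) * (L.γ b z * T.W g' ε b z)) =ᶠ[𝓝 y]
        fun z => conj (L.γ c (M.τ b c z)) * L.γ b z * (g' (M.ψ b z) : ℂ) ^ (-(ε * k)) := by
  obtain ⟨k, hk⟩ := T.tr h
  refine ⟨k, hk.self_of_nhds, ?_⟩
  filter_upwards [hk, (M.isOpen_O b c).mem_nhds h] with z h1 h2
  rw [Lift.W, Lift.W, M.ψ_τ h2, eq_add_of_sub_eq' h1, Int.floor_add_intCast, map_mul, conj_zpow,
    mul_mul_mul_comm, ← zpow_add₀ (Circle.coe_ne_zero _)]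
  congr 2
  ring

/-- the twisted bundle -/
def Lift.tw (T : Lift M g a) (L : LBc M) (h' : Lg M (fun x => (g' x : ℂ)) a') (ε : ℤ) : LBc M where
  γ b y := L.γ b y * T.W g' ε b y
  γ_meas b := (L.γ_meas b).mul ((h'.sm b).continuous.measurable.pow
    ((measurable_of_countable fun k : ℤ => -(ε * k)).comp (T.sm b).continuous.measurable.floor))
  γ_norm b y := by rw [norm_mul, L.γ_norm, Lift.W, norm_zpow, Circle.norm_coe, one_zpow, one_mul]
  A b y := L.A b y + (ε * T.θ b y) • dpL (M.cf1 b a' y)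
  A_smooth b := (L.A_smooth b).add ((contDiff_const.mul (T.sm b)).smul
    (dpL.contDiff.comp (h'.closed.1 b)))
  G_smooth b c y hy := by
    obtain ⟨k, -, hk⟩ := T.tr_ev L g' ε hy
    exact ((((L.G_smooth b c).contDiffAt ((M.isOpen_O b c).mem_nhds hy)).mul
      ((h'.zpow (-(ε * k))).sm b).contDiffAt).congr_of_eventuallyEq hk).contDiffWithinAt
  G_der b c y hy v := by
    obtain ⟨k, h1, hk⟩ := T.tr_ev L g' ε hy
    have d1 := ((L.G_smooth b c).contDiffAt ((M.isOpen_O b c).mem_nhds hy)).differentiableAt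
      (by simp)
    have d2 := ((h'.zpow (-(ε * k))).sm b).differentiable (by simp) y
    have d3 := lg_fd (h'.zpow (-(ε * k))) b y v
    rw [M.cf1_smul, Pi.smul_apply, dp_smul_left] at d3
    have d4 := hk.self_of_nhds
    beta_reduce at d4
    rw [hk.fderiv_eq, d4, fderiv_fun_mul d1 d2]
    simp only [ContinuousLinearMap.add_apply, ContinuousLinearMap.smul_apply, smul_eq_mul,
      L.G_der b c y hy, d3, dpL_apply, dp_tau a' hy, eq_add_of_sub_eq' h1]
    push_cast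
    ring

theorem Lift.tw_F (T : Lift M g a) (L : LBc M) (h' : Lg M (fun x => (g' x : ℂ)) a') (ε : ℤ) :
    (T.tw L h' ε).F = fun x => L.F x + (ε / (2 * Real.pi) : ℝ) • wd (a x) (a' x) := by
  refine M.ext_cf fun b y _ => ?_
  have s := h'.closed.1 b
  have e1 : (fun y i => (T.tw L h' ε).A b y (e i)) = (fun y i => L.A b y (e i)) +
      fun y => (ε * T.θ b y) • M.cf1 b a' y := by
    funext y i
    simp [Lift.tw, dpL_apply, dp, e, Pi.single_apply]
  have d1 : DifferentiableAt ℝ (fun y => ε * T.θ b y) y :=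
    ((T.sm b).differentiable (by simp) y).const_mul _
  have d2 := fun j => (contDiff_pi.1 s j).differentiable (by simp) y
  have e2 : ∀ i, P204.T4.pd i (fun y => ε * T.θ b y) y = ε / (2 * Real.pi) * M.cf1 b a y i := by
    intro i
    rw [P204.GX.pd_const_mul ((T.sm b).differentiable (by simp) y), P204.T4.pd, T.der]
    simp [dp, Pi.single_apply]
    ring
  have e3 := congrFun (M.cf_dX h'.closed.1 b) y
  rw [h'.closed.2, M.cf_zero] at e3
  have s2 : ContDiff ℝ ∞ fun y => (ε * T.θ b y) • M.cf1 b a' y :=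
    (contDiff_const.mul (T.sm b)).smul s
  rw [LBc.cf_F, e1, d1_add ((L.cd_A b).differentiable (by simp)) (s2.differentiable (by simp)), CM.cf, pull_add, pull_smul,
    pull_wd, ← CM.cf, L.cf_F, ← CM.cf1, ← CM.cf1]
  congr 1
  funext k
  have e4 := congrFun e3 k
  fin_cases k <;>
    simp [P204.T4.d1, ofEnt, wd, P204.GX.pd_mul d1 (d2 _), e2] at e4 ⊢ <;>
    linear_combination (-(ε * T.θ b y)) * e4

end Vale.Agent.P247W.Qu.Lt
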