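import Vale.Agent.P247W.QuSta

/-!
# P247W, quantisation: the angle of a circle valued function in a chart
-/

set_option linter.all false

open scoped Topology ContDiff
open Set Filter Complex

noncomputable section

namespace Vale.Agent.P247W.Qu.Lt

open Vale.Agent.P204.GX Vale.Agent.P204.T4 Vale.Agent.P247E
open Vale.Agent.P247.H74 (e)

/-- a smooth function without zero on a vector space has a smooth logarithm -/
theorem exists_log {E : Type} [NormedAddCommGroup E] [NormedSpace ℝ E] {u : E → ℂ}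
    (hu : ContDiff ℝ ∞ u) (h0 : ∀ y, u y ≠ 0) :
    ∃ l : E → ℂ, ContDiff ℝ ∞ l ∧ ∀ y, exp (l y) = u y := by
  obtain ⟨l, ⟨-, hl⟩, -⟩ := isCoveringMap_exp.existsUnique_continuousMap_lifts
    (⟨fun y => ⟨u y, h0 y⟩, hu.continuous.subtype_mk _⟩ : C(E, {z : ℂ // z ≠ 0})) 0 (log (u 0))
    (Subtype.ext (exp_log (h0 0)))
  have k : ∀ y, exp (l y) = u y := fun y => congrArg Subtype.val (congrFun hl y)
  refine ⟨l, contDiff_iff_contDiffAt.2 fun z => ?_, k⟩
  have c : ContDiffAt ℝ ∞ (fun w => log (u w / u z)) z :=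
    ((contDiffAt_log (by simp [div_self (h0 z)])).restrict_scalars ℝ).comp z
      (hu.contDiffAt.div_const (u z))
  refine ((contDiffAt_const (c := l z)).add c).congr_of_eventuallyEq ?_
  filter_upwards [l.continuous.continuousAt.eventually (Metric.ball_mem_nhds (l z) Real.pi_pos)]
    with w h2
  have h3 : |(l w - l z).im| < Real.pi := (abs_im_le_norm _).trans_lt (by rwa [← dist_eq_norm])
  rw [← k, ← k, ← exp_sub, log_exp (abs_lt.1 h3).1 (abs_lt.1 h3).2.le, add_sub_cancel]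

/-- the derivative of a circle valued function in a chart -/
theorem fderiv_lg {X : Type} [MetricSpace X] {M : CM X} {g : X → ℂ} {a : X → V4} (h : Lg M g a)
    (b : M.A) (y v : V4) : fderiv ℝ (fun z => g (M.ψ b z)) y v =
      I * ((∑ i, M.cf1 b a y i * v i : ℝ) : ℂ) * g (M.ψ b y) := by
  have k : ∀ i, fderiv ℝ (fun z => g (M.ψ b z)) y (e i) =
      I * (M.cf1 b a y i : ℂ) * g (M.ψ b y) := fun i => by
    rw [← sum_m_fv _ b y]
    simp only [← df_psi h.sm, h.der, CM.cf1, copp, Fin.sum_univ_four, real_smul]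
    push_cast
    ring
  rw [clm_vec]
  simp only [k, Fin.sum_univ_four, real_smul]
  push_cast
  ring

/-- the angle in a chart -/
theorem exists_lift {X : Type} [MetricSpace X] {M : CM X} {g : X → ℂ} {a : X → V4} (h : Lg M g a)
    (b : M.A) : ∃ θ : V4 → ℝ, ContDiff ℝ ∞ θ ∧ (∀ y, ee (θ y) = g (M.ψ b y)) ∧
      ∀ y v, fderiv ℝ θ y v = (∑ i, M.cf1 b a y i * v i) / (2 * Real.pi) := by
  have h0 : ∀ y, g (M.ψ b y) ≠ 0 := fun y => norm_ne_zero_iff.1 (by rw [h.nm]; exact one_ne_zero)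
  obtain ⟨l, s, k⟩ := exists_log (h.sm b) h0
  have p0 : (2 * Real.pi : ℝ) ≠ 0 := by positivity
  have r0 : ∀ y, (l y).re = 0 := fun y => by
    rw [← Real.exp_eq_one_iff, ← norm_exp, k, h.nm]
  refine ⟨fun y => (2 * Real.pi)⁻¹ * (l y).im, contDiff_const.mul (imCLM.contDiff.comp s),
    fun y => ?_, fun y v => ?_⟩
  · rw [← k, ee]
    congr 1
    have : (Real.pi : ℂ) ≠ 0 := ofReal_ne_zero.2 Real.pi_ne_zero
    conv_rhs => rw [← re_add_im (l y), r0]
    push_cast
    field_simp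
    simp
  · have d := (s.differentiable (by simp) y).hasFDerivAt
    have d1 := d.cexp.fderiv
    simp only [k] at d1
    have d2 := fderiv_lg h b y v
    rw [d1, ContinuousLinearMap.smul_apply, smul_eq_mul, mul_comm] at d2
    have d3 := mul_right_cancel₀ (h0 y) d2
    refine (congrArg (fun T : V4 →L[ℝ] ℝ => T v)
      ((imCLM.hasFDerivAt.comp y d).const_mul (2 * Real.pi)⁻¹).fderiv).trans ?_
    simp [d3, div_eq_inv_mul]

theorem th_eq {t : ℝ} {z : ℂ} (h : ee t = z) : th z = Int.fract t := by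
  have p0 : (2 * Real.pi : ℝ) ≠ 0 := by positivity
  have e1 : z = exp (((2 * Real.pi * t : ℝ) : ℂ) * I) := by
    rw [← h, ee]; congr 1; push_cast; ring
  have n1 : ‖z‖ = 1 := h ▸ norm_ee t
  have e2 : exp ((arg z : ℂ) * I) = z := by
    simpa only [n1, ofReal_one, one_mul] using norm_mul_exp_arg_mul_I z
  obtain ⟨n, hn⟩ := exp_eq_exp_iff_exists_int.1 (e2.trans e1)
  have e3 : arg z = 2 * Real.pi * t + n * (2 * Real.pi) := by
    have := congrArg im hn
    simpa using this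
  rw [th, e3, show (2 * Real.pi * t + n * (2 * Real.pi)) / (2 * Real.pi) = t + n by field_simp,
    Int.fract_add_intCast]

theorem kap_apply (η : C(ℝ, ℂ)) (ε q : ℤ) (t : ℝ) (w : Circle) : kap η ε q (t, w) =
    η t * (w : ℂ) ^ q + η (t - 1) * (w : ℂ) ^ (q - ε) := by
  simp [kap, sh, ww, sub_eq_add_neg]

/-- the local form of `kap` -/
theorem kap_loc {η : C(ℝ, ℂ)} (h : ∀ t : ℝ, 1 ≤ |t| → η t = 0) (ε q m : ℤ) {θ : ℝ}
    (h1 : (m : ℝ) - 1 ≤ θ) (h2 : θ < m + 1) (w : Circle) :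
    kap η ε q (Int.fract θ, w) * (w : ℂ) ^ (-(ε * ⌊θ⌋)) =
      η (θ - (m - 1 : ℤ)) * (w : ℂ) ^ (q - ε * (m - 1)) + η (θ - m) * (w : ℂ) ^ (q - ε * m) +
        η (θ - (m + 1 : ℤ)) * (w : ℂ) ^ (q - ε * (m + 1)) := by
  have w0 : (w : ℂ) ≠ 0 := w.coe_ne_zero
  rw [kap_apply, add_mul, mul_assoc, mul_assoc, ← zpow_add₀ w0, ← zpow_add₀ w0, Int.fract]
  rcases lt_or_ge θ m with k | k
  · have f : ⌊θ⌋ = m - 1 := Int.floor_eq_iff.2 ⟨by push_cast; linarith, by push_cast; linarith⟩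
    rw [f, h (θ - (m + 1 : ℤ)) (le_abs.2 (.inr (by push_cast; linarith))), zero_mul, add_zero]
    congr 3
    · push_cast; ring
    · ring
  · have f : ⌊θ⌋ = m := Int.floor_eq_iff.2 ⟨k, h2⟩
    rw [f, h (θ - (m - 1 : ℤ)) (le_abs.2 (.inl (by push_cast; linarith))), zero_mul, zero_add]
    congr 3
    · push_cast; ring
    · ring

end Vale.Agent.P247W.Qu.Lt
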